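import Mathlib

/-!
A continuum radial pair potential with a phase transition: definitions and interfaces.
-/

open MeasureTheory Filter
open scoped Topology Classical

namespace Vale.Agent.P171

/-- Euclidean three-space. -/
abbrev R3 : Type := EuclideanSpace ℝ (Fin 3)

/-- The cube `[0, L]^3`. -/
def cube (L : ℝ) : Set R3 := {x | ∀ i, x i ∈ Set.Icc 0 L}

/-- The pair energy `∑_{i<j} φ(|x_i - x_j|)`. -/
noncomputable def energy (φ : ℝ → ℝ) {N : ℕ} (x : Fin N → R3) : ℝ :=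
  ∑ i, ∑ j ∈ Finset.univ.filter (fun j => i < j), φ (dist (x i) (x j))

/-- The canonical partition function `(1/N!) ∫_{[0,L]^{3N}} e^{-β U}`. -/
noncomputable def Z (φ : ℝ → ℝ) (β L : ℝ) (N : ℕ) : ℝ :=
  (1 / (N.factorial : ℝ)) *
    ∫ x in Set.univ.pi (fun _ : Fin N => cube L), Real.exp (-β * energy φ x)

/-- The grand canonical partition function at activity `z`. -/
noncomputable def Xi (φ : ℝ → ℝ) (β z L : ℝ) : ℝ := ∑' N : ℕ, z ^ N * Z φ β L N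

/-- `φ` is stable. -/
def Stable (φ : ℝ → ℝ) : Prop :=
  ∃ B : ℝ, ∀ (N : ℕ) (x : Fin N → R3), Function.Injective x → -B * (N : ℝ) ≤ energy φ x

/-- `φ` is tempered. -/
def Tempered (φ : ℝ → ℝ) : Prop :=
  ∃ C ε R₀ : ℝ, 0 < C ∧ 0 < ε ∧ 0 < R₀ ∧ ∀ r, R₀ ≤ r → φ r ≤ C * r ^ (-3 - ε)

/-- `φ` is bounded on compact subsets of `(0, ∞)`. -/
def LocallyBoundedPos (φ : ℝ → ℝ) : Prop :=
  ∀ S : Set ℝ, IsCompact S → S ⊆ Set.Ioi 0 → ∃ C : ℝ, ∀ r ∈ S, |φ r| ≤ C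

/-- `press` is the infinite-volume pressure (times `β`) as a function of the activity. -/
def IsPressure (φ : ℝ → ℝ) (β : ℝ) (press : ℝ → ℝ) : Prop :=
  ∀ z : ℝ, 0 < z → Tendsto (fun L : ℝ => Real.log (Xi φ β z L) / L ^ 3) atTop (𝓝 (press z))

/-! ### Building blocks -/

/-- The finite-volume pressure at inverse temperature one and chemical potential `μ`. -/
noncomputable def P (φ : ℝ → ℝ) (L μ : ℝ) : ℝ :=
  Real.log (Xi φ 1 (Real.exp μ) L) / L ^ 3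

/-- The repulsive core: `K` up to distance `2`. -/
noncomputable def core (K : ℝ) (r : ℝ) : ℝ := if r ≤ 2 then K else 0

/-- The indicator of a ball of radius `R`, normalised to total mass one on `R3`. -/
noncomputable def J (R : ℝ) (r : ℝ) : ℝ :=
  if r ≤ R then (4 / 3 * Real.pi * R ^ 3)⁻¹ else 0

/-- The number of ordered pairs of particles in a common unit cell, `∑_c N_c ^ 2`. -/
noncomputable def cellSq {N : ℕ} (x : Fin N → R3) : ℝ :=
  ((Finset.univ.filter fun p : Fin N × Fin N =>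
    ∀ i, ⌊x p.1 i⌋ = ⌊x p.2 i⌋).card : ℝ)

/-- An attraction of range at most `R₀` and strength at most `A`. -/
structure Attr (g : ℝ → ℝ) (R₀ A : ℝ) : Prop where
  meas : Measurable g
  nonneg : ∀ r, 0 ≤ g r
  range : ∀ r, R₀ < r → g r = 0
  mass : ∀ (N : ℕ) (x : Fin N → R3), energy g x ≤ A * cellSq x

/-- Geometry of the kernel: `J R` is an attraction of strength independent of `R`. -/
def KernelAttr : Prop :=
  ∃ cJ : ℝ, 0 < cJ ∧ ∀ R : ℝ, 1 ≤ R → Attr (J R) R cJ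

/-- Upper half of the Kac step: adding `-a J_R` to `core K - g`. -/
def UpperStep : Prop :=
  ∀ cJ A₀ K W : ℝ, (∀ R : ℝ, 1 ≤ R → Attr (J R) R cJ) →
    0 ≤ A₀ → 8 * (A₀ + A₀ * cJ + 1) ≤ K → 0 ≤ W →
    ∃ C : ℝ, ∀ (g : ℝ → ℝ) (R₀ a L R Λ μ : ℝ), Attr g R₀ A₀ →
      2 ≤ R₀ → 0 < a → a ≤ A₀ → 8 * R₀ ≤ L → 8 * L ≤ R → R ≤ Λ → |μ| ≤ W →
      ∃ x : ℝ, |x| ≤ C ∧
        P (fun r => core K r - g r - a * J R r) Λ μ ≤
          P (fun r => core K r - g r) L x - (x - μ) ^ 2 / (2 * a) +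
            C * (R₀ / L + L / R + R / Λ)

/-- Lower half of the Kac step. -/
def LowerStep : Prop :=
  ∀ cJ A₀ K W : ℝ, (∀ R : ℝ, 1 ≤ R → Attr (J R) R cJ) →
    0 ≤ A₀ → 8 * (A₀ + A₀ * cJ + 1) ≤ K → 0 ≤ W →
    ∃ C : ℝ, ∀ (g : ℝ → ℝ) (R₀ a L R Λ μ x : ℝ), Attr g R₀ A₀ →
      2 ≤ R₀ → 0 < a → a ≤ A₀ → 8 * R₀ ≤ L → 8 * L ≤ R → R ≤ Λ → |μ| ≤ W → |x| ≤ W →
      P (fun r => core K r - g r) L x - (x - μ) ^ 2 / (2 * a) -
          C * (R₀ / L + L / R + R / Λ) ≤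
        P (fun r => core K r - g r - a * J R r) Λ μ

end Vale.Agent.P171
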