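import Mathlib
import Vale.Agent.P171.Defs

/-!
The normalised ball kernel is an attraction whose strength does not depend on the radius.
-/

open Finset
open scoped Classical

namespace Vale.Agent.P171

/-- The unit cell of a point. -/
noncomputable def cellOf (y : R3) : Fin 3 → ℤ := fun k => ⌊y k⌋

theorem cellSq_eq_sum {N : ℕ} (x : Fin N → R3) :
    cellSq x = ∑ c ∈ univ.image (fun i => cellOf (x i)),
      ((univ.filter fun i => cellOf (x i) = c).card : ℝ) ^ 2 := by
  have h : (univ.filter fun p : Fin N × Fin N => ∀ k, ⌊x p.1 k⌋ = ⌊x p.2 k⌋) =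
      (univ.image (fun i => cellOf (x i))).biUnion
        (fun c => (univ.filter fun i => cellOf (x i) = c) ×ˢ
          (univ.filter fun i => cellOf (x i) = c)) := by
    ext p
    simp only [mem_filter, mem_univ, true_and, mem_biUnion, mem_image, mem_product]
    constructor
    · intro hp
      exact ⟨cellOf (x p.1), ⟨p.1, rfl⟩, rfl, funext fun k => (hp k).symm⟩
    · rintro ⟨c, _, h1, h2⟩ k
      exact congrFun (h1.trans h2.symm) k
  unfold cellSq
  rw [h, card_biUnion]
  · push_cast
    exact sum_congr rfl fun c _ => by rw [card_product]; push_cast; ring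
  · intro a _ b _ hab
    rw [Function.onFun, disjoint_left]
    intro p h1 h2
    simp only [mem_product, mem_filter, mem_univ, true_and] at h1 h2
    exact hab (h1.1.symm.trans h2.1)

theorem abs_coord_sub_le (u v : R3) (k : Fin 3) : |u k - v k| ≤ dist u v := by
  rw [dist_eq_norm]
  simpa [Real.norm_eq_abs] using PiLp.norm_apply_le (u - v) k

/-- Pairs at distance at most `R` are at most `(5R)^3` times the pairs in a common cell. -/
theorem close_pairs_le_cellSq {N : ℕ} (x : Fin N → R3) {R : ℝ} (hR : 1 ≤ R) :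
    ∑ i : Fin N, ∑ j : Fin N, (if dist (x i) (x j) ≤ R then (1 : ℝ) else 0) ≤
      (5 * R) ^ 3 * cellSq x := by
  set c : Fin N → (Fin 3 → ℤ) := fun i => cellOf (x i) with hc
  set m : ℤ := ⌊R⌋ + 1 with hm
  set near : (Fin 3 → ℤ) → (Fin 3 → ℤ) → Prop := fun a b => ∀ k, |a k - b k| ≤ m with hnear
  have h1 : ∀ i j, (if dist (x i) (x j) ≤ R then (1 : ℝ) else 0) ≤
      if near (c i) (c j) then (1 : ℝ) else 0 := by
    intro i j
    split_ifs with hd hn hn <;> try norm_num
    apply hn
    intro k
    have h := (abs_coord_sub_le (x i) (x j) k).trans hd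
    have e1 := Int.floor_le (x i k)
    have e2 := Int.lt_floor_add_one (x i k)
    have e3 := Int.floor_le (x j k)
    have e4 := Int.lt_floor_add_one (x j k)
    obtain ⟨h', h''⟩ := abs_le.mp h
    have hlt : |((⌊x i k⌋ - ⌊x j k⌋ : ℤ) : ℝ)| < R + 1 := by
      rw [abs_lt]; push_cast; constructor <;> linarith
    have : |⌊x i k⌋ - ⌊x j k⌋| - 1 ≤ ⌊R⌋ := by
      rw [Int.le_floor]; push_cast
      push_cast at hlt
      linarith
    simp only [hc, cellOf, hm]
    omega
  set S := univ.image c with hS
  set n : (Fin 3 → ℤ) → ℝ := fun a => ((univ.filter fun i => c i = a).card : ℝ) with hn'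
  have h2 : ∑ i : Fin N, ∑ j : Fin N, (if near (c i) (c j) then (1 : ℝ) else 0) =
      ∑ a ∈ S, ∑ b ∈ S, (if near a b then n a * n b else 0) := by
    rw [← sum_fiberwise_of_maps_to (g := c) (t := S) (fun i _ => mem_image_of_mem c (mem_univ i))]
    refine sum_congr rfl fun a _ => ?_
    have : ∀ i ∈ univ.filter (fun i => c i = a),
        (∑ j : Fin N, (if near (c i) (c j) then (1 : ℝ) else 0)) =
          ∑ b ∈ S, (if near a b then n b else 0) := by
      intro i hi
      obtain ⟨_, rfl⟩ := mem_filter.mp hi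
      rw [← sum_fiberwise_of_maps_to (g := c) (t := S)
        (fun i _ => mem_image_of_mem c (mem_univ i))]
      refine sum_congr rfl fun b _ => ?_
      rw [sum_congr rfl (g := fun _ => if near (c i) b then (1 : ℝ) else 0)
        (fun j hj => by rw [(mem_filter.mp hj).2]), sum_const, nsmul_eq_mul]
      split_ifs <;> simp [hn']
    rw [sum_congr rfl this, sum_const, nsmul_eq_mul, mul_sum]
    refine sum_congr rfl fun b _ => ?_
    split_ifs <;> simp [hn']
  have hsymm : ∀ a b, near a b ↔ near b a := fun a b =>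
    forall_congr' fun k => by rw [abs_sub_comm]
  have h3 : ∑ a ∈ S, ∑ b ∈ S, (if near a b then n a * n b else 0) ≤
      ∑ a ∈ S, ∑ b ∈ S, (if near a b then n a ^ 2 else 0) := by
    have hswap : ∑ a ∈ S, ∑ b ∈ S, (if near a b then n b ^ 2 else 0) =
        ∑ a ∈ S, ∑ b ∈ S, (if near a b then n a ^ 2 else 0) := by
      rw [sum_comm]
      exact sum_congr rfl fun a _ => sum_congr rfl fun b _ => if_congr (hsymm b a) rfl rfl
    have hle : ∑ a ∈ S, ∑ b ∈ S, 2 * (if near a b then n a * n b else 0) ≤
        ∑ a ∈ S, ∑ b ∈ S,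
          ((if near a b then n a ^ 2 else 0) + (if near a b then n b ^ 2 else 0)) := by
      refine sum_le_sum fun a _ => sum_le_sum fun b _ => ?_
      split_ifs <;> nlinarith [sq_nonneg (n a - n b)]
    simp only [sum_add_distrib, hswap, ← mul_sum] at hle
    linarith
  have hcount : ∀ a, ((S.filter fun b => near a b).card : ℝ) ≤ (5 * R) ^ 3 := by
    intro a
    have hsub : S.filter (fun b => near a b) ⊆
        Fintype.piFinset (fun k => Finset.Icc (a k - m) (a k + m)) := by
      intro b hb
      simp only [Fintype.mem_piFinset, Finset.mem_Icc]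
      intro k
      have := abs_le.mp ((mem_filter.mp hb).2 k)
      omega
    have hcard := card_le_card hsub
    rw [Fintype.card_piFinset] at hcard
    have hfl : (0 : ℤ) ≤ ⌊R⌋ := Int.floor_nonneg.mpr (by linarith)
    have hk : ∀ k : Fin 3, ((Finset.Icc (a k - m) (a k + m)).card : ℝ) ≤ 5 * R := by
      intro k
      rw [Int.card_Icc]
      have : ((a k + m + 1 - (a k - m)).toNat : ℤ) = 2 * m + 1 := by omega
      have h' : (((a k + m + 1 - (a k - m)).toNat : ℤ) : ℝ) = ((2 * m + 1 : ℤ) : ℝ) := by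
        exact_mod_cast this
      rw [Int.cast_natCast] at h'
      rw [h', hm]; push_cast
      linarith [Int.floor_le R]
    calc ((S.filter fun b => near a b).card : ℝ)
        ≤ ((∏ k, (Finset.Icc (a k - m) (a k + m)).card : ℕ) : ℝ) := by exact_mod_cast hcard
      _ = ∏ k, ((Finset.Icc (a k - m) (a k + m)).card : ℝ) := by push_cast; rfl
      _ ≤ ∏ _k : Fin 3, (5 * R) := prod_le_prod (fun k _ => Nat.cast_nonneg _) (fun k _ => hk k)
      _ = (5 * R) ^ 3 := by simp
  calc ∑ i : Fin N, ∑ j : Fin N, (if dist (x i) (x j) ≤ R then (1 : ℝ) else 0)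
      ≤ ∑ i : Fin N, ∑ j : Fin N, (if near (c i) (c j) then (1 : ℝ) else 0) :=
        sum_le_sum fun i _ => sum_le_sum fun j _ => h1 i j
    _ = _ := h2
    _ ≤ _ := h3
    _ = ∑ a ∈ S, ((S.filter fun b => near a b).card : ℝ) * n a ^ 2 := by
        refine sum_congr rfl fun a _ => ?_
        rw [← sum_filter, sum_const, nsmul_eq_mul]
    _ ≤ ∑ a ∈ S, (5 * R) ^ 3 * n a ^ 2 :=
        sum_le_sum fun a _ => mul_le_mul_of_nonneg_right (hcount a) (sq_nonneg _)
    _ = (5 * R) ^ 3 * cellSq x := by rw [cellSq_eq_sum, mul_sum]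

theorem energy_le_all_pairs {g : ℝ → ℝ} (hg : ∀ r, 0 ≤ g r) {N : ℕ} (x : Fin N → R3) :
    energy g x ≤ ∑ i : Fin N, ∑ j : Fin N, g (dist (x i) (x j)) :=
  sum_le_sum fun _ _ => sum_le_sum_of_subset_of_nonneg (subset_univ _) fun _ _ _ => hg _

/-- The ball kernels have strength `375 / (4π)`, whatever the radius. -/
theorem kernelAttr : KernelAttr := by
  refine ⟨375 / (4 * Real.pi), by positivity, fun R hR => ?_⟩
  have hπ := Real.pi_pos
  have hvol : 0 < 4 / 3 * Real.pi * R ^ 3 := by positivity
  have hnn : ∀ r, 0 ≤ J R r := fun r => by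
    unfold J; split_ifs <;> [exact (inv_pos.mpr hvol).le; exact le_rfl]
  refine ⟨?_, hnn, fun r hr => by simp [J, not_le.mpr hr], fun N x => ?_⟩
  · exact Measurable.ite (measurableSet_le measurable_id measurable_const) measurable_const
      measurable_const
  · calc energy (J R) x ≤ ∑ i : Fin N, ∑ j : Fin N, J R (dist (x i) (x j)) :=
          energy_le_all_pairs hnn x
      _ = (4 / 3 * Real.pi * R ^ 3)⁻¹ *
          ∑ i : Fin N, ∑ j : Fin N, (if dist (x i) (x j) ≤ R then (1 : ℝ) else 0) := by
          simp only [J, mul_sum, mul_ite, mul_one, mul_zero]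
      _ ≤ (4 / 3 * Real.pi * R ^ 3)⁻¹ * ((5 * R) ^ 3 * cellSq x) :=
          mul_le_mul_of_nonneg_left (close_pairs_le_cellSq x hR) (inv_pos.mpr hvol).le
      _ = 375 / (4 * Real.pi) * cellSq x := by
          field_simp
          ring

end Vale.Agent.P171
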