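import Mathlib
import Vale.Agent.P171.Defs

/-!
The mean-field transform `T a f μ = sup_x (f x - (x - μ)^2 / (2a))` sharpens approximate kinks of
convex functions to exact ones and keeps exact ones.
-/

open Filter Set
open scoped Topology

namespace Vale.Agent.P171

/-- The mean-field (sup-convolution) transform. -/
noncomputable def T (a : ℝ) (f : ℝ → ℝ) (μ : ℝ) : ℝ := ⨆ x : ℝ, f x - (x - μ) ^ 2 / (2 * a)

/-- Convex, nonnegative, and below `C + x²/(2s)`. -/
structure Nice (s C : ℝ) (f : ℝ → ℝ) : Prop where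
  convex : ConvexOn ℝ univ f
  nonneg : ∀ x, 0 ≤ f x
  growth : ∀ x, f x ≤ C + x ^ 2 / (2 * s)

/-- An `η`-approximate kink at `ν` with slopes `c ± D`. -/
def Kink (f : ℝ → ℝ) (ν c D η : ℝ) : Prop :=
  ∀ y, f ν + c * y + D * |y| - η ≤ f (ν + y)

variable {s C a : ℝ} {f g : ℝ → ℝ}

theorem Nice.continuous (hf : Nice s C f) : Continuous f :=
  continuousOn_univ.mp (hf.convex.continuousOn isOpen_univ)

theorem Nice.C_nonneg (hf : Nice s C f) : 0 ≤ C := by
  have h := hf.growth 0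
  simp only [ne_eq, OfNat.ofNat_ne_zero, not_false_eq_true, zero_pow, zero_div, add_zero] at h
  exact (hf.nonneg 0).trans h

theorem sq_sub_bound (ha : 0 < a) (has : a < s) (x μ : ℝ) :
    x ^ 2 / (2 * s) - (x - μ) ^ 2 / (2 * a) ≤ μ ^ 2 / (2 * (s - a)) := by
  have h1 : 0 < s - a := by linarith
  have hs : 0 < s := by linarith
  have key : x ^ 2 / (2 * s) - (x - μ) ^ 2 / (2 * a) - μ ^ 2 / (2 * (s - a)) =
      -((s - a) * x - s * μ) ^ 2 / (2 * s * a * (s - a)) := by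
    field_simp
    ring
  have : -((s - a) * x - s * μ) ^ 2 / (2 * s * a * (s - a)) ≤ 0 :=
    div_nonpos_of_nonpos_of_nonneg (by nlinarith [sq_nonneg ((s - a) * x - s * μ)])
      (by positivity)
  linarith

theorem Nice.bddAbove (hf : Nice s C f) (ha : 0 < a) (has : a < s) (μ : ℝ) :
    BddAbove (range fun x : ℝ => f x - (x - μ) ^ 2 / (2 * a)) :=
  ⟨C + μ ^ 2 / (2 * (s - a)), by
    rintro _ ⟨x, rfl⟩
    linarith [hf.growth x, sq_sub_bound ha has x μ]⟩

theorem Nice.le_T (hf : Nice s C f) (ha : 0 < a) (has : a < s) (μ x : ℝ) :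
    f x - (x - μ) ^ 2 / (2 * a) ≤ T a f μ :=
  le_ciSup (hf.bddAbove ha has μ) x

/-- Points of value at least `-1` lie in an explicit window around `μ`. -/
theorem Nice.window (hf : Nice s C f) (ha : 0 < a) (has : a < s) {μ x : ℝ}
    (hx : -1 ≤ f x - (x - μ) ^ 2 / (2 * a)) :
    |x - μ| ≤ Real.sqrt (2 * a * (C + 1)) + Real.sqrt (a / s) * |x| := by
  have hs : 0 < s := by linarith
  have hC := hf.C_nonneg
  have h1 : (x - μ) ^ 2 / (2 * a) ≤ C + 1 + x ^ 2 / (2 * s) := by linarith [hf.growth x]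
  rw [div_le_iff₀ (by linarith)] at h1
  have h2 : (x - μ) ^ 2 ≤ 2 * a * (C + 1) + a / s * x ^ 2 :=
    h1.trans (le_of_eq (by field_simp))
  have e1 := Real.sq_sqrt (show 0 ≤ 2 * a * (C + 1) by positivity)
  have e2 := Real.sq_sqrt (show 0 ≤ a / s by positivity)
  have n1 := Real.sqrt_nonneg (2 * a * (C + 1))
  have n2 := Real.sqrt_nonneg (a / s)
  refine abs_le_of_sq_le_sq ?_ (by positivity)
  nlinarith [sq_abs x, mul_nonneg (mul_nonneg n1 n2) (abs_nonneg x), h2]

theorem Nice.exists_max (hf : Nice s C f) (ha : 0 < a) (has : a < s) (μ : ℝ) :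
    ∃ x, T a f μ = f x - (x - μ) ^ 2 / (2 * a) ∧
      ∀ y, f y - (y - μ) ^ 2 / (2 * a) ≤ f x - (x - μ) ^ 2 / (2 * a) := by
  have hs : 0 < s := by linarith
  set b := Real.sqrt (2 * a * (C + 1))
  set r := Real.sqrt (a / s)
  have hr : r < 1 := by
    rw [← Real.sqrt_one]
    exact Real.sqrt_lt_sqrt (by positivity) ((div_lt_one hs).mpr has)
  set M := (|μ| + b) / (1 - r)
  have hb : 0 ≤ b := Real.sqrt_nonneg _
  have hr0 : 0 ≤ r := Real.sqrt_nonneg _
  have hμM : |μ| ≤ M := by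
    rw [le_div_iff₀ (by linarith)]
    nlinarith [abs_nonneg μ]
  have hcont : Continuous fun x => f x - (x - μ) ^ 2 / (2 * a) :=
    hf.continuous.sub (by fun_prop)
  obtain ⟨x, -, hmax⟩ := isCompact_Icc.exists_isMaxOn (s := Icc (-M) M)
    ⟨μ, abs_le.mp hμM⟩ hcont.continuousOn
  have hxμ : f μ ≤ f x - (x - μ) ^ 2 / (2 * a) := by
    have := hmax (abs_le.mp hμM : μ ∈ Icc (-M) M)
    simpa using this
  have hall : ∀ y, f y - (y - μ) ^ 2 / (2 * a) ≤ f x - (x - μ) ^ 2 / (2 * a) := by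
    intro y
    by_cases hy : y ∈ Icc (-M) M
    · exact hmax hy
    · by_contra hc
      push Not at hc
      have hw := hf.window ha has (μ := μ) (x := y) (by linarith [hf.nonneg μ])
      apply hy
      rw [mem_Icc, ← abs_le, le_div_iff₀ (by linarith)]
      have := abs_sub_abs_le_abs_sub y μ
      nlinarith
  exact ⟨x, le_antisymm (ciSup_le hall) (hf.le_T ha has μ x), hall⟩

theorem Nice.T_nice (hf : Nice s C f) (ha : 0 < a) (has : a < s) :
    Nice (s - a) C (T a f) := by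
  refine ⟨⟨convex_univ, fun μ₁ _ μ₂ _ p q hp hq hpq => ?_⟩, fun μ => ?_, fun μ => ?_⟩
  · obtain ⟨x, hx, -⟩ := hf.exists_max ha has (p * μ₁ + q * μ₂)
    set h := x - (p * μ₁ + q * μ₂) with hh
    simp only [smul_eq_mul]
    rw [hx]
    have h1 := hf.le_T ha has μ₁ (μ₁ + h)
    have h2 := hf.le_T ha has μ₂ (μ₂ + h)
    have hc := hf.convex.2 (mem_univ (μ₁ + h)) (mem_univ (μ₂ + h)) hp hq hpq
    simp only [smul_eq_mul] at hc
    have e : p * (μ₁ + h) + q * (μ₂ + h) = x := by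
      linear_combination (hh) + h * hpq
    rw [e] at hc
    simp only [add_sub_cancel_left] at h1 h2
    have := add_le_add (mul_le_mul_of_nonneg_left h1 hp) (mul_le_mul_of_nonneg_left h2 hq)
    have e' : p * (h ^ 2 / (2 * a)) + q * (h ^ 2 / (2 * a)) = h ^ 2 / (2 * a) := by
      rw [← add_mul, hpq, one_mul]
    linarith
  · exact (hf.nonneg μ).trans (by simpa using hf.le_T ha has μ μ)
  · exact ciSup_le fun x => by linarith [hf.growth x, sq_sub_bound ha has x μ]

/-- Functions close on the window of the maximisers have close transforms. -/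
theorem T_close (hf : Nice s C f) (hg : Nice s C g) (ha : 0 < a) (has : a < s) {η W μ : ℝ}
    (hw : ∀ x, |x - μ| ≤ Real.sqrt (2 * a * (C + 1)) + Real.sqrt (a / s) * |x| → |x| ≤ W)
    (h : ∀ x, |x| ≤ W → |f x - g x| ≤ η) : |T a f μ - T a g μ| ≤ η := by
  obtain ⟨x, hx, hxm⟩ := hf.exists_max ha has μ
  obtain ⟨y, hy, hym⟩ := hg.exists_max ha has μ
  have hx' : |x| ≤ W := hw x <| hf.window ha has <| by
    linarith [show f μ ≤ f x - (x - μ) ^ 2 / (2 * a) by simpa using hxm μ, hf.nonneg μ]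
  have hy' : |y| ≤ W := hw y <| hg.window ha has <| by
    linarith [show g μ ≤ g y - (y - μ) ^ 2 / (2 * a) by simpa using hym μ, hg.nonneg μ]
  have h1 := hg.le_T ha has μ x
  have h2 := hf.le_T ha has μ y
  obtain ⟨u1, u2⟩ := abs_le.mp (h x hx')
  obtain ⟨v1, v2⟩ := abs_le.mp (h y hy')
  rw [abs_le]
  constructor <;> linarith

/-- A maximiser gives a subgradient of the transform. -/
theorem Nice.subgradient (hf : Nice s C f) (ha : 0 < a) (has : a < s) {μ x : ℝ}
    (hx : T a f μ = f x - (x - μ) ^ 2 / (2 * a)) (y : ℝ) :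
    T a f μ + (x - μ) / a * y ≤ T a f (μ + y) := by
  have hconv := (hf.T_nice ha has).convex
  have key : ∀ t : ℝ, t ∈ Ioo (0 : ℝ) 1 →
      T a f μ + (x - μ) / a * y - t * (y ^ 2 / (2 * a)) ≤ T a f (μ + y) := by
    intro t ht
    have h1 := hf.le_T ha has (μ + t * y) x
    have h2 := hconv.2 (mem_univ μ) (mem_univ (μ + y)) (sub_nonneg.mpr ht.2.le) ht.1.le
      (sub_add_cancel 1 t)
    simp only [smul_eq_mul] at h2
    rw [show (1 - t) * μ + t * (μ + y) = μ + t * y by ring] at h2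
    have h3 : f x - (x - (μ + t * y)) ^ 2 / (2 * a) =
        T a f μ + t * ((x - μ) / a * y) - t * (t * (y ^ 2 / (2 * a))) := by
      rw [hx]; field_simp; ring
    refine le_of_mul_le_mul_left ?_ ht.1
    nlinarith [h1, h2, h3]
  have hlim : Tendsto (fun t : ℝ => T a f μ + (x - μ) / a * y - t * (y ^ 2 / (2 * a)))
      (𝓝[>] 0) (𝓝 (T a f μ + (x - μ) / a * y)) := by
    apply tendsto_nhdsWithin_of_tendsto_nhds
    have : Continuous fun t : ℝ =>
        T a f μ + (x - μ) / a * y - t * (y ^ 2 / (2 * a)) := by fun_prop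
    simpa using this.tendsto 0
  exact le_of_tendsto hlim
    (mem_of_superset (Ioo_mem_nhdsGT one_pos) fun t ht => key t ht)

/-- No maximiser sits inside the kink gap. -/
theorem gap (hf : ConvexOn ℝ univ f) (ha : 0 < a) {ν c D η μ x : ℝ} (hD : 0 < D)
    (hk : Kink f ν c D η)
    (hx : ∀ y, f y - (y - μ) ^ 2 / (2 * a) ≤ f x - (x - μ) ^ 2 / (2 * a)) :
    a * (D - 2 * η / (a * D)) ≤ |x - ν| := by
  have haD : 0 < a * D := mul_pos ha hD
  by_cases hfar : a * D ≤ |x - ν|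
  · have hη : 0 ≤ η := by simpa [Kink] using hk 0
    have : a * (D - 2 * η / (a * D)) = a * D - 2 * η / D := by field_simp
    rw [this]
    linarith [div_nonneg (mul_nonneg (zero_le_two (α := ℝ)) hη) hD.le]
  push Not at hfar
  set p := (x - ν) / (a * D) with hp
  have hxp : x = ν + p * (a * D) := by rw [hp, div_mul_cancel₀ _ haD.ne']; ring
  obtain ⟨hp1, hp2⟩ : -1 < p ∧ p < 1 := by
    obtain ⟨l, r⟩ := abs_lt.mp hfar
    rw [hp, lt_div_iff₀ haD, div_lt_iff₀ haD]
    constructor <;> linarith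
  have hu := hx (ν - a * D)
  have hw := hx (ν + a * D)
  have ku : f ν - c * (a * D) + D * (a * D) - η ≤ f (ν - a * D) := by
    have := hk (-(a * D))
    rwa [abs_neg, abs_of_pos haD, mul_neg, ← sub_eq_add_neg, ← sub_eq_add_neg] at this
  have kw : f ν + c * (a * D) + D * (a * D) - η ≤ f (ν + a * D) := by
    simpa [abs_of_pos haD] using hk (a * D)
  have hsum := add_le_add (mul_le_mul_of_nonneg_left hu (show 0 ≤ (1 - p) / 2 by linarith))
    (mul_le_mul_of_nonneg_left hw (show 0 ≤ (1 + p) / 2 by linarith))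
  have pen : (1 - p) / 2 * ((ν - a * D - μ) ^ 2 / (2 * a)) +
      (1 + p) / 2 * ((ν + a * D - μ) ^ 2 / (2 * a)) - (x - μ) ^ 2 / (2 * a) =
      (1 - p ^ 2) * (a * D ^ 2) / 2 := by
    rw [hxp]; field_simp; ring
  have eq : a * (D - 2 * η / (a * D)) = a * D - 2 * η / D := by field_simp
  have eD : 2 * η / D * (D) = 2 * η := by field_simp
  rcases le_total 0 p with hp0 | hp0
  · have hc := hf.2 (mem_univ ν) (mem_univ (ν + a * D)) (show 0 ≤ 1 - p by linarith) hp0
      (by ring)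
    simp only [smul_eq_mul] at hc
    rw [show (1 - p) * ν + p * (ν + a * D) = x by rw [hxp]; ring] at hc
    have m1 := mul_le_mul_of_nonneg_left (add_le_add ku kw)
      (show 0 ≤ (1 - p) / 2 by linarith)
    have h1 : (1 - p) * (a * D ^ 2 - η) ≤ (1 - p) * ((1 + p) * (a * D ^ 2) / 2) := by
      linarith
    have h2 := le_of_mul_le_mul_left h1 (by linarith)
    rw [eq, abs_of_nonneg (by rw [hxp]; nlinarith)]
    rw [hxp]
    refine le_of_mul_le_mul_right ?_ hD
    nlinarith [h2, eD]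
  · have hc := hf.2 (mem_univ ν) (mem_univ (ν - a * D)) (show 0 ≤ 1 + p by linarith)
      (show 0 ≤ -p by linarith) (by ring)
    simp only [smul_eq_mul] at hc
    rw [show (1 + p) * ν + -p * (ν - a * D) = x by rw [hxp]; ring] at hc
    have m1 := mul_le_mul_of_nonneg_left (add_le_add ku kw)
      (show 0 ≤ (1 + p) / 2 by linarith)
    have h1 : (1 + p) * (a * D ^ 2 - η) ≤ (1 + p) * ((1 - p) * (a * D ^ 2) / 2) := by
      linarith
    have h2 := le_of_mul_le_mul_left h1 (by linarith)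
    rw [eq, abs_of_nonpos (by rw [hxp]; nlinarith)]
    rw [hxp]
    refine le_of_mul_le_mul_right ?_ hD
    nlinarith [h2, eD]

/-- The transform turns an approximate kink into an exact one. -/
theorem kink_T (hf : Nice s C f) (ha : 0 < a) (has : 16 * a ≤ s) {ν c D η : ℝ} (hD : 0 < D)
    (hη : 2 * η / (a * D) < D) (hk : Kink f ν c D η) :
    ∃ ν' c', Kink (T a f) ν' c' (D - 2 * η / (a * D)) 0 ∧
      |ν'| ≤ (|ν| + 2 * Real.sqrt (2 * a * (C + 1))) * (1 + 4 * Real.sqrt (a / s)) := by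
  have hs : 0 < s := by linarith
  have has' : a < s := by linarith
  set b := Real.sqrt (2 * a * (C + 1))
  set r := Real.sqrt (a / s)
  set D' := D - 2 * η / (a * D) with hD'
  have hD'0 : 0 < D' := by linarith
  have hb : 0 ≤ b := Real.sqrt_nonneg _
  have hr0 : 0 ≤ r := Real.sqrt_nonneg _
  have hr : r ≤ 1 / 4 := by
    rw [show (1 / 4 : ℝ) = Real.sqrt (1 / 16) by
      rw [show (1 / 16 : ℝ) = (1 / 4) ^ 2 by norm_num, Real.sqrt_sq (by norm_num)]]
    exact Real.sqrt_le_sqrt (by rw [div_le_iff₀ hs]; linarith)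
  have win : ∀ μ x, (∀ y, f y - (y - μ) ^ 2 / (2 * a) ≤ f x - (x - μ) ^ 2 / (2 * a)) →
      |x - μ| ≤ 2 * b + 2 * r * |μ| := by
    intro μ x hx
    have h := hf.window ha has' (μ := μ) (x := x)
      (by linarith [show f μ ≤ f x - (x - μ) ^ 2 / (2 * a) by simpa using hx μ, hf.nonneg μ])
    nlinarith [abs_sub_abs_le_abs_sub x μ, abs_nonneg μ, abs_nonneg (x - μ)]
  -- parameters where a maximiser lies left, respectively right, of `ν`
  set R := 2 * (|ν| + 2 * b) with hR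
  have hR0 : 0 ≤ R := by positivity
  set M := 2 * R + 2 * b with hM
  set S : Set (ℝ × ℝ) := {q | q.1 ∈ Icc (-R) R ∧ q.2 ∈ Icc (-M) M ∧
    ∀ y, f y - (y - q.1) ^ 2 / (2 * a) ≤ f q.2 - (q.2 - q.1) ^ 2 / (2 * a)} with hS
  have hSc : IsCompact S := by
    have hcl : IsClosed {q : ℝ × ℝ |
        ∀ y, f y - (y - q.1) ^ 2 / (2 * a) ≤ f q.2 - (q.2 - q.1) ^ 2 / (2 * a)} := by
      simp only [ofPred_forall]
      exact isClosed_iInter fun y => isClosed_le (by fun_prop)
        ((hf.continuous.comp continuous_snd).sub (by fun_prop))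
    have : S = (Icc (-R) R ×ˢ Icc (-M) M) ∩ {q : ℝ × ℝ |
        ∀ y, f y - (y - q.1) ^ 2 / (2 * a) ≤ f q.2 - (q.2 - q.1) ^ 2 / (2 * a)} := by
      ext q; simp only [hS, mem_ofPred_eq, mem_inter_iff, mem_prod, and_assoc]
    rw [this]
    exact (isCompact_Icc.prod isCompact_Icc).inter_right hcl
  set A := Prod.fst '' (S ∩ {q | q.2 ≤ ν})
  set B := Prod.fst '' (S ∩ {q | ν ≤ q.2})
  have hA : IsClosed A :=
    ((hSc.inter_right (isClosed_le continuous_snd continuous_const)).image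
      continuous_fst).isClosed
  have hB : IsClosed B :=
    ((hSc.inter_right (isClosed_le continuous_const continuous_snd)).image
      continuous_fst).isClosed
  have mem : ∀ μ ∈ Icc (-R) R, ∃ x, (μ, x) ∈ S ∧ |x - μ| ≤ 2 * b + 2 * r * |μ| := by
    intro μ hμ
    obtain ⟨x, -, hxm⟩ := hf.exists_max ha has' μ
    have hw := win μ x hxm
    refine ⟨x, ⟨hμ, ?_, hxm⟩, hw⟩
    show x ∈ Icc (-M) M
    rw [mem_Icc, ← abs_le]
    nlinarith [abs_le.mpr hμ, abs_sub_abs_le_abs_sub x μ, abs_nonneg μ]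
  have hcover : Icc (-R) R ⊆ A ∪ B := by
    intro μ hμ
    obtain ⟨x, hx, -⟩ := mem μ hμ
    rcases le_total x ν with h | h
    · exact Or.inl ⟨(μ, x), ⟨hx, h⟩, rfl⟩
    · exact Or.inr ⟨(μ, x), ⟨hx, h⟩, rfl⟩
  have hAne : (Icc (-R) R ∩ A).Nonempty := by
    obtain ⟨x, hx, hw⟩ := mem (-R) ⟨le_rfl, by linarith⟩
    refine ⟨-R, ⟨le_rfl, by linarith⟩, (-R, x), ⟨hx, ?_⟩, rfl⟩
    show x ≤ ν
    rw [abs_neg, abs_of_nonneg hR0] at hw
    nlinarith [(abs_le.mp hw).2, neg_abs_le ν]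
  have hBne : (Icc (-R) R ∩ B).Nonempty := by
    obtain ⟨x, hx, hw⟩ := mem R ⟨by linarith, le_rfl⟩
    refine ⟨R, ⟨by linarith, le_rfl⟩, (R, x), ⟨hx, ?_⟩, rfl⟩
    show ν ≤ x
    rw [abs_of_nonneg hR0] at hw
    nlinarith [(abs_le.mp hw).1, le_abs_self ν]
  obtain ⟨μ, -, ⟨q₁, ⟨hq₁, hl⟩, e₁⟩, ⟨q₂, ⟨hq₂, hr'⟩, e₂⟩⟩ :=
    isPreconnected_closed_iff.mp isPreconnected_Icc A B hA hB hcover hAne hBne
  obtain ⟨μ₁, x₁⟩ := q₁
  obtain ⟨μ₂, x₂⟩ := q₂
  obtain rfl : μ₁ = μ := e₁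
  obtain rfl : μ₂ = μ₁ := e₂
  have hm₁ := hq₁.2.2
  have hm₂ := hq₂.2.2
  have hl' : x₁ ≤ ν := hl
  have hr'' : ν ≤ x₂ := hr'
  have g₁ := gap hf.convex ha hD hk hm₁
  have g₂ := gap hf.convex ha hD hk hm₂
  rw [abs_of_nonpos (by linarith)] at g₁
  rw [abs_of_nonneg (by linarith)] at g₂
  have w₁ := win _ _ hm₁
  have w₂ := win _ _ hm₂
  have t₁ : T a f μ₂ = f x₁ - (x₁ - μ₂) ^ 2 / (2 * a) :=
    le_antisymm (ciSup_le hm₁) (hf.le_T ha has' μ₂ x₁)
  have t₂ : T a f μ₂ = f x₂ - (x₂ - μ₂) ^ 2 / (2 * a) :=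
    le_antisymm (ciSup_le hm₂) (hf.le_T ha has' μ₂ x₂)
  refine ⟨μ₂, ((x₁ + x₂) / 2 - μ₂) / a, fun y => ?_, ?_⟩
  · have s₁ := hf.subgradient ha has' t₁ y
    have s₂ := hf.subgradient ha has' t₂ y
    have hsep : D' ≤ (x₂ - x₁) / 2 / a := by rw [le_div_iff₀ ha]; linarith
    rcases le_total 0 y with hy | hy
    · rw [abs_of_nonneg hy]
      have : ((x₁ + x₂) / 2 - μ₂) / a + (x₂ - x₁) / 2 / a = (x₂ - μ₂) / a := by
        field_simp; ring
      nlinarith [mul_le_mul_of_nonneg_right hsep hy]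
    · rw [abs_of_nonpos hy]
      have : ((x₁ + x₂) / 2 - μ₂) / a - (x₂ - x₁) / 2 / a = (x₁ - μ₂) / a := by
        field_simp; ring
      nlinarith [mul_le_mul_of_nonneg_right hsep (neg_nonneg.mpr hy)]
  · have hμ : |μ₂| ≤ |ν| + (2 * b + 2 * r * |μ₂|) := by
      rw [abs_le]
      constructor <;>
        nlinarith [(abs_le.mp w₁).1, (abs_le.mp w₁).2, (abs_le.mp w₂).1, (abs_le.mp w₂).2,
          neg_abs_le ν, le_abs_self ν]
    nlinarith [abs_nonneg μ₂, mul_nonneg hr0 (abs_nonneg μ₂)]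

/-- The slopes of an exact kink of a `Nice` function at a bounded place are bounded. -/
theorem Nice.abs_slope_le (hf : Nice s C f) {ν c D : ℝ} (hD : 0 ≤ D)
    (hk : Kink f ν c D 0) (hs : 0 < s) :
    |c| ≤ C + (|ν| + 1) ^ 2 / (2 * s) := by
  have h1 := hk 1
  have h2 := hk (-1)
  norm_num at h1 h2
  have hν := hf.nonneg ν
  have g1 : f (ν + 1) ≤ C + (|ν| + 1) ^ 2 / (2 * s) := (hf.growth _).trans <| by
    gcongr C + ?_ / _
    exact sq_le_sq.mpr (by rw [abs_of_nonneg (by positivity : (0:ℝ) ≤ |ν| + 1)];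
                           exact (abs_add_le _ _).trans (by norm_num))
  have g2 : f (ν + -1) ≤ C + (|ν| + 1) ^ 2 / (2 * s) := (hf.growth _).trans <| by
    gcongr C + ?_ / _
    exact sq_le_sq.mpr (by rw [abs_of_nonneg (by positivity : (0:ℝ) ≤ |ν| + 1)];
                           exact (abs_add_le _ _).trans (by norm_num))
  rw [abs_le]; constructor <;> linarith

/-- A convex function with an exact kink is not differentiable there. -/
theorem not_differentiableAt_of_kink {ν c D : ℝ} (hD : 0 < D) (hk : Kink f ν c D 0) :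
    ¬ DifferentiableAt ℝ f ν := by
  intro hd
  obtain ⟨f', hf'⟩ : ∃ f', HasDerivAt f f' ν := ⟨_, hd.hasDerivAt⟩
  have hslope := hasDerivAt_iff_tendsto_slope_zero.mp hf'
  have hr : c + D ≤ f' := by
    refine ge_of_tendsto (hslope.mono_left (nhdsGT_le_nhdsNE 0)) ?_
    refine mem_of_superset self_mem_nhdsWithin fun t (ht : (0:ℝ) < t) => ?_
    have := hk t
    rw [abs_of_pos ht] at this
    simp only [mem_ofPred_eq, smul_eq_mul, ← div_eq_inv_mul, le_div_iff₀ ht]
    linarith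
  have hl : f' ≤ c - D := by
    refine le_of_tendsto (hslope.mono_left (nhdsLT_le_nhdsNE 0)) ?_
    refine mem_of_superset self_mem_nhdsWithin fun t (ht : t < (0:ℝ)) => ?_
    have := hk t
    rw [abs_of_neg ht] at this
    simp only [mem_ofPred_eq, smul_eq_mul, ← div_eq_inv_mul, div_le_iff_of_neg ht]
    linarith
  linarith

end Vale.Agent.P171
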