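import Mathlib
import Vale.Agent.P171.Defs
import Vale.Agent.P171.Kernel
import Vale.Agent.P171.Kink

/-!
A priori bounds for the finite-volume partition functions of `core K - g`.
-/

open MeasureTheory Finset
open scoped Classical

namespace Vale.Agent.P171

/-- A nonnegative measurable attraction of strength at most `A`, of any range. -/
structure Mass (g : ℝ → ℝ) (A : ℝ) : Prop where
  meas : Measurable g
  nonneg : ∀ r, 0 ≤ g r
  mass : ∀ (N : ℕ) (x : Fin N → R3), energy g x ≤ A * cellSq x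

theorem Attr.toMass {g : ℝ → ℝ} {R₀ A : ℝ} (h : Attr g R₀ A) : Mass g A :=
  ⟨h.meas, h.nonneg, h.mass⟩

theorem energy_add (φ ψ : ℝ → ℝ) {N : ℕ} (x : Fin N → R3) :
    energy (fun r => φ r + ψ r) x = energy φ x + energy ψ x := by
  simp [energy, sum_add_distrib]

theorem energy_const_mul (c : ℝ) (φ : ℝ → ℝ) {N : ℕ} (x : Fin N → R3) :
    energy (fun r => c * φ r) x = c * energy φ x := by
  simp [energy, mul_sum]

theorem energy_sub (φ ψ : ℝ → ℝ) {N : ℕ} (x : Fin N → R3) :
    energy (fun r => φ r - ψ r) x = energy φ x - energy ψ x := by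
  simp [energy, sum_sub_distrib]

theorem energy_mono {φ ψ : ℝ → ℝ} (h : ∀ r, φ r ≤ ψ r) {N : ℕ} (x : Fin N → R3) :
    energy φ x ≤ energy ψ x :=
  sum_le_sum fun _ _ => sum_le_sum fun _ _ => h _

theorem energy_nonneg {φ : ℝ → ℝ} (h : ∀ r, 0 ≤ φ r) {N : ℕ} (x : Fin N → R3) :
    0 ≤ energy φ x :=
  sum_nonneg fun _ _ => sum_nonneg fun _ _ => h _

theorem measurable_energy {φ : ℝ → ℝ} (h : Measurable φ) (N : ℕ) :
    Measurable fun x : Fin N → R3 => energy φ x := by
  unfold energy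
  exact Finset.measurable_sum _ fun i _ => Finset.measurable_sum _ fun j _ =>
    h.comp ((measurable_pi_apply i).dist (measurable_pi_apply j))

theorem measurable_core (K : ℝ) : Measurable (core K) :=
  Measurable.ite (measurableSet_le measurable_id measurable_const) measurable_const
    measurable_const

theorem core_nonneg {K : ℝ} (hK : 0 ≤ K) (r : ℝ) : 0 ≤ core K r := by
  unfold core; split_ifs <;> [exact hK; exact le_rfl]

theorem cellSq_nonneg {N : ℕ} (x : Fin N → R3) : 0 ≤ cellSq x := Nat.cast_nonneg _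

theorem cell_mem_two {u v : R3} (h : ∀ k, ⌊u k⌋ = ⌊v k⌋) : dist u v ≤ 2 := by
  have hk : ∀ k : Fin 3, (u k - v k) ^ 2 ≤ 1 := fun k => by
    have := (Int.abs_sub_lt_one_of_floor_eq_floor (h k)).le
    nlinarith [abs_le.mp this]
  have h3 : dist u v ^ 2 ≤ 3 := by
    rw [EuclideanSpace.dist_sq_eq]
    simp only [Fin.sum_univ_three, Real.dist_eq, sq_abs]
    linarith [hk 0, hk 1, hk 2]
  nlinarith [dist_nonneg (x := u) (y := v)]

/-- The core dominates the pairs in common cells. -/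
theorem core_energy_ge {K : ℝ} (hK : 0 ≤ K) {N : ℕ} (x : Fin N → R3) :
    K / 2 * (cellSq x - N) ≤ energy (core K) x := by
  set s : Fin N → Fin N → ℝ := fun i j => if ∀ k, ⌊x i k⌋ = ⌊x j k⌋ then 1 else 0 with hs
  have hcell : cellSq x = ∑ i, ∑ j, s i j := by
    rw [hs, cellSq, ← Fintype.sum_prod_type', Finset.sum_boole]
  have hsym : ∀ i j, s i j = s j i := fun i j =>
    if_congr (forall_congr' fun k => eq_comm) rfl rfl
  have hsplit : ∀ i, ∑ j, s i j = ∑ j ∈ univ.filter (fun j => i < j), s i j + 1 +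
      ∑ j ∈ univ.filter (fun j => j < i), s i j := by
    intro i
    have hone : (1 : ℝ) = ∑ j ∈ univ.filter (fun j => j = i), s i j := by
      rw [Finset.filter_eq', if_pos (mem_univ i), sum_singleton]
      simp [hs]
    rw [hone, sum_filter, sum_filter, sum_filter, ← sum_add_distrib, ← sum_add_distrib]
    refine sum_congr rfl fun j _ => ?_
    rcases lt_trichotomy i j with h | h | h
    · simp [h, h.not_gt, h.ne']
    · subst h; simp
    · simp [h, h.not_gt, h.ne]
  have hswap : ∑ i, ∑ j ∈ univ.filter (fun j => j < i), s i j =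
      ∑ i, ∑ j ∈ univ.filter (fun j => i < j), s i j := by
    simp only [sum_filter]
    rw [sum_comm]
    exact sum_congr rfl fun i _ => sum_congr rfl fun j _ => by rw [hsym j i]
  have hle : K * ∑ i, ∑ j ∈ univ.filter (fun j => i < j), s i j ≤ energy (core K) x := by
    unfold energy
    rw [mul_sum]
    refine sum_le_sum fun i _ => ?_
    rw [mul_sum]
    refine sum_le_sum fun j _ => ?_
    simp only [hs]
    split_ifs with h
    · rw [mul_one, core, if_pos (cell_mem_two h)]
    · rw [mul_zero]; exact core_nonneg hK _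
  have : cellSq x = 2 * (∑ i, ∑ j ∈ univ.filter (fun j => i < j), s i j) + N := by
    rw [hcell, sum_congr rfl (fun i _ => hsplit i), sum_add_distrib, sum_add_distrib, hswap]
    simp; ring
  rw [this]
  linarith

/-- `cube L` in coordinates. -/
theorem volume_cube {L : ℝ} (hL : 0 ≤ L) : volume.real (cube L) = L ^ 3 := by
  have h := (PiLp.volume_preserving_ofLp (Fin 3)).measure_preimage
    (MeasurableSet.univ_pi (fun _ => measurableSet_Icc) :
      MeasurableSet (Set.univ.pi fun _ : Fin 3 => Set.Icc (0 : ℝ) L)).nullMeasurableSet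
  have e : cube L = WithLp.ofLp ⁻¹' (Set.univ.pi fun _ : Fin 3 => Set.Icc (0 : ℝ) L) := by
    ext y; simp [cube, Set.pi]
  rw [measureReal_def, e, h, volume_pi_pi, ENNReal.toReal_prod]
  simp [ENNReal.toReal_ofReal hL]

theorem measurableSet_cube (L : ℝ) : MeasurableSet (cube L) := by
  have : cube L = WithLp.ofLp ⁻¹' (Set.univ.pi fun _ : Fin 3 => Set.Icc (0 : ℝ) L) := by
    ext y; simp [cube, Set.pi]
  rw [this]
  exact (MeasurableSet.univ_pi fun _ => measurableSet_Icc).preimage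
    (PiLp.volume_preserving_ofLp (Fin 3)).measurable

theorem volume_cube_lt_top (L : ℝ) : volume (cube L) < ⊤ := by
  have h := (PiLp.volume_preserving_ofLp (Fin 3)).measure_preimage
    (MeasurableSet.univ_pi (fun _ => measurableSet_Icc) :
      MeasurableSet (Set.univ.pi fun _ : Fin 3 => Set.Icc (0 : ℝ) L)).nullMeasurableSet
  have e : cube L = WithLp.ofLp ⁻¹' (Set.univ.pi fun _ : Fin 3 => Set.Icc (0 : ℝ) L) := by
    ext y; simp [cube, Set.pi]
  rw [e, h, volume_pi_pi]
  exact ENNReal.prod_lt_top fun _ _ => by simp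

theorem measurableSet_config (L : ℝ) (N : ℕ) :
    MeasurableSet (Set.univ.pi fun _ : Fin N => cube L) :=
  MeasurableSet.univ_pi fun _ => measurableSet_cube L

theorem volume_config_lt_top (L : ℝ) (N : ℕ) :
    volume (Set.univ.pi fun _ : Fin N => cube L) < ⊤ := by
  rw [volume_pi_pi]; exact ENNReal.prod_lt_top fun _ _ => volume_cube_lt_top L

theorem volume_config {L : ℝ} (hL : 0 ≤ L) (N : ℕ) :
    volume.real (Set.univ.pi fun _ : Fin N => cube L) = (L ^ 3) ^ N := by
  rw [measureReal_def, volume_pi_pi, ENNReal.toReal_prod]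
  simp [← measureReal_def, volume_cube hL]

/-- At most `8 L^3` unit cells meet `cube L`. -/
theorem sq_le_cellSq {L : ℝ} (hL : 1 ≤ L) {N : ℕ} {x : Fin N → R3}
    (hx : ∀ i, x i ∈ cube L) : (N : ℝ) ^ 2 ≤ 8 * L ^ 3 * cellSq x := by
  set S := univ.image (fun i => cellOf (x i)) with hS
  have hsub : S ⊆ Fintype.piFinset (fun _ : Fin 3 => Finset.Icc (0 : ℤ) ⌊L⌋) := by
    intro c hc
    obtain ⟨i, -, rfl⟩ := mem_image.mp hc
    simp only [Fintype.mem_piFinset, Finset.mem_Icc, cellOf]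
    exact fun k => ⟨Int.floor_nonneg.mpr (hx i k).1, Int.floor_le_floor (hx i k).2⟩
  have hcard : (S.card : ℝ) ≤ 8 * L ^ 3 := by
    have h := card_le_card hsub
    rw [Fintype.card_piFinset, Int.card_Icc, prod_const, card_univ, Fintype.card_fin] at h
    have hn : ((⌊L⌋ + 1 - 0).toNat : ℝ) ≤ 2 * L := by
      have h0 : 0 ≤ ⌊L⌋ := Int.floor_nonneg.mpr (by linarith)
      have : (((⌊L⌋ + 1 - 0).toNat : ℤ) : ℝ) = ((⌊L⌋ + 1 : ℤ) : ℝ) := by
        congr 1; omega
      rw [Int.cast_natCast] at this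
      rw [this]; push_cast; linarith [Int.floor_le L]
    calc (S.card : ℝ) ≤ ((⌊L⌋ + 1 - 0).toNat : ℝ) ^ 3 := by exact_mod_cast h
      _ ≤ (2 * L) ^ 3 := pow_le_pow_left₀ (Nat.cast_nonneg _) hn 3
      _ = 8 * L ^ 3 := by ring
  have hN : (N : ℝ) = ∑ c ∈ S, ((univ.filter fun i => cellOf (x i) = c).card : ℝ) := by
    rw [← Nat.cast_sum, ← card_eq_sum_card_image, card_univ, Fintype.card_fin]
  rw [hN, cellSq_eq_sum]
  exact (sq_sum_le_card_mul_sum_sq).trans
    (mul_le_mul_of_nonneg_right hcard (sum_nonneg fun _ _ => sq_nonneg _))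

/-- Stability with quadratic gain. -/
theorem energy_ge {K A : ℝ} {g : ℝ → ℝ} (hg : Mass g A) (hK : 0 ≤ K) (hA : 4 * A ≤ K) {N : ℕ}
    (x : Fin N → R3) :
    K / 4 * cellSq x - K / 2 * N ≤ energy (fun r => core K r - g r) x := by
  rw [energy_sub]
  nlinarith [core_energy_ge hK x, hg.mass N x, cellSq_nonneg x]

theorem measurable_boltzmann {K : ℝ} {g : ℝ → ℝ} (hg : Measurable g) (N : ℕ) :
    Measurable fun x : Fin N → R3 =>
      Real.exp (-(1 : ℝ) * energy (fun r => core K r - g r) x) :=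
  (measurable_const.mul (measurable_energy ((measurable_core K).sub hg) N)).exp

section bounds

variable {K A L : ℝ} {g : ℝ → ℝ}

theorem boltzmann_le (hg : Mass g A) (hK : 0 ≤ K) (hA : 4 * A ≤ K) {N : ℕ} (x : Fin N → R3) :
    Real.exp (-(1 : ℝ) * energy (fun r => core K r - g r) x) ≤ Real.exp (K / 2 * N) := by
  refine Real.exp_le_exp.mpr ?_
  nlinarith [energy_ge hg hK hA x, mul_nonneg hK (cellSq_nonneg x)]

theorem integrableOn_boltzmann (hg : Mass g A) (hK : 0 ≤ K) (hA : 4 * A ≤ K) (L : ℝ) (N : ℕ) :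
    IntegrableOn (fun x : Fin N → R3 => Real.exp (-(1 : ℝ) * energy (fun r => core K r - g r) x))
      (Set.univ.pi fun _ : Fin N => cube L) :=
  IntegrableOn.of_bound (volume_config_lt_top L N)
    (measurable_boltzmann hg.meas N).aestronglyMeasurable (Real.exp (K / 2 * N))
    (ae_of_all _ fun x => by
      rw [Real.norm_eq_abs, abs_of_pos (Real.exp_pos _)]
      exact boltzmann_le hg hK hA x)

theorem Z_nonneg (φ : ℝ → ℝ) (β L : ℝ) (N : ℕ) : 0 ≤ Z φ β L N :=
  mul_nonneg (by positivity) (integral_nonneg fun _ => (Real.exp_pos _).le)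

theorem Z_zero (φ : ℝ → ℝ) (L : ℝ) : Z φ 1 L 0 = 1 := by
  have : (Set.univ.pi fun _ : Fin 0 => cube L) = Set.univ := by ext x; simp
  simp [Z, energy, this, measureReal_def, volume_pi]

theorem Z_le (hg : Mass g A) (hK : 0 ≤ K) (hA : 4 * A ≤ K) (hL : 1 ≤ L) (N : ℕ) :
    Z (fun r => core K r - g r) 1 L N ≤ (L ^ 3) ^ N / N.factorial *
      Real.exp (K / 2 * N - K * (N : ℝ) ^ 2 / (32 * L ^ 3)) := by
  have hV : 0 < L ^ 3 := by positivity
  have h : ∫ x in Set.univ.pi (fun _ : Fin N => cube L),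
      Real.exp (-(1 : ℝ) * energy (fun r => core K r - g r) x) ≤
      ∫ _x in Set.univ.pi (fun _ : Fin N => cube L),
        Real.exp (K / 2 * N - K * (N : ℝ) ^ 2 / (32 * L ^ 3)) := by
    refine setIntegral_mono_on (integrableOn_boltzmann hg hK hA L N)
      (integrableOn_const (volume_config_lt_top L N).ne) (measurableSet_config L N)
      fun x hx => Real.exp_le_exp.mpr ?_
    have hc := sq_le_cellSq hL (x := x) (fun i => hx i trivial)
    have : K * (N : ℝ) ^ 2 / (32 * L ^ 3) ≤ K / 4 * cellSq x := by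
      rw [div_le_iff₀ (by positivity)]
      nlinarith [mul_le_mul_of_nonneg_left hc hK]
    linarith [energy_ge hg hK hA x]
  rw [setIntegral_const, volume_config (by linarith) N, smul_eq_mul] at h
  calc Z (fun r => core K r - g r) 1 L N
      ≤ 1 / (N.factorial : ℝ) * ((L ^ 3) ^ N *
          Real.exp (K / 2 * N - K * (N : ℝ) ^ 2 / (32 * L ^ 3))) :=
        mul_le_mul_of_nonneg_left h (by positivity)
    _ = _ := by ring

theorem term_le (hg : Mass g A) (hK : 0 < K) (hA : 4 * A ≤ K) (hL : 1 ≤ L) (μ : ℝ) (N : ℕ) :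
    Real.exp μ ^ N * Z (fun r => core K r - g r) 1 L N ≤
      Real.exp (L ^ 3 * (4 * K + 16 * μ ^ 2 / K)) * ((L ^ 3) ^ N / N.factorial) := by
  have hV : 0 < L ^ 3 := by positivity
  refine (mul_le_mul_of_nonneg_left (Z_le hg hK.le hA hL N) (by positivity)).trans ?_
  rw [← Real.exp_nat_mul, mul_comm (Real.exp _) ((L ^ 3) ^ N / _), mul_left_comm, ← Real.exp_add]
  refine mul_le_mul_of_nonneg_left (Real.exp_le_exp.mpr ?_) (by positivity)
  have key : (N : ℝ) * μ + (K / 2 * N - K * (N : ℝ) ^ 2 / (32 * L ^ 3)) -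
      8 * L ^ 3 * (μ + K / 2) ^ 2 / K =
      -((K * N - 16 * L ^ 3 * (μ + K / 2)) ^ 2) / (32 * L ^ 3 * K) := by
    field_simp
    ring
  have h0 : -((K * N - 16 * L ^ 3 * (μ + K / 2)) ^ 2) / (32 * L ^ 3 * K) ≤ 0 :=
    div_nonpos_of_nonpos_of_nonneg (by nlinarith) (by positivity)
  have h1 : 8 * L ^ 3 * (μ + K / 2) ^ 2 / K ≤ L ^ 3 * (4 * K + 16 * μ ^ 2 / K) := by
    rw [div_le_iff₀ hK]
    have : L ^ 3 * (4 * K + 16 * μ ^ 2 / K) * K = L ^ 3 * (4 * K ^ 2 + 16 * μ ^ 2) := by
      field_simp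
    rw [this]
    nlinarith [mul_nonneg hV.le (sq_nonneg (μ - K / 2))]
  linarith

theorem summable_terms (hg : Mass g A) (hK : 0 < K) (hA : 4 * A ≤ K) (hL : 1 ≤ L) (μ : ℝ) :
    Summable fun N : ℕ => Real.exp μ ^ N * Z (fun r => core K r - g r) 1 L N :=
  Summable.of_nonneg_of_le (fun N => mul_nonneg (by positivity) (Z_nonneg _ _ _ _))
    (term_le hg hK hA hL μ) ((Real.summable_pow_div_factorial (L ^ 3)).mul_left _)

theorem one_le_Xi (hg : Mass g A) (hK : 0 < K) (hA : 4 * A ≤ K) (hL : 1 ≤ L) (μ : ℝ) :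
    1 ≤ Xi (fun r => core K r - g r) 1 (Real.exp μ) L := by
  have := (summable_terms hg hK hA hL μ).le_tsum 0
    (fun N _ => mul_nonneg (by positivity) (Z_nonneg _ _ _ _))
  rw [pow_zero, one_mul, Z_zero] at this
  exact this

theorem Xi_le (hg : Mass g A) (hK : 0 < K) (hA : 4 * A ≤ K) (hL : 1 ≤ L) (μ : ℝ) :
    Xi (fun r => core K r - g r) 1 (Real.exp μ) L ≤
      Real.exp (L ^ 3 * (4 * K + 1 + 16 * μ ^ 2 / K)) := by
  refine ((summable_terms hg hK hA hL μ).tsum_le_tsum (term_le hg hK hA hL μ)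
    ((Real.summable_pow_div_factorial (L ^ 3)).mul_left _)).trans (le_of_eq ?_)
  rw [tsum_mul_left, show (∑' N : ℕ, (L ^ 3) ^ N / (N.factorial : ℝ)) = Real.exp (L ^ 3) by
    rw [Real.exp_eq_exp_ℝ, NormedSpace.exp_eq_tsum_div], ← Real.exp_add]
  ring_nf

theorem Xi_eq_exp (hg : Mass g A) (hK : 0 < K) (hA : 4 * A ≤ K) (hL : 1 ≤ L) (μ : ℝ) :
    Xi (fun r => core K r - g r) 1 (Real.exp μ) L =
      Real.exp (L ^ 3 * P (fun r => core K r - g r) L μ) := by
  have : 0 < L := by linarith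
  rw [P, mul_div_cancel₀ _ (by positivity), Real.exp_log]
  exact lt_of_lt_of_le one_pos (one_le_Xi hg hK hA hL μ)

end bounds

section convexity

variable {K A L : ℝ} {g₁ g₂ : ℝ → ℝ}

theorem Mass.mix (h₁ : Mass g₁ A) (h₂ : Mass g₂ A) {p q : ℝ} (hp : 0 ≤ p) (hq : 0 ≤ q)
    (hpq : p + q = 1) : Mass (fun r => p * g₁ r + q * g₂ r) A := by
  refine ⟨(h₁.meas.const_mul p).add (h₂.meas.const_mul q),
    fun r => add_nonneg (mul_nonneg hp (h₁.nonneg r)) (mul_nonneg hq (h₂.nonneg r)), fun N x => ?_⟩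
  rw [energy_add, energy_const_mul, energy_const_mul]
  calc p * energy g₁ x + q * energy g₂ x ≤ p * (A * cellSq x) + q * (A * cellSq x) := by
        gcongr <;> [exact h₁.mass N x; exact h₂.mass N x]
    _ = A * cellSq x := by rw [← add_mul, hpq, one_mul]

/-- Joint convexity of the pressure in the attraction and the chemical potential. -/
theorem P_mix (h₁ : Mass g₁ A) (h₂ : Mass g₂ A) (hK : 0 < K) (hA : 4 * A ≤ K) (hL : 1 ≤ L)
    {p q : ℝ} (hp : 0 ≤ p) (hq : 0 ≤ q) (hpq : p + q = 1) (μ₁ μ₂ : ℝ) :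
    P (fun r => core K r - (p * g₁ r + q * g₂ r)) L (p * μ₁ + q * μ₂) ≤
      p * P (fun r => core K r - g₁ r) L μ₁ + q * P (fun r => core K r - g₂ r) L μ₂ := by
  have hV : 0 < L ^ 3 := by positivity
  set a₁ := L ^ 3 * P (fun r => core K r - g₁ r) L μ₁ with ha₁
  set a₂ := L ^ 3 * P (fun r => core K r - g₂ r) L μ₂ with ha₂
  set c := p * a₁ + q * a₂ with hc
  have hm := h₁.mix h₂ hp hq hpq
  set φ := fun r => core K r - (p * g₁ r + q * g₂ r) with hφ
  -- termwise weighted arithmetic-geometric mean inequality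
  have hterm : ∀ N, Real.exp (p * μ₁ + q * μ₂) ^ N * Z φ 1 L N ≤
      Real.exp c * (p * (Real.exp (-a₁) * (Real.exp μ₁ ^ N * Z (fun r => core K r - g₁ r) 1 L N))
        + q * (Real.exp (-a₂) *
          (Real.exp μ₂ ^ N * Z (fun r => core K r - g₂ r) 1 L N))) := by
    intro N
    set S := Set.univ.pi fun _ : Fin N => cube L
    have i₁ := integrableOn_boltzmann h₁ hK.le hA L N
    have i₂ := integrableOn_boltzmann h₂ hK.le hA L N
    have hI : ∫ x in S, Real.exp (p * μ₁ + q * μ₂) ^ N * Real.exp (-(1 : ℝ) * energy φ x) ≤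
        ∫ x in S, (Real.exp c * (p * (Real.exp (-a₁) * Real.exp μ₁ ^ N))) *
            Real.exp (-(1 : ℝ) * energy (fun r => core K r - g₁ r) x) +
          (Real.exp c * (q * (Real.exp (-a₂) * Real.exp μ₂ ^ N))) *
            Real.exp (-(1 : ℝ) * energy (fun r => core K r - g₂ r) x) := by
      refine setIntegral_mono_on ((integrableOn_boltzmann hm hK.le hA L N).const_mul _)
        ((i₁.const_mul _).add (i₂.const_mul _)) (measurableSet_config L N) fun x _ => ?_
      have he : energy φ x = p * energy (fun r => core K r - g₁ r) x +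
          q * energy (fun r => core K r - g₂ r) x := by
        rw [← energy_const_mul, ← energy_const_mul, ← energy_add, hφ]
        congr 1; funext r
        linear_combination (-(core K r)) * hpq
      have hconv := convexOn_exp.2 (Set.mem_univ
          (-a₁ + N * μ₁ + -(1 : ℝ) * energy (fun r => core K r - g₁ r) x))
        (Set.mem_univ (-a₂ + N * μ₂ + -(1 : ℝ) * energy (fun r => core K r - g₂ r) x))
        hp hq hpq
      simp only [smul_eq_mul] at hconv
      calc Real.exp (p * μ₁ + q * μ₂) ^ N * Real.exp (-(1 : ℝ) * energy φ x)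
          = Real.exp c * Real.exp
              (p * (-a₁ + N * μ₁ + -(1 : ℝ) * energy (fun r => core K r - g₁ r) x) +
               q * (-a₂ + N * μ₂ + -(1 : ℝ) * energy (fun r => core K r - g₂ r) x)) := by
            rw [← Real.exp_nat_mul, ← Real.exp_add, ← Real.exp_add, he, hc]
            ring_nf
        _ ≤ Real.exp c * (p * Real.exp
              (-a₁ + N * μ₁ + -(1 : ℝ) * energy (fun r => core K r - g₁ r) x) +
              q * Real.exp (-a₂ + N * μ₂ + -(1 : ℝ) * energy (fun r => core K r - g₂ r) x)) :=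
            mul_le_mul_of_nonneg_left hconv (Real.exp_pos _).le
        _ = _ := by
            rw [Real.exp_add (-a₁ + N * μ₁), Real.exp_add (-a₁), Real.exp_add (-a₂ + N * μ₂),
              Real.exp_add (-a₂), Real.exp_nat_mul, Real.exp_nat_mul]
            ring
    rw [integral_const_mul, integral_add (i₁.const_mul _) (i₂.const_mul _), integral_const_mul,
      integral_const_mul] at hI
    have := mul_le_mul_of_nonneg_left hI (show (0 : ℝ) ≤ 1 / N.factorial by positivity)
    simp only [Z]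
    linarith
  have s₁ := summable_terms h₁ hK hA hL μ₁
  have s₂ := summable_terms h₂ hK hA hL μ₂
  have hs : Xi φ 1 (Real.exp (p * μ₁ + q * μ₂)) L ≤ Real.exp c * (p * 1 + q * 1) := by
    refine ((summable_terms hm hK hA hL _).tsum_le_tsum hterm
      ((((s₁.mul_left _).mul_left p).add ((s₂.mul_left _).mul_left q)).mul_left _)).trans
      (le_of_eq ?_)
    rw [tsum_mul_left, Summable.tsum_add ((s₁.mul_left _).mul_left p) ((s₂.mul_left _).mul_left q),
      tsum_mul_left, tsum_mul_left, tsum_mul_left, tsum_mul_left]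
    change Real.exp c * (p * (Real.exp (-a₁) * Xi _ 1 _ L) + q * (Real.exp (-a₂) * Xi _ 1 _ L)) = _
    rw [Xi_eq_exp h₁ hK hA hL, Xi_eq_exp h₂ hK hA hL, ← ha₁, ← ha₂, ← Real.exp_add,
      ← Real.exp_add]
    simp
  rw [mul_one, mul_one, hpq, mul_one, hφ, Xi_eq_exp hm hK hA hL, Real.exp_le_exp] at hs
  refine le_of_mul_le_mul_left (hs.trans (le_of_eq ?_)) hV
  rw [hc, ha₁, ha₂]; ring

theorem P_mono (h₁ : Mass g₁ A) (h₂ : Mass g₂ A) (hK : 0 < K) (hA : 4 * A ≤ K) (hL : 1 ≤ L)
    (h : ∀ r, g₁ r ≤ g₂ r) (μ : ℝ) :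
    P (fun r => core K r - g₁ r) L μ ≤ P (fun r => core K r - g₂ r) L μ := by
  have hV : 0 < L ^ 3 := by positivity
  refine le_of_mul_le_mul_left (Real.exp_le_exp.mp ?_) hV
  rw [← Xi_eq_exp h₁ hK hA hL, ← Xi_eq_exp h₂ hK hA hL]
  refine (summable_terms h₁ hK hA hL μ).tsum_le_tsum (fun N => ?_) (summable_terms h₂ hK hA hL μ)
  refine mul_le_mul_of_nonneg_left (mul_le_mul_of_nonneg_left ?_ (by positivity)) (by positivity)
  refine setIntegral_mono_on (integrableOn_boltzmann h₁ hK.le hA L N)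
    (integrableOn_boltzmann h₂ hK.le hA L N) (measurableSet_config L N)
    fun x _ => Real.exp_le_exp.mpr ?_
  linarith [energy_mono (φ := fun r => core K r - g₂ r) (ψ := fun r => core K r - g₁ r)
    (fun r => sub_le_sub_left (h r) _) x]

/-- The finite-volume pressures are convex, nonnegative and grow at most quadratically. -/
theorem nice_P {g : ℝ → ℝ} (hg : Mass g A) (hK : 0 < K) (hA : 4 * A ≤ K) (hL : 1 ≤ L) :
    Nice (K / 32) (4 * K + 1) (P (fun r => core K r - g r) L) := by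
  have hV : 0 < L ^ 3 := by positivity
  refine ⟨⟨convex_univ, fun μ₁ _ μ₂ _ p q hp hq hpq => ?_⟩, fun μ => ?_, fun μ => ?_⟩
  · have h := P_mix hg hg hK hA hL hp hq hpq μ₁ μ₂
    simp only [← add_mul, hpq, one_mul] at h
    exact h
  · exact div_nonneg (Real.log_nonneg (one_le_Xi hg hK hA hL μ)) hV.le
  · have h := Xi_le hg hK hA hL μ
    rw [Xi_eq_exp hg hK hA hL, Real.exp_le_exp] at h
    refine (le_of_mul_le_mul_left h hV).trans (le_of_eq ?_)
    field_simp
    ring

end convexity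

end Vale.Agent.P171
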