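import Mathlib
import Vale.Agent.P171.Basic

/-!
The pressure of the bare core: at most one at chemical potential zero and at least linear.
-/

open MeasureTheory Finset
open scoped Classical

namespace Vale.Agent.P171

/-- The unit box with lower corner `4c`. -/
def box {m : ℕ} (c : Fin 3 → Fin m) : Set R3 :=
  {y | ∀ k, y k ∈ Set.Icc (4 * (c k : ℝ)) (4 * (c k : ℝ) + 1)}

theorem box_eq_preimage {m : ℕ} (c : Fin 3 → Fin m) :
    box c = WithLp.ofLp ⁻¹'
      (Set.univ.pi fun k : Fin 3 => Set.Icc (4 * (c k : ℝ)) (4 * (c k : ℝ) + 1)) := by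
  ext y; simp only [box, Set.mem_preimage, Set.mem_univ_pi]; exact Iff.rfl

theorem measurableSet_box {m : ℕ} (c : Fin 3 → Fin m) : MeasurableSet (box c) := by
  rw [box_eq_preimage]
  exact (MeasurableSet.univ_pi fun _ => measurableSet_Icc).preimage
    (PiLp.volume_preserving_ofLp (Fin 3)).measurable

theorem volume_box {m : ℕ} (c : Fin 3 → Fin m) : volume (box c) = 1 := by
  rw [box_eq_preimage, (PiLp.volume_preserving_ofLp (Fin 3)).measure_preimage
    (MeasurableSet.univ_pi fun _ => measurableSet_Icc).nullMeasurableSet, volume_pi_pi]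
  simp

theorem coord_far {m : ℕ} {a b : Fin m} (h : a ≠ b) {u v : ℝ}
    (hu : u ∈ Set.Icc (4 * (a : ℝ)) (4 * (a : ℝ) + 1))
    (hv : v ∈ Set.Icc (4 * (b : ℝ)) (4 * (b : ℝ) + 1)) : 3 ≤ |u - v| := by
  rcases Nat.lt_or_gt_of_ne (fun e => h (Fin.ext e)) with hl | hl
  · have : (a : ℝ) + 1 ≤ (b : ℝ) := by exact_mod_cast hl
    rw [le_abs]; right; linarith [hu.2, hv.1]
  · have : (b : ℝ) + 1 ≤ (a : ℝ) := by exact_mod_cast hl
    rw [le_abs]; left; linarith [hu.1, hv.2]

theorem box_far {m : ℕ} {c c' : Fin 3 → Fin m} (h : c ≠ c') {u v : R3}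
    (hu : u ∈ box c) (hv : v ∈ box c') : 3 ≤ dist u v := by
  obtain ⟨k, hk⟩ := Function.ne_iff.mp h
  exact (coord_far hk (hu k) (hv k)).trans (abs_coord_sub_le u v k)

variable {K L : ℝ}

theorem zero_mass {A : ℝ} (hA : 0 ≤ A) : Mass (fun _ : ℝ => (0 : ℝ)) A :=
  ⟨measurable_const, fun _ => le_rfl, fun N x => by
    simpa [energy] using mul_nonneg hA (cellSq_nonneg x)⟩

theorem P_core_zero_le (hK : 0 < K) (hL : 1 ≤ L) :
    P (fun r => core K r - 0) L 0 ≤ 1 := by
  have hV : 0 < L ^ 3 := by positivity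
  have hg := zero_mass (le_refl (0 : ℝ))
  have hA : 4 * (0 : ℝ) ≤ K := by linarith
  have hXi : Xi (fun r => core K r - 0) 1 (Real.exp 0) L ≤ Real.exp (L ^ 3) := by
    rw [show Real.exp (L ^ 3) = ∑' N : ℕ, (L ^ 3) ^ N / (N.factorial : ℝ) by
      rw [Real.exp_eq_exp_ℝ, NormedSpace.exp_eq_tsum_div]]
    refine (summable_terms hg hK hA hL 0).tsum_le_tsum (fun N => ?_)
      (Real.summable_pow_div_factorial _)
    have h : ∫ x in Set.univ.pi (fun _ : Fin N => cube L),
        Real.exp (-(1 : ℝ) * energy (fun r => core K r - 0) x) ≤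
        ∫ _x in Set.univ.pi (fun _ : Fin N => cube L), (1 : ℝ) := by
      refine setIntegral_mono_on (integrableOn_boltzmann hg hK.le hA L N)
        (integrableOn_const (volume_config_lt_top L N).ne) (measurableSet_config L N) fun x _ => ?_
      rw [Real.exp_le_one_iff]
      have : 0 ≤ energy (fun r => core K r - 0) x :=
        energy_nonneg (fun r => by simpa using core_nonneg hK.le r) x
      linarith
    rw [setIntegral_const, volume_config (by linarith) N, smul_eq_mul, mul_one] at h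
    simp only [Real.exp_zero, one_pow, one_mul, Z]
    calc 1 / (N.factorial : ℝ) * _ ≤ 1 / (N.factorial : ℝ) * (L ^ 3) ^ N :=
          mul_le_mul_of_nonneg_left h (by positivity)
      _ = _ := by ring
  rw [Xi_eq_exp hg hK hA hL, Real.exp_le_exp] at hXi
  exact le_of_mul_le_mul_left (hXi.trans_eq (mul_one _).symm) hV

/-- With one particle per box, `P(μ) ≥ ρ μ` for some density `ρ ≥ 1/512`. -/
theorem P_core_linear (hK : 0 < K) (hL : 8 ≤ L) :
    ∃ ρ : ℝ, 1 / 512 ≤ ρ ∧ ∀ μ, ρ * μ ≤ P (fun r => core K r - 0) L μ := by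
  have hV : 0 < L ^ 3 := by positivity
  have hg := zero_mass (le_refl (0 : ℝ))
  have hA : 4 * (0 : ℝ) ≤ K := by linarith
  set m := ⌊L / 4⌋₊ with hm
  have hmle : (m : ℝ) ≤ L / 4 := Nat.floor_le (by linarith)
  have hmlt : L / 4 < m + 1 := Nat.lt_floor_add_one _
  set n := m ^ 3 with hn
  set e : Fin n ≃ (Fin 3 → Fin m) :=
    (Fintype.equivFinOfCardEq (α := Fin 3 → Fin m) (by simp [hn])).symm
  set B : Equiv.Perm (Fin n) → Set (Fin n → R3) :=
    fun σ => Set.univ.pi fun i => box (e (σ i)) with hB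
  have hBm : ∀ σ, MeasurableSet (B σ) :=
    fun σ => MeasurableSet.univ_pi fun i => measurableSet_box _
  have hBvol : ∀ σ, volume (B σ) = 1 := fun σ => by
    simp only [hB]
    rw [volume_pi_pi]; simp [volume_box]
  have hdisj : Pairwise (Function.onFun Disjoint B) := by
    intro σ τ hne
    obtain ⟨i, hi⟩ := Function.ne_iff.mp (fun h => hne (Equiv.ext (congrFun h)))
    rw [Function.onFun, Set.disjoint_left]
    intro x hx hx'
    have := box_far (fun h => hi (e.injective h)) (hx i trivial) (hx' i trivial)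
    rw [dist_self] at this
    linarith
  have hsub : (⋃ σ, B σ) ⊆ Set.univ.pi fun _ : Fin n => cube L := by
    intro x hx i _
    obtain ⟨σ, hσ⟩ := Set.mem_iUnion.mp hx
    intro k
    have h := hσ i trivial k
    have hlt : ((e (σ i) k : ℕ) : ℝ) + 1 ≤ m := by exact_mod_cast (e (σ i) k).isLt
    have h0 : (0 : ℝ) ≤ ((e (σ i) k : ℕ) : ℝ) := Nat.cast_nonneg _
    exact ⟨by linarith [h.1], by linarith [h.2]⟩
  have hint := integrableOn_boltzmann hg hK.le hA L n
  have hZ : 1 ≤ Z (fun r => core K r - 0) 1 L n := by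
    have h1 : ∫ _x in ⋃ σ, B σ, (1 : ℝ) ≤
        ∫ x in Set.univ.pi (fun _ : Fin n => cube L),
          Real.exp (-(1 : ℝ) * energy (fun r => core K r - 0) x) := by
      refine le_trans (le_of_eq ?_) (setIntegral_mono_set hint
        (ae_of_all _ fun _ => (Real.exp_pos _).le) hsub.eventuallyLE)
      refine setIntegral_congr_fun (MeasurableSet.iUnion hBm) fun x hx => ?_
      obtain ⟨σ, hσ⟩ := Set.mem_iUnion.mp hx
      have h0 : energy (fun r => core K r - 0) x = 0 := by
        refine sum_eq_zero fun i _ => sum_eq_zero fun j hj => ?_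
        have := box_far (fun h => (mem_filter.mp hj).2.ne (σ.injective (e.injective h)))
          (hσ i trivial) (hσ j trivial)
        simp [core, show ¬ dist (x i) (x j) ≤ 2 by linarith]
      simp only [h0, mul_zero, Real.exp_zero]
    rw [setIntegral_const, smul_eq_mul, mul_one, measureReal_def,
      measure_iUnion hdisj hBm, tsum_fintype] at h1
    simp only [hBvol, sum_const, card_univ, Fintype.card_perm, Fintype.card_fin, nsmul_eq_mul,
      mul_one, ENNReal.toReal_natCast] at h1
    have h2 : (1 : ℝ) / n.factorial * n.factorial = 1 := by field_simp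
    calc (1 : ℝ) = 1 / n.factorial * n.factorial := h2.symm
      _ ≤ Z (fun r => core K r - 0) 1 L n := mul_le_mul_of_nonneg_left h1 (by positivity)
  refine ⟨n / L ^ 3, ?_, fun μ => ?_⟩
  · rw [le_div_iff₀ hV, hn]; push_cast
    have : L / 8 ≤ m := by linarith
    calc 1 / 512 * L ^ 3 = (L / 8) ^ 3 := by ring
      _ ≤ (m : ℝ) ^ 3 := pow_le_pow_left₀ (by linarith) this 3
  · have h := (summable_terms (L := L) hg hK hA (by linarith) μ).le_tsum n
      (fun N _ => mul_nonneg (by positivity) (Z_nonneg _ _ _ _))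
    have h' : Real.exp μ ^ n ≤ Xi (fun r => core K r - 0) 1 (Real.exp μ) L :=
      le_trans (le_mul_of_one_le_right (by positivity) hZ) h
    rw [Xi_eq_exp (L := L) hg hK hA (by linarith), ← Real.exp_nat_mul, Real.exp_le_exp] at h'
    rw [div_mul_eq_mul_div, div_le_iff₀ hV]
    linarith

end Vale.Agent.P171
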