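import Mathlib
import Vale.Agent.P171.Defs

/-!
Splitting a configuration into grid blocks: block energies, factorisation of integrals over block
assignments, translation invariance, and the counting of assignments.
-/

open MeasureTheory Finset
open scoped Classical

namespace Vale.Agent.P171.Blocks

variable {β : Type*} {N : ℕ}

/-- The particles assigned to block `b`. -/
noncomputable def fibre (σ : Fin N → β) (b : β) : Finset (Fin N) :=
  univ.filter fun i => σ i = b

/-- Their number. -/
noncomputable def cnt (σ : Fin N → β) (b : β) : ℕ := (fibre σ b).card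

/-- Their increasing enumeration. -/
noncomputable def idx (σ : Fin N → β) (b : β) : Fin (cnt σ b) ↪o Fin N :=
  (fibre σ b).orderEmbOfFin rfl

/-- The configuration of block `b`. -/
noncomputable def sub (σ : Fin N → β) (b : β) (x : Fin N → R3) : Fin (cnt σ b) → R3 :=
  fun k => x (idx σ b k)

theorem apply_idx (σ : Fin N → β) (b : β) (k : Fin (cnt σ b)) : σ (idx σ b k) = b :=
  (mem_filter.mp ((fibre σ b).orderEmbOfFin_mem rfl k)).2

theorem map_idx (σ : Fin N → β) (b : β) :
    (univ : Finset (Fin (cnt σ b))).map (idx σ b).toEmbedding = fibre σ b :=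
  Finset.map_orderEmbOfFin_univ _ rfl

theorem sum_cnt [Fintype β] (σ : Fin N → β) : ∑ b, cnt σ b = N := by
  have := card_eq_sum_card_fiberwise (f := σ) (s := (univ : Finset (Fin N))) (t := univ)
    fun i _ => mem_univ _
  simpa [cnt, fibre] using this.symm

/-- Every particle is enumerated exactly once. -/
noncomputable def sigmaIdx (σ : Fin N → β) : (Σ b, Fin (cnt σ b)) ≃ Fin N :=
  Equiv.ofBijective (fun p => idx σ p.1 p.2) ⟨by
    rintro ⟨b, k⟩ ⟨b', k'⟩ h
    simp only at h
    obtain rfl : b = b' := by rw [← apply_idx σ b k, h, apply_idx σ b' k']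
    rw [(idx σ b).injective h], fun i => by
    have hi : i ∈ fibre σ (σ i) := mem_filter.mpr ⟨mem_univ _, rfl⟩
    rw [← map_idx, mem_map] at hi
    obtain ⟨k, -, hk⟩ := hi
    exact ⟨⟨σ i, k⟩, hk⟩⟩

theorem sigmaIdx_apply (σ : Fin N → β) (p : Σ b, Fin (cnt σ b)) :
    sigmaIdx σ p = idx σ p.1 p.2 := rfl

/-- Splitting a configuration into the configurations of the blocks. -/
noncomputable def split (σ : Fin N → β) : (∀ b, Fin (cnt σ b) → R3) ≃ᵐ (Fin N → R3) where
  toFun y := fun i => y ((sigmaIdx σ).symm i).1 ((sigmaIdx σ).symm i).2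
  invFun x := fun b => sub σ b x
  left_inv y := by
    funext b k
    have h : (sigmaIdx σ).symm (idx σ b k) = ⟨b, k⟩ := by
      rw [Equiv.symm_apply_eq, sigmaIdx_apply]
    show y ((sigmaIdx σ).symm (idx σ b k)).1 ((sigmaIdx σ).symm (idx σ b k)).2 = y b k
    rw [h]
  right_inv x := by
    funext i
    show x (idx σ _ _) = x i
    rw [← sigmaIdx_apply, Equiv.apply_symm_apply]
  measurable_toFun :=
    measurable_pi_lambda (fun y : ∀ b, Fin (cnt σ b) → R3 =>
        fun i => y ((sigmaIdx σ).symm i).1 ((sigmaIdx σ).symm i).2) fun i =>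
      (measurable_pi_apply ((sigmaIdx σ).symm i).2).comp
        (measurable_pi_apply ((sigmaIdx σ).symm i).1)
  measurable_invFun :=
    measurable_pi_lambda _ fun _ => measurable_pi_lambda _ fun _ => measurable_pi_apply _

theorem sub_split (σ : Fin N → β) (y : ∀ b, Fin (cnt σ b) → R3) (b : β) :
    sub σ b (split σ y) = y b := congrFun ((split σ).left_inv y) b

theorem split_preimage_pi (σ : Fin N → β) (S : Fin N → Set R3) :
    split σ ⁻¹' Set.univ.pi S =
      Set.univ.pi fun b => Set.univ.pi fun k => S (idx σ b k) := by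
  ext y
  simp only [Set.mem_preimage, Set.mem_univ_pi]
  constructor
  · intro h b k
    have h' := h (idx σ b k)
    have e : split σ y (idx σ b k) = y b k := congrFun (sub_split σ y b) k
    rwa [e] at h'
  · intro h i
    have h' := h ((sigmaIdx σ).symm i).1 ((sigmaIdx σ).symm i).2
    rw [← sigmaIdx_apply, Equiv.apply_symm_apply] at h'
    exact h'

theorem split_measurePreserving [Fintype β] (σ : Fin N → β) :
    MeasurePreserving (split σ) := by
  refine ⟨(split σ).measurable, ?_⟩
  symm
  refine Measure.pi_eq fun S hS => ?_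
  rw [Measure.map_apply (split σ).measurable (MeasurableSet.univ_pi hS), split_preimage_pi,
    volume_pi_pi]
  simp only [volume_pi_pi]
  rw [← Fintype.prod_sigma', ← (sigmaIdx σ).prod_comp (fun i => volume (S i))]
  rfl

/-- A product over the blocks integrates to the product of the integrals. -/
theorem integral_prod [Fintype β] (σ : Fin N → β) (D : β → Set R3)
    (F : ∀ b, (Fin (cnt σ b) → R3) → ℝ) :
    ∫ x in Set.univ.pi (fun i => D (σ i)), ∏ b, F b (sub σ b x) =
      ∏ b, ∫ y in Set.univ.pi (fun _ : Fin (cnt σ b) => D b), F b y := by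
  rw [← (split_measurePreserving σ).setIntegral_preimage_emb (split σ).measurableEmbedding,
    split_preimage_pi, volume_pi, Measure.restrict_pi_pi]
  simp only [apply_idx]
  rw [← integral_fintype_prod_eq_prod]
  refine integral_congr_ae (ae_of_all _ fun y => Finset.prod_congr rfl fun b _ => ?_)
  exact congrArg (F b) (sub_split σ y b)

/-- The energy of the pairs in common blocks. -/
theorem energy_blocks [Fintype β] (φ : ℝ → ℝ) (σ : Fin N → β) (x : Fin N → R3) :
    ∑ b, energy φ (sub σ b x) =
      ∑ i, ∑ j ∈ univ.filter (fun j => i < j),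
        if σ i = σ j then φ (dist (x i) (x j)) else 0 := by
  have h : ∀ b, energy φ (sub σ b x) = ∑ i ∈ fibre σ b,
      ∑ j ∈ fibre σ b, if i < j then φ (dist (x i) (x j)) else 0 := by
    intro b
    rw [← map_idx σ b, sum_map]
    refine sum_congr rfl fun k _ => ?_
    rw [sum_map, sum_filter]
    refine sum_congr rfl fun l _ => ?_
    simp [sub]
  simp only [h, sum_filter]
  rw [← sum_fiberwise (univ : Finset (Fin N)) σ
    (fun i => ∑ j, if i < j then (if σ i = σ j then φ (dist (x i) (x j)) else 0) else 0)]
  refine sum_congr rfl fun b _ => sum_congr rfl fun i hi => ?_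
  rw [fibre, sum_filter]
  refine sum_congr rfl fun j _ => ?_
  have hib : σ i = b := (mem_filter.mp hi).2
  subst hib
  by_cases hj : σ j = σ i
  · simp [hj]
  · simp [hj, Ne.symm hj]

theorem energy_translate (φ : ℝ → ℝ) (v : R3) {n : ℕ} (x : Fin n → R3) :
    energy φ (fun i => v + x i) = energy φ x := by
  simp [energy]

/-- Integrals of translation invariant functions over translated boxes. -/
theorem setIntegral_translate {n : ℕ} (D : Set R3) (v : R3) (F : (Fin n → R3) → ℝ)
    (hF : ∀ x, F (fun i => v + x i) = F x) :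
    ∫ x in Set.univ.pi (fun _ : Fin n => (fun y => -v + y) ⁻¹' D), F x =
      ∫ x in Set.univ.pi (fun _ : Fin n => D), F x := by
  have hm : MeasurePreserving (fun x : Fin n → R3 => fun i => v + x i) :=
    volume_preserving_pi fun _ => measurePreserving_add_left volume v
  have he : MeasurableEmbedding (fun x : Fin n → R3 => fun i => v + x i) :=
    (MeasurableEquiv.piCongrRight fun _ : Fin n => MeasurableEquiv.addLeft v).measurableEmbedding
  rw [← hm.setIntegral_preimage_emb he]
  have : (fun x : Fin n → R3 => fun i => v + x i) ⁻¹'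
      Set.univ.pi (fun _ : Fin n => (fun y => -v + y) ⁻¹' D) = Set.univ.pi fun _ => D := by
    ext x; simp
  rw [this]
  simp only [hF]

theorem cnt_cons (b c : β) (σ : Fin N → β) :
    cnt (Fin.cons b σ : Fin (N + 1) → β) c = cnt σ c + if b = c then 1 else 0 := by
  simp only [cnt, fibre, card_filter, Fin.sum_univ_succ, Fin.cons_zero, Fin.cons_succ]
  rw [add_comm]

/-- The factorials of the block sizes, summed over all assignments. -/
theorem sum_prod_factorial [Fintype β] :
    ∀ N : ℕ, ∑ σ : Fin N → β, ∏ b, (cnt σ b).factorial = (Fintype.card β).ascFactorial N := by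
  intro N
  induction N with
  | zero => simp [cnt, fibre]
  | succ N ih =>
    rw [← (Fin.consEquiv fun _ : Fin (N + 1) => β).sum_comp, Fintype.sum_prod_type, sum_comm,
      Nat.ascFactorial_succ, ← ih, mul_sum]
    refine sum_congr rfl fun σ _ => ?_
    have h : ∀ b : β,
        ∏ c, (cnt ((Fin.consEquiv fun _ : Fin (N + 1) => β) (b, σ)) c).factorial =
          (cnt σ b + 1) * ∏ c, (cnt σ c).factorial := by
      intro b
      have e : ∀ c, (cnt ((Fin.consEquiv fun _ : Fin (N + 1) => β) (b, σ)) c).factorial =
          (if b = c then cnt σ b + 1 else 1) * (cnt σ c).factorial := by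
        intro c
        rw [show ((Fin.consEquiv fun _ : Fin (N + 1) => β) (b, σ)) = Fin.cons b σ from rfl,
          cnt_cons]
        split_ifs with hbc
        · subst hbc; rw [Nat.factorial_succ]
        · rw [one_mul, add_zero]
      simp only [e]
      rw [prod_mul_distrib, prod_ite_eq, if_pos (mem_univ b)]
    simp only [h, ← sum_mul, sum_add_distrib, sum_cnt, sum_const, card_univ, smul_eq_mul, mul_one]
    ring

/-! ### The grid -/

/-- The grid block of a point, for the diagonal shift `s`. -/
noncomputable def blockOf (s L : ℝ) (y : R3) : Fin 3 → ℤ := fun k => ⌊(y k - s) / L⌋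

/-- The block with index `b`. -/
def block (s L : ℝ) (b : Fin 3 → ℤ) : Set R3 := {y | blockOf s L y = b}

/-- The corner of the block with index `b`. -/
noncomputable def corner (s L : ℝ) (b : Fin 3 → ℤ) : R3 :=
  WithLp.toLp 2 fun k => s + (b k : ℝ) * L

theorem measurable_blockOf (s L : ℝ) : Measurable (blockOf s L) :=
  measurable_pi_lambda _ fun k => Int.measurable_floor.comp
    ((((measurable_pi_apply k).comp (PiLp.volume_preserving_ofLp (Fin 3)).measurable).sub_const
      s).div_const L)

theorem measurableSet_block (s L : ℝ) (b : Fin 3 → ℤ) : MeasurableSet (block s L b) :=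
  measurable_blockOf s L (measurableSet_singleton b)

theorem block_bounds {s L : ℝ} (hL : 0 < L) {b : Fin 3 → ℤ} {y : R3} (hy : y ∈ block s L b)
    (k : Fin 3) : s + (b k : ℝ) * L ≤ y k ∧ y k < s + ((b k : ℝ) + 1) * L := by
  have h : ⌊(y k - s) / L⌋ = b k := congrFun hy k
  obtain ⟨h1, h2⟩ := Int.floor_eq_iff.mp h
  rw [le_div_iff₀ hL] at h1
  rw [div_lt_iff₀ hL] at h2
  exact ⟨by linarith, by linarith⟩

theorem block_subset {s L : ℝ} (hL : 0 < L) (b : Fin 3 → ℤ) :
    block s L b ⊆ (fun y => -corner s L b + y) ⁻¹' cube L := by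
  intro y hy k
  obtain ⟨h1, h2⟩ := block_bounds hL hy k
  simp only [corner, PiLp.add_apply, PiLp.neg_apply, Set.mem_Icc]
  constructor <;> linarith

theorem pairwise_disjoint_boxes (s L : ℝ) (B : Finset (Fin 3 → ℤ)) :
    Pairwise fun σ τ : Fin N → B => Disjoint
      (Set.univ.pi fun i => block s L (σ i : Fin 3 → ℤ))
      (Set.univ.pi fun i => block s L (τ i : Fin 3 → ℤ)) := by
  intro σ τ hne
  rw [Set.disjoint_left]
  intro x h1 h2
  refine hne (funext fun i => Subtype.ext ?_)
  exact (h1 i (Set.mem_univ i)).symm.trans (h2 i (Set.mem_univ i))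

/-- An integral over configurations in a covered domain splits over block assignments. -/
theorem integral_le_sum_boxes {s L : ℝ} {B : Finset (Fin 3 → ℤ)} {D : Set R3}
    (hD : ∀ y ∈ D, blockOf s L y ∈ B) {f : (Fin N → R3) → ℝ} (hf : ∀ x, 0 ≤ f x)
    (hint : ∀ σ : Fin N → B,
      IntegrableOn f (Set.univ.pi fun i => block s L (σ i : Fin 3 → ℤ))) :
    ∫ x in Set.univ.pi (fun _ : Fin N => D), f x ≤
      ∑ σ : Fin N → B, ∫ x in Set.univ.pi (fun i => block s L (σ i : Fin 3 → ℤ)), f x := by
  rw [← integral_iUnion_fintype (fun σ => MeasurableSet.univ_pi fun i => measurableSet_block _ _ _)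
    (pairwise_disjoint_boxes s L B) hint]
  refine setIntegral_mono_set (integrableOn_finite_iUnion.mpr hint) (ae_of_all _ hf)
    (Filter.Eventually.of_forall fun x hx => Set.mem_iUnion.mpr ?_)
  exact ⟨fun i => ⟨blockOf s L (x i), hD _ (hx i (Set.mem_univ i))⟩, fun i _ => rfl⟩

end Vale.Agent.P171.Blocks
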