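import Mathlib
import Vale.Agent.P171.Base

/-!
Iterating the Kac step along rapidly growing ranges: the limiting potential has an exact kink in
its pressure.
-/

open MeasureTheory Filter Finset
open scoped Topology Classical

namespace Vale.Agent.P171

/-- The square roots of the couplings. -/
noncomputable def w (v : ℝ) (j : ℕ) : ℝ := if j = 0 then 4096 else v ^ (2 ^ j)

/-- The couplings. -/
noncomputable def cpl (v : ℝ) (j : ℕ) : ℝ := w v j ^ 2

/-- The ranges. -/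
noncomputable def rad (v : ℝ) (j : ℕ) : ℝ := (1 / v) ^ (32 * 2 ^ j)

/-- The block sides. -/
noncomputable def side (v : ℝ) (j : ℕ) : ℝ := (1 / v) ^ (48 * 2 ^ j)

/-- The truncated attractions. -/
noncomputable def att (v : ℝ) (m : ℕ) (r : ℝ) : ℝ :=
  ∑ i ∈ range m, cpl v i * J (rad v (i + 1)) r

/-- The full attraction. -/
noncomputable def attInf (v : ℝ) (r : ℝ) : ℝ := ∑' i : ℕ, cpl v i * J (rad v (i + 1)) r

/-- The mean-field transform of the `j`-th stage. -/
noncomputable def stage (K v : ℝ) (j : ℕ) : ℝ → ℝ :=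
  T (cpl v j) (P (fun r => core K r - att v j r) (side v j))

section params

variable {v : ℝ}

theorem one_add_le_two_pow (j : ℕ) : j + 1 ≤ 2 ^ j := Nat.lt_two_pow_self

theorem w_pos (hv : 0 < v) (j : ℕ) : 0 < w v j := by
  unfold w; split_ifs <;> positivity

theorem cpl_pos (hv : 0 < v) (j : ℕ) : 0 < cpl v j := pow_pos (w_pos hv j) 2

theorem v_pow_le (hv : 0 < v) (hv2 : v ≤ 1 / 2) {k e : ℕ} (h : k ≤ e) :
    v ^ e ≤ (1 / 2 : ℝ) ^ k :=
  (pow_le_pow_of_le_one hv.le (by linarith) h).trans (pow_le_pow_left₀ hv.le hv2 k)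

theorem w_le_half (hv : 0 < v) (hv2 : v ≤ 1 / 2) {j : ℕ} (hj : 1 ≤ j) :
    w v j ≤ (1 / 2 : ℝ) ^ (j + 1) := by
  rw [w, if_neg (by omega)]; exact v_pow_le hv hv2 (one_add_le_two_pow j)

theorem cpl_le_half (hv : 0 < v) (hv2 : v ≤ 1 / 2) {j : ℕ} (hj : 1 ≤ j) :
    cpl v j ≤ (1 / 2 : ℝ) ^ (j + 1) := by
  have h := w_le_half hv hv2 hj
  have h1 : w v j ≤ 1 := h.trans (pow_le_one₀ (by norm_num) (by norm_num))
  calc cpl v j = w v j * w v j := by rw [cpl, sq]
    _ ≤ w v j * 1 := mul_le_mul_of_nonneg_left h1 (w_pos hv j).le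
    _ ≤ _ := by rw [mul_one]; exact h

theorem sum_half_le (m n : ℕ) : ∑ i ∈ Ico m n, (1 / 2 : ℝ) ^ (i + 1) ≤ (1 / 2 : ℝ) ^ m := by
  rcases le_or_gt m n with h | h
  · induction n, h using Nat.le_induction with
    | base => simp
    | succ n hn ih =>
      have : ∀ n, m ≤ n → ∑ i ∈ Ico m n, (1 / 2 : ℝ) ^ (i + 1) =
          (1 / 2 : ℝ) ^ m - (1 / 2 : ℝ) ^ n := by
        intro n hn
        induction n, hn using Nat.le_induction with
        | base => simp
        | succ n hn ih => rw [sum_Ico_succ_top hn, ih, pow_succ]; ring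
      rw [this (n + 1) (by omega)]
      linarith [pow_nonneg (show (0 : ℝ) ≤ 1 / 2 by norm_num) (n + 1)]
  · rw [Ico_eq_empty (by omega)]; simp

theorem sum_cpl_Ico (hv : 0 < v) (hv2 : v ≤ 1 / 2) {m : ℕ} (hm : 1 ≤ m) (n : ℕ) :
    ∑ i ∈ Ico m n, cpl v i ≤ (1 / 2 : ℝ) ^ m :=
  (sum_le_sum fun _ hi => cpl_le_half hv hv2 (le_trans hm (mem_Ico.mp hi).1)).trans
    (sum_half_le m n)

theorem sum_w (hv : 0 < v) (hv2 : v ≤ 1 / 2) (n : ℕ) : ∑ i ∈ range n, w v i ≤ 4097 := by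
  rcases n with _ | n
  · simp
  · rw [range_eq_Ico, sum_eq_sum_Ico_succ_bot (Nat.succ_pos n)]
    have : ∑ i ∈ Ico 1 (n + 1), w v i ≤ (1 / 2 : ℝ) ^ 1 :=
      (sum_le_sum fun _ hi => w_le_half hv hv2 (mem_Ico.mp hi).1).trans (sum_half_le 1 _)
    have h0 : w v 0 = 4096 := by simp [w]
    simp only [zero_add] at this ⊢
    linarith

theorem sum_cpl (hv : 0 < v) (hv2 : v ≤ 1 / 2) (n : ℕ) :
    ∑ i ∈ range n, cpl v i ≤ 4096 ^ 2 + 1 := by
  rcases n with _ | n
  · simp only [range_zero, sum_empty]; norm_num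
  · rw [range_eq_Ico, sum_eq_sum_Ico_succ_bot (Nat.succ_pos n)]
    have := sum_cpl_Ico hv hv2 (le_refl 1) (n + 1)
    have h0 : cpl v 0 = 4096 ^ 2 := by simp [cpl, w]
    simp only [zero_add] at this ⊢
    linarith [show ((1 : ℝ) / 2) ^ 1 ≤ 1 by norm_num]

theorem summable_cpl (hv : 0 < v) (hv2 : v ≤ 1 / 2) : Summable (cpl v) :=
  summable_of_sum_range_le (fun n => (cpl_pos hv n).le) (sum_cpl hv hv2)

theorem one_le_inv (hv : 0 < v) (hv2 : v ≤ 1 / 2) : 2 ≤ 1 / v := by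
  rw [le_div_iff₀ hv]; linarith

theorem two_le_rad (hv : 0 < v) (hv2 : v ≤ 1 / 2) (j : ℕ) : 2 ≤ rad v j :=
  (one_le_inv hv hv2).trans
    (le_self_pow₀ (le_trans one_le_two (one_le_inv hv hv2)) (by positivity))

theorem rad_le_succ (hv : 0 < v) (hv2 : v ≤ 1 / 2) {i j : ℕ} (h : i ≤ j) :
    rad v i ≤ rad v j :=
  pow_le_pow_right₀ (le_trans one_le_two (one_le_inv hv hv2))
    (Nat.mul_le_mul_left _ (Nat.pow_le_pow_right two_pos h))

theorem eight_le_pow (hv : 0 < v) (hv8 : v ≤ 1 / 8) {e : ℕ} (he : e ≠ 0) : 8 ≤ (1 / v) ^ e := by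
  have : 8 ≤ 1 / v := by rw [le_div_iff₀ hv]; linarith
  exact this.trans (le_self_pow₀ (by linarith) he)

theorem scales (hv : 0 < v) (hv8 : v ≤ 1 / 8) (j : ℕ) :
    8 * rad v j ≤ side v j ∧ 8 * side v j ≤ rad v (j + 1) ∧ rad v (j + 1) ≤ side v (j + 1) := by
  have h1 : 8 ≤ (1 / v) ^ (16 * 2 ^ j) := eight_le_pow hv hv8 (by positivity)
  refine ⟨?_, ?_, ?_⟩
  · rw [show side v j = (1 / v) ^ (16 * 2 ^ j) * rad v j by
      rw [side, rad, ← pow_add]; ring_nf]
    exact mul_le_mul_of_nonneg_right h1 (by unfold rad; positivity)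
  · rw [show rad v (j + 1) = (1 / v) ^ (16 * 2 ^ j) * side v j by
      rw [side, rad, ← pow_add]; ring_nf]
    exact mul_le_mul_of_nonneg_right h1 (by unfold side; positivity)
  · exact pow_le_pow_right₀ (le_trans one_le_two (one_le_inv hv (by linarith)))
      (Nat.mul_le_mul_right _ (by norm_num))

/-- The error of the `j`-th step. -/
theorem err_le (hv : 0 < v) (hv8 : v ≤ 1 / 8) (j : ℕ) {Λ : ℝ} (hΛ : side v (j + 1) ≤ Λ) :
    rad v j / side v j + side v j / rad v (j + 1) + rad v (j + 1) / Λ ≤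
      3 * v ^ (16 * 2 ^ j) := by
  have hinv : ∀ e : ℕ, (1 / v) ^ e * v ^ e = 1 := fun e => by
    rw [← mul_pow, one_div, inv_mul_cancel₀ hv.ne', one_pow]
  have key : ∀ a b : ℕ, (1 / v) ^ a / (1 / v) ^ (a + b) = v ^ b := fun a b => by
    rw [pow_add, div_mul_eq_div_div, div_self (by positivity), one_div_pow, one_div_one_div]
  have e1 : rad v j / side v j = v ^ (16 * 2 ^ j) := by
    rw [rad, side, show 48 * 2 ^ j = 32 * 2 ^ j + 16 * 2 ^ j by ring, key]
  have e2 : side v j / rad v (j + 1) = v ^ (16 * 2 ^ j) := by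
    rw [rad, side, show 32 * 2 ^ (j + 1) = 48 * 2 ^ j + 16 * 2 ^ j by ring, key]
  have e3 : rad v (j + 1) / side v (j + 1) = v ^ (16 * 2 ^ (j + 1)) := by
    rw [rad, side, show 48 * 2 ^ (j + 1) = 32 * 2 ^ (j + 1) + 16 * 2 ^ (j + 1) by ring, key]
  have h3 : rad v (j + 1) / Λ ≤ v ^ (16 * 2 ^ j) :=
    calc rad v (j + 1) / Λ ≤ rad v (j + 1) / side v (j + 1) :=
          div_le_div_of_nonneg_left (by unfold rad; positivity) (by unfold side; positivity) hΛ
      _ = _ := e3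
      _ ≤ _ := pow_le_pow_of_le_one hv.le (by linarith)
          (Nat.mul_le_mul_left _ (Nat.pow_le_pow_right two_pos (Nat.le_succ j)))
  linarith

theorem J_nonneg {R : ℝ} (hR : 0 ≤ R) (r : ℝ) : 0 ≤ J R r := by
  unfold J; split_ifs <;> positivity

theorem J_le_one {R : ℝ} (hR : 1 ≤ R) (r : ℝ) : J R r ≤ 1 := by
  unfold J
  split_ifs
  · refine inv_le_one_of_one_le₀ ?_
    have h3 : (1 : ℝ) ≤ R ^ 3 := one_le_pow₀ hR
    nlinarith [Real.two_le_pi]
  · exact zero_le_one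

theorem summable_att (hv : 0 < v) (hv2 : v ≤ 1 / 2) (r : ℝ) :
    Summable fun i => cpl v i * J (rad v (i + 1)) r :=
  Summable.of_nonneg_of_le
    (fun i => mul_nonneg (cpl_pos hv i).le (J_nonneg (by linarith [two_le_rad hv hv2 (i + 1)]) r))
    (fun i => by
      simpa using mul_le_mul_of_nonneg_left
        (J_le_one (by linarith [two_le_rad hv hv2 (i + 1)]) r) (cpl_pos hv i).le)
    (summable_cpl hv hv2)

end params

section energies

variable {v cJ : ℝ}

theorem att_energy_Ico (hJ : ∀ R : ℝ, 1 ≤ R → Attr (J R) R cJ) (hv : 0 < v) (hv2 : v ≤ 1 / 2)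
    (m n : ℕ) {N : ℕ} (x : Fin N → R3) :
    energy (fun r => ∑ i ∈ Ico m n, cpl v i * J (rad v (i + 1)) r) x ≤
      (∑ i ∈ Ico m n, cpl v i) * (cJ * cellSq x) := by
  have : energy (fun r => ∑ i ∈ Ico m n, cpl v i * J (rad v (i + 1)) r) x =
      ∑ i ∈ Ico m n, cpl v i * energy (J (rad v (i + 1))) x := by
    simp only [energy, mul_sum]
    symm
    rw [Finset.sum_comm]
    exact sum_congr rfl fun _ _ => Finset.sum_comm
  rw [this, sum_mul]
  exact sum_le_sum fun i _ => mul_le_mul_of_nonneg_left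
    ((hJ _ (by linarith [two_le_rad hv hv2 (i + 1)])).mass N x) (cpl_pos hv i).le

theorem att_attr (hJ : ∀ R : ℝ, 1 ≤ R → Attr (J R) R cJ) (hc : 0 ≤ cJ) (hv : 0 < v)
    (hv2 : v ≤ 1 / 2) (j : ℕ) : Attr (att v j) (rad v j) ((4096 ^ 2 + 1) * cJ) := by
  refine ⟨Finset.measurable_sum _ fun i _ => (Measurable.ite
    (measurableSet_le measurable_id measurable_const) measurable_const
    measurable_const).const_mul _,
    fun r => sum_nonneg fun i _ => mul_nonneg (cpl_pos hv i).le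
      (J_nonneg (by linarith [two_le_rad hv hv2 (i + 1)]) r),
    fun r hr => sum_eq_zero fun i hi => ?_, fun N x => ?_⟩
  · have : rad v (i + 1) < r :=
      lt_of_le_of_lt (rad_le_succ hv hv2 (by simp at hi; omega)) hr
    simp [J, not_le.mpr this]
  · have h := att_energy_Ico hJ hv hv2 0 j x
    rw [← range_eq_Ico] at h
    refine h.trans ?_
    rw [mul_assoc]
    exact mul_le_mul_of_nonneg_right (sum_cpl hv hv2 j)
      (mul_nonneg hc (cellSq_nonneg x))

theorem attInf_tendsto (hv : 0 < v) (hv2 : v ≤ 1 / 2) (r : ℝ) :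
    Tendsto (fun n => att v n r) atTop (𝓝 (attInf v r)) :=
  (summable_att hv hv2 r).hasSum.tendsto_sum_nat

theorem measurable_attInf (hJ : ∀ R : ℝ, 1 ≤ R → Attr (J R) R cJ) (hc : 0 ≤ cJ) (hv : 0 < v)
    (hv2 : v ≤ 1 / 2) : Measurable (attInf v) :=
  measurable_of_tendsto_metrizable (fun n => (att_attr hJ hc hv hv2 n).meas)
    (tendsto_pi_nhds.mpr fun r => attInf_tendsto hv hv2 r)

theorem att_le_attInf (hv : 0 < v) (hv2 : v ≤ 1 / 2) (m : ℕ) (r : ℝ) : att v m r ≤ attInf v r :=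
  (summable_att hv hv2 r).sum_le_tsum _ fun i _ =>
    mul_nonneg (cpl_pos hv i).le (J_nonneg (by linarith [two_le_rad hv hv2 (i + 1)]) r)

theorem tendsto_energy {φ : ℕ → ℝ → ℝ} {ψ : ℝ → ℝ}
    (h : ∀ r, Tendsto (fun n => φ n r) atTop (𝓝 (ψ r))) {N : ℕ} (x : Fin N → R3) :
    Tendsto (fun n => energy (φ n) x) atTop (𝓝 (energy ψ x)) :=
  tendsto_finsetSum _ fun _ _ => tendsto_finsetSum _ fun _ _ => h _

theorem attInf_mass (hJ : ∀ R : ℝ, 1 ≤ R → Attr (J R) R cJ) (hc : 0 ≤ cJ) (hv : 0 < v)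
    (hv2 : v ≤ 1 / 2) : Mass (attInf v) ((4096 ^ 2 + 1) * cJ) :=
  ⟨measurable_attInf hJ hc hv hv2,
    fun r => le_trans (sum_nonneg fun i _ => mul_nonneg (cpl_pos hv i).le
      (J_nonneg (by linarith [two_le_rad hv hv2 (i + 1)]) r)) (att_le_attInf hv hv2 0 r),
    fun N x => le_of_tendsto' (tendsto_energy (attInf_tendsto hv hv2) x)
      fun n => (att_attr hJ hc hv hv2 n).mass N x⟩

/-- The rescaled tail still has bounded strength. -/
theorem tail_mass (hJ : ∀ R : ℝ, 1 ≤ R → Attr (J R) R cJ) (hc : 0 ≤ cJ) (hv : 0 < v)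
    (hv2 : v ≤ 1 / 2) {m : ℕ} (hm : 1 ≤ m) :
    Mass (fun r => att v m r + 2 ^ m * (attInf v r - att v m r)) ((4096 ^ 2 + 2) * cJ) := by
  refine ⟨(att_attr hJ hc hv hv2 m).meas.add
    (((measurable_attInf hJ hc hv hv2).sub (att_attr hJ hc hv hv2 m).meas).const_mul _),
    fun r => add_nonneg ((att_attr hJ hc hv hv2 m).nonneg r)
      (mul_nonneg (by positivity) (sub_nonneg.mpr (att_le_attInf hv hv2 m r))), fun N x => ?_⟩
  rw [energy_add, energy_const_mul, energy_sub]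
  have h1 := (att_attr hJ hc hv hv2 m).mass N x
  have h2 : energy (attInf v) x - energy (att v m) x ≤ (1 / 2 : ℝ) ^ m * (cJ * cellSq x) := by
    refine le_of_tendsto
      ((tendsto_energy (attInf_tendsto hv hv2) x).sub tendsto_const_nhds)
      (eventually_atTop.mpr ⟨m, fun n hn => ?_⟩)
    have e : energy (att v n) x - energy (att v m) x =
        energy (fun r => ∑ i ∈ Ico m n, cpl v i * J (rad v (i + 1)) r) x := by
      rw [← energy_sub]
      congr 1; funext r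
      simp only [att]
      rw [← sum_range_add_sum_Ico _ hn]; ring
    rw [e]
    exact (att_energy_Ico hJ hv hv2 m n x).trans
      (mul_le_mul_of_nonneg_right (sum_cpl_Ico hv hv2 hm n) (mul_nonneg hc (cellSq_nonneg x)))
  have h3 := mul_le_mul_of_nonneg_left h2 (show (0 : ℝ) ≤ 2 ^ m by positivity)
  have e : (2 : ℝ) ^ m * ((1 / 2 : ℝ) ^ m * (cJ * cellSq x)) = cJ * cellSq x := by
    rw [← mul_assoc, ← mul_pow]; norm_num
  linarith

end energies

theorem kink_of_close {f F : ℝ → ℝ} {ν c D η : ℝ} (hf : ConvexOn ℝ Set.univ f)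
    (hk : Kink F ν c D 0) (hη : 0 ≤ η) (h : ∀ x, |x - ν| ≤ 1 → |f x - F x| ≤ η) :
    Kink f ν c (D - 2 * η) (2 * η) := by
  intro y
  have h0 := abs_le.mp (h ν (by simp))
  rcases le_or_gt |y| 1 with hy | hy
  · have h1 := abs_le.mp (h (ν + y) (by simpa using hy))
    have := hk y
    nlinarith [mul_nonneg hη (abs_nonneg y)]
  · have hy0 : 0 < |y| := one_pos.trans hy
    set e := y / |y| with he
    have hye : |y| * e = y := by rw [he]; field_simp
    have hea : |e| = 1 := by rw [he, abs_div, abs_abs, div_self hy0.ne']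
    have h1 := abs_le.mp (h (ν + e) (by simp [hea]))
    have k := hk e
    rw [hea] at k
    set q := 1 / |y| with hq
    have hq1 : q ≤ 1 := by rw [hq, div_le_one hy0]; exact hy.le
    have hqy : q * |y| = 1 := by rw [hq]; field_simp
    have hc := hf.2 (Set.mem_univ ν) (Set.mem_univ (ν + y)) (sub_nonneg.mpr hq1)
      (show 0 ≤ q by positivity) (sub_add_cancel 1 q)
    simp only [smul_eq_mul] at hc
    rw [show (1 - q) * ν + q * (ν + y) = ν + e by rw [hq, he]; field_simp; ring] at hc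
    have hs : c * e + D - 2 * η ≤ q * (f (ν + y) - f ν) := by linarith
    have hm := mul_le_mul_of_nonneg_left hs hy0.le
    have e1 : |y| * (q * (f (ν + y) - f ν)) = f (ν + y) - f ν := by
      rw [← mul_assoc, mul_comm |y| q, hqy, one_mul]
    have e2 : |y| * (c * e + D - 2 * η) = c * y + (D - 2 * η) * |y| := by
      linear_combination c * hye
    linarith

/-- The bound `C₀` of the finite-volume pressures. -/
noncomputable def cst (K : ℝ) : ℝ := 4 * K + 1

/-- The window constant. -/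
noncomputable def beta (K : ℝ) : ℝ := Real.sqrt (2 * (cst K + 1))

/-- The a priori bound for the kink positions. -/
noncomputable def nmax (K : ℝ) : ℝ := 6 * beta K * 4097

/-- The drift rate of the kink positions. -/
noncomputable def kappa (K : ℝ) : ℝ :=
  2 * beta K + 4 * (nmax K + 2 * beta K * 4097) / Real.sqrt (K / 32)

/-- Admissible constants. -/
structure Consts (cJ A₀ K : ℝ) : Prop where
  cJ_nonneg : 0 ≤ cJ
  kernel : ∀ R : ℝ, 1 ≤ R → Attr (J R) R cJ
  A₀_nonneg : 0 ≤ A₀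
  big : (2 : ℝ) ^ 40 ≤ K
  dom : 8 * (A₀ + A₀ * cJ + 1) ≤ K
  dom' : 4 * A₀ ≤ K
  mass1 : (4096 ^ 2 + 1) * cJ ≤ A₀
  mass2 : (4096 ^ 2 + 2) * cJ ≤ A₀
  cpl_le : (4096 : ℝ) ^ 2 + 1 ≤ A₀

theorem exists_consts : ∃ cJ A₀ K, Consts cJ A₀ K := by
  obtain ⟨cJ, hcJ, hJ⟩ := kernelAttr
  set A₀ : ℝ := (cJ + 1) * (4096 ^ 2 + 2) with hA₀
  have hA₀pos : 0 ≤ A₀ := by positivity
  have h2 := mul_nonneg hA₀pos hcJ.le
  refine ⟨cJ, A₀, 2 ^ 40 * (A₀ + A₀ * cJ + 1), hcJ.le, hJ, hA₀pos, ?_, ?_, ?_, ?_, ?_, ?_⟩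
  · nlinarith
  · nlinarith
  · nlinarith
  · rw [hA₀]; nlinarith
  · rw [hA₀]; nlinarith
  · rw [hA₀]; nlinarith

section stages

variable {cJ A₀ K : ℝ}

theorem Consts.K_pos (h : Consts cJ A₀ K) : 0 < K := lt_of_lt_of_le (by norm_num) h.big

theorem Consts.cst_nonneg (h : Consts cJ A₀ K) : 0 ≤ cst K := by
  have := h.K_pos; unfold cst; positivity

theorem beta_nonneg (K : ℝ) : 0 ≤ beta K := Real.sqrt_nonneg _

theorem nmax_nonneg (K : ℝ) : 0 ≤ nmax K := by
  have := beta_nonneg K; unfold nmax; positivity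

theorem kappa_nonneg (K : ℝ) : 0 ≤ kappa K := by
  have := beta_nonneg K; have := nmax_nonneg K; unfold kappa; positivity

theorem Consts.kappa_mul (h : Consts cJ A₀ K) : kappa K * 4097 ≤ nmax K := by
  have hβ0 := beta_nonneg K
  have hN0 := nmax_nonneg K
  have hK := h.big
  have hrt : 8 * 4097 ≤ Real.sqrt (K / 32) := by
    rw [Real.le_sqrt (by norm_num) (by linarith)]; linarith
  have e : 4 * (nmax K + 2 * beta K * 4097) / Real.sqrt (K / 32) * 4097 ≤
      (nmax K + 2 * beta K * 4097) / 2 := by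
    rw [div_mul_eq_mul_div, div_le_iff₀ (by linarith)]
    nlinarith [show 0 ≤ nmax K + 2 * beta K * 4097 by positivity]
  rw [kappa, add_mul]
  unfold nmax at e ⊢
  linarith

variable {v : ℝ}

theorem Consts.cpl_small (h : Consts cJ A₀ K) (hv : 0 < v) (hv2 : v ≤ 1 / 2) (j : ℕ) :
    cpl v j ≤ A₀ ∧ 16 * cpl v j ≤ K / 32 ∧ w v j ≤ 4097 := by
  have hc : cpl v j ≤ 4096 ^ 2 + 1 :=
    le_trans (single_le_sum (fun i _ => (cpl_pos hv i).le) (self_mem_range_succ j))
      (sum_cpl hv hv2 (j + 1))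
  exact ⟨hc.trans h.cpl_le, by linarith [h.big],
    le_trans (single_le_sum (fun i _ => (w_pos hv i).le) (self_mem_range_succ j))
      (sum_w hv hv2 (j + 1))⟩

theorem Consts.attr (h : Consts cJ A₀ K) (hv : 0 < v) (hv2 : v ≤ 1 / 2) (j : ℕ) :
    Attr (att v j) (rad v j) A₀ :=
  ⟨(att_attr h.kernel h.cJ_nonneg hv hv2 j).meas, (att_attr h.kernel h.cJ_nonneg hv hv2 j).nonneg,
    (att_attr h.kernel h.cJ_nonneg hv hv2 j).range, fun N x =>
      ((att_attr h.kernel h.cJ_nonneg hv hv2 j).mass N x).trans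
        (mul_le_mul_of_nonneg_right h.mass1 (cellSq_nonneg x))⟩

theorem Consts.nice (h : Consts cJ A₀ K) (hv : 0 < v) (hv2 : v ≤ 1 / 2) (j : ℕ) {L : ℝ}
    (hL : 1 ≤ L) : Nice (K / 32) (cst K) (P (fun r => core K r - att v j r) L) :=
  nice_P (h.attr hv hv2 j).toMass h.K_pos h.dom' hL

theorem Consts.sqrts (h : Consts cJ A₀ K) (hv : 0 < v) (j : ℕ) :
    Real.sqrt (2 * cpl v j * (cst K + 1)) = beta K * w v j ∧
      Real.sqrt (cpl v j / (K / 32)) = w v j / Real.sqrt (K / 32) := by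
  have := h.cst_nonneg
  constructor
  · rw [show 2 * cpl v j * (cst K + 1) = 2 * (cst K + 1) * cpl v j by ring,
      Real.sqrt_mul (by positivity), cpl, Real.sqrt_sq (w_pos hv j).le, beta]
  · rw [cpl, Real.sqrt_div (sq_nonneg _), Real.sqrt_sq (w_pos hv j).le]

theorem Consts.grow (h : Consts cJ A₀ K) (hv : 0 < v) (hv2 : v ≤ 1 / 2) (j : ℕ) {ν ν' : ℝ}
    (hν : |ν| ≤ nmax K)
    (h' : |ν'| ≤ (|ν| + 2 * Real.sqrt (2 * cpl v j * (cst K + 1))) *
      (1 + 4 * Real.sqrt (cpl v j / (K / 32)))) : |ν'| ≤ |ν| + kappa K * w v j := by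
  rw [(h.sqrts hv j).1, (h.sqrts hv j).2] at h'
  have hw := (w_pos hv j).le
  have hβ := beta_nonneg K
  obtain ⟨-, -, hw'⟩ := h.cpl_small hv hv2 j
  have hbnd : |ν| + 2 * (beta K * w v j) ≤ nmax K + 2 * beta K * 4097 := by
    nlinarith [mul_le_mul_of_nonneg_left hw' hβ]
  have := mul_le_mul_of_nonneg_right hbnd
    (show 0 ≤ 4 * (w v j / Real.sqrt (K / 32)) by positivity)
  have e : kappa K * w v j = 2 * beta K * w v j +
      (nmax K + 2 * beta K * 4097) * (4 * (w v j / Real.sqrt (K / 32))) := by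
    rw [kappa]; ring
  rw [e]
  linarith

theorem Consts.in_window (h : Consts cJ A₀ K) (hv : 0 < v) (hv2 : v ≤ 1 / 2) {k : ℕ} {ν : ℝ}
    (hν : |ν| ≤ kappa K * ∑ i ∈ range (k + 1), w v i) : |ν| ≤ nmax K :=
  hν.trans ((mul_le_mul_of_nonneg_left (sum_w hv hv2 (k + 1)) (kappa_nonneg K)).trans h.kappa_mul)

/-- The Kac step, uniformly in the scale parameter. -/
theorem Consts.step (h : Consts cJ A₀ K) (hU : UpperStep) (hLo : LowerStep) {W₀ : ℝ}
    (hW₀ : 0 ≤ W₀) : ∃ C : ℝ, 0 ≤ C ∧ ∀ v : ℝ, 0 < v → v ≤ 1 / 8 →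
      ∀ (j : ℕ) (Λ μ : ℝ), side v (j + 1) ≤ Λ → |μ| ≤ W₀ →
        |P (fun r => core K r - att v (j + 1) r) Λ μ - stage K v j μ| ≤
          C * v ^ (16 * 2 ^ j) := by
  set W := 2 * (W₀ + beta K * 4097) with hW
  have hβ := beta_nonneg K
  have hW0 : W₀ ≤ W := by rw [hW]; nlinarith
  obtain ⟨CU, hCU⟩ := hU cJ A₀ K W h.kernel h.A₀_nonneg h.dom (hW₀.trans hW0)
  obtain ⟨CL, hCL⟩ := hLo cJ A₀ K W h.kernel h.A₀_nonneg h.dom (hW₀.trans hW0)
  refine ⟨3 * max (max CU CL) 0, by positivity, fun v hv hv8 j Λ μ hΛ hμ => ?_⟩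
  have hv2 : v ≤ 1 / 2 := by linarith
  obtain ⟨s1, s2, s3⟩ := scales hv hv8 j
  obtain ⟨hca, hcs, hw'⟩ := h.cpl_small hv hv2 j
  have hcp := cpl_pos hv j
  have hK := h.K_pos
  have hside : 1 ≤ side v j := by linarith [two_le_rad hv hv2 j]
  have hn := h.nice hv hv2 j hside
  have hφ : (fun r => core K r - att v (j + 1) r) =
      fun r => core K r - att v j r - cpl v j * J (rad v (j + 1)) r := by
    funext r; simp only [att, sum_range_succ]; ring
  rw [hφ]
  have herr := err_le hv hv8 j hΛ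
  set e := rad v j / side v j + side v j / rad v (j + 1) + rad v (j + 1) / Λ with he
  have he0 : 0 ≤ e := by
    have : 0 < rad v (j + 1) := by linarith [two_le_rad hv hv2 (j + 1)]
    have : 0 < Λ := by linarith
    have : 0 ≤ rad v j := by linarith [two_le_rad hv hv2 j]
    have : 0 < side v j := by linarith
    rw [he]; positivity
  have bound : ∀ c, c ≤ max (max CU CL) 0 →
      c * e ≤ 3 * max (max CU CL) 0 * v ^ (16 * 2 ^ j) := by
    intro c hc
    calc c * e ≤ max (max CU CL) 0 * e := mul_le_mul_of_nonneg_right hc he0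
      _ ≤ max (max CU CL) 0 * (3 * v ^ (16 * 2 ^ j)) :=
        mul_le_mul_of_nonneg_left herr (le_max_right _ _)
      _ = _ := by ring
  rw [abs_le]
  constructor
  · obtain ⟨x, hx, hxm⟩ := hn.exists_max hcp (by linarith) μ
    have hwin := hn.window hcp (by linarith) (μ := μ) (x := x) (by
      linarith [show P (fun r => core K r - att v j r) (side v j) μ ≤ _ by simpa using hxm μ,
        hn.nonneg μ])
    rw [(h.sqrts hv j).1] at hwin
    have e2 : Real.sqrt (cpl v j / (K / 32)) ≤ 1 / 4 := by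
      rw [show (1 / 4 : ℝ) = Real.sqrt (1 / 16) by
        rw [show (1 / 16 : ℝ) = (1 / 4) ^ 2 by norm_num, Real.sqrt_sq (by norm_num)]]
      exact Real.sqrt_le_sqrt (by rw [div_le_iff₀ (by positivity)]; linarith)
    have hxW : |x| ≤ W := by
      have e1 := mul_le_mul_of_nonneg_left hw' hβ
      have e3 := mul_le_mul_of_nonneg_right e2 (abs_nonneg x)
      rw [hW]
      linarith [abs_sub_abs_le_abs_sub x μ, abs_nonneg x]
    have := hCL (att v j) (rad v j) (cpl v j) (side v j) (rad v (j + 1)) Λ μ x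
      (h.attr hv hv2 j) (two_le_rad hv hv2 j) hcp hca s1 s2 (by linarith) (hμ.trans hW0) hxW
    have hb := bound CL ((le_max_right _ _).trans (le_max_left _ _))
    rw [stage, hx]
    linarith
  · obtain ⟨x, -, hx⟩ := hCU (att v j) (rad v j) (cpl v j) (side v j) (rad v (j + 1)) Λ μ
      (h.attr hv hv2 j) (two_le_rad hv hv2 j) hcp hca s1 s2 (by linarith) (hμ.trans hW0)
    have hb := bound CU ((le_max_left _ _).trans (le_max_left _ _))
    have := hn.le_T hcp (by linarith) μ x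
    rw [stage]
    linarith

theorem Consts.kink_zero (h : Consts cJ A₀ K) (hv : 0 < v) (hv8 : v ≤ 1 / 8) :
    ∃ ν c, Kink (stage K v 0) ν c (1 / 2 ^ 11 + (1 / 2) ^ 12) 0 ∧
      |ν| ≤ kappa K * ∑ i ∈ range 1, w v i := by
  have hv2 : v ≤ 1 / 2 := by linarith
  have hside : 8 ≤ side v 0 := by linarith [(scales hv hv8 0).1, two_le_rad hv hv2 0]
  obtain ⟨ρ, hρ, hlin⟩ := P_core_linear h.K_pos hside
  have hzero := P_core_zero_le h.K_pos (show 1 ≤ side v 0 by linarith)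
  have hn := h.nice hv hv2 0 (show 1 ≤ side v 0 by linarith)
  have e0 : P (fun r => core K r - att v 0 r) (side v 0) =
      P (fun r => core K r - 0) (side v 0) := by simp [att]
  have hk0 : Kink (P (fun r => core K r - att v 0 r) (side v 0)) 0 (ρ / 2) (1 / 2 ^ 10) 1 := by
    intro y
    have h1 := hn.nonneg (0 + y)
    have h2 := hlin (0 + y)
    rw [e0] at h1 ⊢
    rw [zero_add] at h1 h2 ⊢
    rcases le_total 0 y with hy | hy
    · rw [abs_of_nonneg hy]; nlinarith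
    · rw [abs_of_nonpos hy]; nlinarith
  have hc0 : cpl v 0 = 4096 ^ 2 := by simp [cpl, w]
  obtain ⟨ν, c, hk, hν⟩ := kink_T hn (cpl_pos hv 0) (h.cpl_small hv hv2 0).2.1
    (by positivity) (by rw [hc0]; norm_num) hk0
  refine ⟨ν, c, fun y => le_trans ?_ (hk y), ?_⟩
  · simp only [stage]
    have hD : (1 / 2 ^ 10 - 2 * 1 / (cpl v 0 * (1 / 2 ^ 10)) : ℝ) =
        1 / 2 ^ 11 + 3 * (1 / 2 ^ 13) := by rw [hc0]; norm_num
    rw [hD]
    norm_num
    linarith [abs_nonneg y]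
  · have := h.grow hv hv2 0 (ν := 0) (by simpa using nmax_nonneg K) hν
    simpa using this

theorem Consts.kink_succ (h : Consts cJ A₀ K) (hv : 0 < v) (hv8 : v ≤ 1 / 8) {C₁ : ℝ}
    (hC₁ : 0 ≤ C₁) (hvC : 2 ^ 32 * C₁ * v ≤ 1) {k : ℕ} {ν c : ℝ}
    (hk : Kink (stage K v k) ν c (1 / 2 ^ 11 + (1 / 2) ^ (12 + k)) 0)
    (hν : |ν| ≤ kappa K * ∑ i ∈ range (k + 1), w v i)
    (hclose : ∀ x, |x - ν| ≤ 1 →
      |P (fun r => core K r - att v (k + 1) r) (side v (k + 1)) x - stage K v k x| ≤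
        C₁ * v ^ (16 * 2 ^ k)) :
    ∃ ν' c', Kink (stage K v (k + 1)) ν' c' (1 / 2 ^ 11 + (1 / 2) ^ (12 + (k + 1))) 0 ∧
      |ν'| ≤ kappa K * ∑ i ∈ range (k + 1 + 1), w v i := by
  have hv2 : v ≤ 1 / 2 := by linarith
  have hside : 1 ≤ side v (k + 1) := by
    linarith [(scales hv hv8 k).2.2, two_le_rad hv hv2 (k + 1)]
  have hn := h.nice hv hv2 (k + 1) hside
  set η := C₁ * v ^ (16 * 2 ^ k) with hη
  have hη0 : 0 ≤ η := by positivity
  have hk' := kink_of_close hn.convex hk hη0 hclose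
  set D := 1 / 2 ^ 11 + (1 / 2 : ℝ) ^ (12 + k) - 2 * η with hD
  have hcp := cpl_pos hv (k + 1)
  have ha : cpl v (k + 1) = v ^ (4 * 2 ^ k) := by
    rw [cpl, w, if_neg (by omega), ← pow_mul]; ring_nf
  have hratio : η / cpl v (k + 1) = C₁ * v ^ (12 * 2 ^ k) := by
    rw [ha, hη, show 16 * 2 ^ k = 12 * 2 ^ k + 4 * 2 ^ k by ring, pow_add, ← mul_assoc,
      mul_div_assoc, div_self (by positivity), mul_one]
  have hsmall : η / cpl v (k + 1) ≤ (1 / 2 : ℝ) ^ (k + 32) := by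
    rw [hratio]
    have hle : v ^ (12 * 2 ^ k) ≤ v * (1 / 2 : ℝ) ^ k := by
      have := one_add_le_two_pow k
      calc v ^ (12 * 2 ^ k) ≤ v ^ (k + 1) := pow_le_pow_of_le_one hv.le (by linarith) (by omega)
        _ = v * v ^ k := by rw [pow_succ, mul_comm]
        _ ≤ v * (1 / 2 : ℝ) ^ k :=
          mul_le_mul_of_nonneg_left (v_pow_le hv hv2 le_rfl) hv.le
    calc C₁ * v ^ (12 * 2 ^ k) ≤ C₁ * (v * (1 / 2 : ℝ) ^ k) :=
          mul_le_mul_of_nonneg_left hle hC₁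
      _ = (2 ^ 32 * C₁ * v) * (1 / 2 : ℝ) ^ (k + 32) := by
          rw [pow_add]; norm_num; ring
      _ ≤ 1 * (1 / 2 : ℝ) ^ (k + 32) := mul_le_mul_of_nonneg_right hvC (by positivity)
      _ = _ := one_mul _
  have hηsmall : η ≤ (1 / 2 : ℝ) ^ (k + 32) := by
    have h1 : cpl v (k + 1) ≤ 1 :=
      (cpl_le_half hv hv2 (by omega)).trans (pow_le_one₀ (by norm_num) (by norm_num))
    exact (le_div_self hη0 hcp h1).trans hsmall
  set p := (1 / 2 : ℝ) ^ k with hp
  have hp0 : 0 ≤ p := by positivity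
  have hp1 : p ≤ 1 := pow_le_one₀ (by norm_num) (by norm_num)
  have e32 : (1 / 2 : ℝ) ^ (k + 32) = p / 2 ^ 32 := by
    rw [pow_add, ← hp, div_pow, one_pow]; ring
  have e12 : (1 / 2 : ℝ) ^ (12 + k) = p / 2 ^ 12 := by
    rw [pow_add, ← hp, div_pow, one_pow]; ring
  have e13 : (1 / 2 : ℝ) ^ (12 + (k + 1)) = p / 2 ^ 13 := by
    rw [show 12 + (k + 1) = k + 13 by omega, pow_add, ← hp, div_pow, one_pow]; ring
  rw [e32] at hsmall hηsmall
  rw [e12] at hD
  norm_num at hηsmall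
  have hDlo : 1 / 2 ^ 12 ≤ D := by rw [hD]; norm_num; linarith
  have hDpos : 0 < D := lt_of_lt_of_le (by norm_num) hDlo
  have hδ : 2 * (2 * η) / (cpl v (k + 1) * D) ≤ p / 2 ^ 18 := by
    rw [show 2 * (2 * η) / (cpl v (k + 1) * D) = η / cpl v (k + 1) * (4 / D) by
      field_simp; ring]
    refine (mul_le_mul hsmall (show 4 / D ≤ 2 ^ 14 by
      rw [div_le_iff₀ hDpos]; norm_num at hDlo ⊢; linarith) (by positivity)
      (by positivity)).trans_eq ?_
    ring
  obtain ⟨ν', c', hk'', hν'⟩ := kink_T hn hcp (h.cpl_small hv hv2 (k + 1)).2.1 hDpos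
    (lt_of_le_of_lt hδ (by norm_num at hDlo ⊢; linarith)) hk'
  refine ⟨ν', c', fun y => le_trans ?_ (hk'' y), ?_⟩
  · have hgain : 1 / 2 ^ 11 + (1 / 2 : ℝ) ^ (12 + (k + 1)) ≤
        D - 2 * (2 * η) / (cpl v (k + 1) * D) := by
      rw [e13]
      norm_num at hδ ⊢
      rw [hD] at hδ ⊢
      norm_num at hδ ⊢
      linarith
    simp only [stage]
    linarith [mul_le_mul_of_nonneg_right hgain (abs_nonneg y)]
  · rw [sum_range_succ, mul_add]
    linarith [h.grow hv hv2 (k + 1) (h.in_window hv hv2 hν) hν']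

end stages

theorem main (hU : UpperStep) (hLo : LowerStep) :
    ∃ φ : ℝ → ℝ, Measurable φ ∧ (∃ B, ∀ r, |φ r| ≤ B) ∧
      (∃ B, ∀ (N : ℕ) (x : Fin N → R3), -B * (N : ℝ) ≤ energy φ x) ∧
      (∃ C, 0 < C ∧ ∀ r, 3 ≤ r → |φ r| ≤ C * r ^ (-3 - 1 / 64 : ℝ)) ∧
      ∃ Q : ℝ → ℝ, (∀ μ, Tendsto (fun L => P φ L μ) atTop (𝓝 (Q μ))) ∧
        ∃ μ, ¬ DifferentiableAt ℝ Q μ := by
  obtain ⟨cJ, A₀, K, hc⟩ := exists_consts
  obtain ⟨C₁, hC₁, hstep₁⟩ := hc.step hU hLo (W₀ := nmax K + 1)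
    (by linarith [nmax_nonneg K])
  set v : ℝ := min (1 / 8) (1 / (2 ^ 32 * (C₁ + 1))) with hvdef
  have hv : 0 < v := lt_min (by norm_num) (by positivity)
  have hv8 : v ≤ 1 / 8 := min_le_left _ _
  have hv2 : v ≤ 1 / 2 := by linarith
  have hvC : 2 ^ 32 * C₁ * v ≤ 1 := by
    have := min_le_right (1 / 8) (1 / (2 ^ 32 * (C₁ + 1)))
    rw [← hvdef, le_div_iff₀ (by positivity)] at this
    nlinarith
  have hKpos := hc.K_pos
  have hdom := hc.dom'
  have hm1 := hc.mass1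
  have hbig := hc.big
  have hC₀0 := hc.cst_nonneg
  have hside : ∀ j, 8 ≤ side v j := fun j => by
    linarith [(scales hv hv8 j).1, two_le_rad hv hv2 j]
  have kinks : ∀ k, ∃ ν c, Kink (stage K v k) ν c (1 / 2 ^ 11 + (1 / 2) ^ (12 + k)) 0 ∧
      |ν| ≤ kappa K * ∑ i ∈ range (k + 1), w v i := by
    intro k
    induction k with
    | zero => exact hc.kink_zero hv hv8
    | succ k ih =>
      obtain ⟨ν, c, hk, hν⟩ := ih
      have hνN := hc.in_window hv hv2 hν
      exact hc.kink_succ hv hv8 hC₁ hvC hk hν fun x hx => hstep₁ v hv hv8 k _ x le_rfl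
        (by linarith [abs_sub_abs_le_abs_sub x ν])
  choose ν c hkink hνb using kinks
  have hνN : ∀ k, |ν k| ≤ nmax K := fun k => hc.in_window hv hv2 (hνb k)
  -- uniform approximation of the pressures of the limiting potential
  set φ : ℝ → ℝ := fun r => core K r - attInf v r with hφ
  have approx : ∀ W₀ : ℝ, 0 ≤ W₀ → ∃ E : ℝ, ∀ (m : ℕ) (Λ μ : ℝ), side v (m + 1) ≤ Λ →
      |μ| ≤ W₀ → |P φ Λ μ - stage K v m μ| ≤ E * (1 / 2 : ℝ) ^ m := by
    intro W₀ hW₀
    obtain ⟨C, hC, hst⟩ := hc.step hU hLo hW₀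
    refine ⟨C + (cst K + W₀ ^ 2 / (2 * (K / 32))), fun m Λ μ hΛ hμ => ?_⟩
    have hΛ1 : 1 ≤ Λ := by linarith [hside (m + 1)]
    have h1 := abs_le.mp (hst v hv hv8 m Λ μ hΛ hμ)
    have hη : C * v ^ (16 * 2 ^ m) ≤ C * (1 / 2 : ℝ) ^ m :=
      mul_le_mul_of_nonneg_left (v_pow_le hv hv2 (by
        have := one_add_le_two_pow m; omega)) hC
    have hM := attInf_mass hc.kernel hc.cJ_nonneg hv hv2
    have hMm := (att_attr hc.kernel hc.cJ_nonneg hv hv2 (m + 1)).toMass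
    have hmono : P (fun r => core K r - att v (m + 1) r) Λ μ ≤ P φ Λ μ :=
      P_mono hMm hM hKpos (by linarith) hΛ1 (fun r => att_le_attInf hv hv2 _ r) μ
    set θ := (1 / 2 : ℝ) ^ (m + 1) with hθ
    have hθ0 : 0 ≤ θ := by positivity
    have hθ1 : θ ≤ 1 := pow_le_one₀ (by norm_num) (by norm_num)
    have ht := tail_mass hc.kernel hc.cJ_nonneg hv hv2 (show 1 ≤ m + 1 by omega)
    have up1 : Mass (att v (m + 1)) A₀ := ⟨hMm.meas, hMm.nonneg, fun N x =>
      (hMm.mass N x).trans (mul_le_mul_of_nonneg_right hc.mass1 (cellSq_nonneg x))⟩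
    have up2 : Mass (fun r => att v (m + 1) r + 2 ^ (m + 1) * (attInf v r - att v (m + 1) r)) A₀ :=
      ⟨ht.meas, ht.nonneg, fun N x =>
        (ht.mass N x).trans (mul_le_mul_of_nonneg_right hc.mass2 (cellSq_nonneg x))⟩
    have hmix := P_mix up1 up2 hKpos (by linarith) hΛ1 (sub_nonneg.mpr hθ1) hθ0
      (sub_add_cancel 1 θ) μ μ
    rw [show (fun r => core K r - ((1 - θ) * att v (m + 1) r +
        θ * (att v (m + 1) r + 2 ^ (m + 1) * (attInf v r - att v (m + 1) r)))) = φ by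
      funext r
      have : θ * 2 ^ (m + 1) = 1 := by rw [hθ, ← mul_pow]; norm_num
      simp only [hφ]
      linear_combination (-(attInf v r - att v (m + 1) r)) * this,
      show (1 - θ) * μ + θ * μ = μ by ring] at hmix
    have hn1 := (nice_P up1 hKpos (by linarith) hΛ1).nonneg μ
    have hn2 := (nice_P up2 hKpos (by linarith) hΛ1).growth μ
    rw [← cst] at hn2
    have hsq : μ ^ 2 / (2 * (K / 32)) ≤ W₀ ^ 2 / (2 * (K / 32)) :=
      div_le_div_of_nonneg_right (sq_le_sq.mpr (by rwa [abs_of_nonneg hW₀])) (by positivity)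
    have h2 : P φ Λ μ ≤ P (fun r => core K r - att v (m + 1) r) Λ μ +
        θ * (cst K + W₀ ^ 2 / (2 * (K / 32))) := by
      nlinarith [mul_nonneg hθ0 hn1,
        mul_le_mul_of_nonneg_left (hn2.trans (by linarith : cst K + μ ^ 2 / (2 * (K / 32)) ≤
          cst K + W₀ ^ 2 / (2 * (K / 32)))) hθ0]
    have hθm : θ ≤ (1 / 2 : ℝ) ^ m := pow_le_pow_of_le_one (by norm_num) (by norm_num) (by omega)
    have h3 := mul_le_mul_of_nonneg_right hθm
      (show 0 ≤ cst K + W₀ ^ 2 / (2 * (K / 32)) by positivity)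
    have h4 : 0 ≤ (cst K + W₀ ^ 2 / (2 * (K / 32))) * (1 / 2 : ℝ) ^ m := by positivity
    rw [abs_le]
    constructor <;> linarith
  -- the limit
  have hlim0 : ∀ μ, ∃ q, Tendsto (fun L => P φ L μ) atTop (𝓝 q) := by
    intro μ
    obtain ⟨E, hE⟩ := approx |μ| (abs_nonneg μ)
    refine cauchy_map_iff_exists_tendsto.mp (Metric.cauchy_iff.mpr ⟨inferInstance, fun ε hε => ?_⟩)
    obtain ⟨m, hm⟩ : ∃ m : ℕ, E * (1 / 2 : ℝ) ^ m < ε / 2 := by
      have h : Tendsto (fun m : ℕ => E * (1 / 2 : ℝ) ^ m) atTop (𝓝 0) := by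
        simpa using (tendsto_pow_atTop_nhds_zero_of_lt_one (by norm_num : (0 : ℝ) ≤ 1 / 2)
          (by norm_num)).const_mul E
      exact (h.eventually (gt_mem_nhds (half_pos hε))).exists
    refine ⟨(fun L => P φ L μ) '' Set.Ici (side v (m + 1)),
      Filter.image_mem_map (Ici_mem_atTop _), ?_⟩
    rintro _ ⟨L₁, h₁, rfl⟩ _ ⟨L₂, h₂, rfl⟩
    have a1 := abs_le.mp (hE m L₁ μ h₁ le_rfl)
    have a2 := abs_le.mp (hE m L₂ μ h₂ le_rfl)
    rw [Real.dist_eq, abs_lt]
    constructor <;> linarith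
  choose Q hQ using hlim0
  have happ : ∀ W₀ : ℝ, 0 ≤ W₀ → ∃ E : ℝ, ∀ (m : ℕ) (μ : ℝ), |μ| ≤ W₀ →
      |Q μ - stage K v m μ| ≤ E * (1 / 2 : ℝ) ^ m := by
    intro W₀ hW₀
    obtain ⟨E, hE⟩ := approx W₀ hW₀
    exact ⟨E, fun m μ hμ => le_of_tendsto (((hQ μ).sub_const _).abs)
      (eventually_atTop.mpr ⟨side v (m + 1), fun L hL => hE m L μ hL hμ⟩)⟩
  have hM := attInf_mass hc.kernel hc.cJ_nonneg hv hv2
  have hQconv : ConvexOn ℝ Set.univ Q := by
    refine ⟨convex_univ, fun x _ y _ p q hp hq hpq => ?_⟩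
    refine le_of_tendsto_of_tendsto (hQ _) (((hQ x).const_smul p).add ((hQ y).const_smul q))
      (eventually_atTop.mpr ⟨1, fun L hL => ?_⟩)
    exact (nice_P hM hKpos (by linarith) hL).convex.2 trivial trivial hp hq hpq
  have hQc : Continuous Q := continuousOn_univ.mp (hQconv.continuousOn isOpen_univ)
  -- a limit point of the kinks
  set Cmax := cst K + (nmax K + 1) ^ 2 / (2 * (K / 32 / 2)) with hCmax
  have hC₀ := hc.cst_nonneg
  have hN0 := nmax_nonneg K
  have hcb : ∀ k, |c k| ≤ Cmax := by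
    intro k
    obtain ⟨hca, hcs, -⟩ := hc.cpl_small hv hv2 k
    have hn := (hc.nice hv hv2 k (show 1 ≤ side v k by linarith [hside k])).T_nice (cpl_pos hv k) (by linarith)
    refine (hn.abs_slope_le (by positivity) (hkink k) (by linarith)).trans ?_
    rw [hCmax]
    refine add_le_add le_rfl (div_le_div₀ (by positivity) ?_ (by linarith) (by linarith))
    exact pow_le_pow_left₀ (by positivity) (by linarith [hνN k]) 2
  obtain ⟨⟨ν₀, c₀⟩, -, σ, hσ, hσlim⟩ :=
    (isCompact_Icc.prod isCompact_Icc : IsCompact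
      (Set.Icc (-nmax K) (nmax K) ×ˢ Set.Icc (-Cmax) Cmax)).tendsto_subseq
      (x := fun k => (ν k, c k)) fun k => ⟨abs_le.mp (hνN k), abs_le.mp (hcb k)⟩
  have hν' : Tendsto (fun n => ν (σ n)) atTop (𝓝 ν₀) :=
    (continuous_fst.tendsto _).comp hσlim
  have hc' : Tendsto (fun n => c (σ n)) atTop (𝓝 c₀) :=
    (continuous_snd.tendsto _).comp hσlim
  have hkQ : Kink Q ν₀ c₀ (1 / 2 ^ 11) 0 := by
    intro y
    obtain ⟨E, hE⟩ := happ (nmax K + |y|) (by positivity)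
    have hE0 : Tendsto (fun n => 2 * (E * (1 / 2 : ℝ) ^ σ n)) atTop (𝓝 0) := by
      have h : Tendsto (fun m : ℕ => 2 * (E * (1 / 2 : ℝ) ^ m)) atTop (𝓝 0) := by
        simpa using ((tendsto_pow_atTop_nhds_zero_of_lt_one (by norm_num : (0 : ℝ) ≤ 1 / 2)
          (by norm_num)).const_mul E).const_mul 2
      exact h.comp hσ.tendsto_atTop
    have l1 := ((hQc.tendsto (ν₀ + y)).comp (hν'.add_const y))
    have l2 := ((((hQc.tendsto ν₀).comp hν').add (hc'.mul_const y)).add_const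
      (1 / 2 ^ 11 * |y|)).sub hE0
    refine le_of_tendsto_of_tendsto' l2 l1 fun n => ?_
    have k1 := hkink (σ n) y
    have u1 := abs_le.mp (hE (σ n) (ν (σ n)) (by linarith [hνN (σ n), abs_nonneg y]))
    have u2 := abs_le.mp (hE (σ n) (ν (σ n) + y)
      ((abs_add_le _ _).trans (by linarith [hνN (σ n)])))
    have : 0 ≤ (1 / 2 : ℝ) ^ (12 + σ n) * |y| := by positivity
    simp only [Function.comp]
    linarith
  refine ⟨φ, (measurable_core K).sub (measurable_attInf hc.kernel hc.cJ_nonneg hv hv2), ?_, ?_, ?_, Q, hQ, ν₀,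
    not_differentiableAt_of_kink (by norm_num) hkQ⟩
  · refine ⟨K + (4096 ^ 2 + 1), fun r => ?_⟩
    have hc1 : core K r ≤ K := by unfold core; split_ifs <;> linarith
    have h0 := hM.nonneg r
    have h1 : attInf v r ≤ 4096 ^ 2 + 1 := le_of_tendsto' (attInf_tendsto hv hv2 r) fun n =>
      (sum_le_sum fun i _ => by
        simpa using mul_le_mul_of_nonneg_left
          (J_le_one (by linarith [two_le_rad hv hv2 (i + 1)]) r) (cpl_pos hv i).le).trans
        (sum_cpl hv hv2 n)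
    rw [abs_le]
    constructor <;> linarith [core_nonneg hKpos.le r]
  · refine ⟨K / 2, fun N x => ?_⟩
    have := energy_ge hM hKpos.le (by linarith) x
    nlinarith [mul_nonneg hKpos.le (cellSq_nonneg x)]
  · -- decay
    refine ⟨4096 ^ 2 * (1 / v) + 1, by positivity, fun r hr => ?_⟩
    have hcore : core K r = 0 := by simp [core, show ¬ r ≤ 2 by linarith]
    simp only [hφ, hcore, zero_sub, abs_neg, abs_of_nonneg (hM.nonneg r)]
    have hr0 : 0 < r := by linarith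
    refine le_of_tendsto' (attInf_tendsto hv hv2 r) fun n => ?_
    set b : ℕ → ℝ := fun i => if i = 0 then 4096 ^ 2 * (1 / v) else w v i with hb
    have hterm : ∀ i, cpl v i * J (rad v (i + 1)) r ≤ b i * r ^ (-3 - 1 / 64 : ℝ) := by
      intro i
      have hb0 : 0 ≤ b i := by
        have := w_pos hv i
        simp only [hb]; split_ifs <;> positivity
      rcases lt_or_ge (rad v (i + 1)) r with h | h
      · simp only [J, if_neg (not_le.mpr h), mul_zero]; positivity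
      set R := rad v (i + 1) with hR
      have hR2 := two_le_rad hv hv2 (i + 1)
      have hR0 : 0 < R := by rw [hR]; linarith
      have hRr : R ^ (-3 - 1 / 64 : ℝ) ≤ r ^ (-3 - 1 / 64 : ℝ) :=
        Real.rpow_le_rpow_of_nonpos hr0 h (by norm_num)
      have hroot : R ^ (1 / 64 : ℝ) = (1 / v) ^ (2 ^ i) := by
        rw [hR, rad, show 32 * 2 ^ (i + 1) = 2 ^ i * 64 by ring, pow_mul,
          show (1 / 64 : ℝ) = ((64 : ℕ) : ℝ)⁻¹ by norm_num,
          Real.pow_rpow_inv_natCast (by positivity) (by norm_num)]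
      have hcoef : cpl v i * R ^ (1 / 64 : ℝ) = b i := by
        rw [hroot]
        rcases eq_or_ne i 0 with rfl | hi
        · simp [hb, cpl, w]
        · simp only [hb, cpl, w, if_neg hi]
          rw [sq, mul_assoc, ← mul_pow, mul_one_div_cancel hv.ne', one_pow, mul_one]
      have hJle : J R r ≤ R ^ (1 / 64 : ℝ) * R ^ (-3 - 1 / 64 : ℝ) := by
        rw [← Real.rpow_add hR0, show (1 / 64 : ℝ) + (-3 - 1 / 64) = -((3 : ℕ) : ℝ) by norm_num,
          Real.rpow_neg hR0.le, Real.rpow_natCast, J, if_pos h]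
        refine inv_anti₀ (by positivity) ?_
        nlinarith [Real.two_le_pi, pow_pos hR0 3]
      calc cpl v i * J R r ≤ cpl v i * (R ^ (1 / 64 : ℝ) * R ^ (-3 - 1 / 64 : ℝ)) :=
            mul_le_mul_of_nonneg_left hJle (cpl_pos hv i).le
        _ = b i * R ^ (-3 - 1 / 64 : ℝ) := by rw [← mul_assoc, hcoef]
        _ ≤ _ := mul_le_mul_of_nonneg_left hRr hb0
    calc att v n r ≤ (∑ i ∈ range n, b i) * r ^ (-3 - 1 / 64 : ℝ) := by
          rw [sum_mul]; exact sum_le_sum fun i _ => hterm i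
      _ ≤ _ := by
          refine mul_le_mul_of_nonneg_right ?_ (by positivity)
          rcases n with _ | n
          · simp; positivity
          · rw [range_eq_Ico, sum_eq_sum_Ico_succ_bot (Nat.succ_pos n)]
            simp only [zero_add]
            have : ∑ i ∈ Ico 1 (n + 1), b i ≤ (1 / 2 : ℝ) ^ 1 := by
              refine (sum_le_sum fun i hi => ?_).trans (sum_half_le 1 _)
              have hi1 := (mem_Ico.mp hi).1
              simp only [hb, if_neg (show i ≠ 0 by omega)]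
              exact w_le_half hv hv2 hi1
            have h0 : b 0 = 4096 ^ 2 * (1 / v) := by simp [hb]
            linarith [show ((1 : ℝ) / 2) ^ 1 ≤ 1 by norm_num]

end Vale.Agent.P171
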