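import Mathlib
import Vale.Agent.P171.Iteration

/-!
From the kink in `μ` to a phase transition in the activity.
-/

open Filter
open scoped Topology

namespace Vale.Agent.P171

/-- The answer to the phase-transition problem, given both halves of the Kac step. -/
theorem phaseTransition (hU : UpperStep) (hLo : LowerStep) :
    ∃ φ : ℝ → ℝ, Measurable φ ∧ LocallyBoundedPos φ ∧ Stable φ ∧ Tempered φ ∧
      (∃ C ε R₀ : ℝ, 0 < ε ∧ ∀ r, R₀ ≤ r → |φ r| ≤ C * r ^ (-3 - ε)) ∧
      ∃ press : ℝ → ℝ, IsPressure φ 1 press ∧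
        ∃ z, 0 < z ∧ ¬ DifferentiableAt ℝ press z := by
  obtain ⟨φ, hm, ⟨B, hB⟩, ⟨B', hB'⟩, ⟨C, hC, hdec⟩, Q, hQ, μ, hμ⟩ := main hU hLo
  refine ⟨φ, hm, fun S _ _ => ⟨B, fun r _ => hB r⟩, ⟨B', fun N x _ => hB' N x⟩,
    ⟨C, 1 / 64, 3, hC, by norm_num, by norm_num, fun r hr =>
      (le_abs_self _).trans (hdec r hr)⟩,
    ⟨C, 1 / 64, 3, by norm_num, fun r hr => hdec r hr⟩,
    fun z => Q (Real.log z), fun z hz => ?_, Real.exp μ, Real.exp_pos μ, fun hd => hμ ?_⟩
  · have h := hQ (Real.log z)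
    simp only [P, Real.exp_log hz] at h
    exact h
  · have h := hd.comp μ Real.differentiableAt_exp
    simpa [Function.comp_def, Real.log_exp] using h

end Vale.Agent.P171
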