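import Mathlib
import Vale.Agent.P171.Basic

/-!
Lower bound for a partition function by equally filled, well separated boxes.
-/

open MeasureTheory Finset
open scoped Classical

namespace Vale.Agent.P171.Low

/-- The pair energy of a configuration indexed by any finite type. -/
noncomputable def En (φ : ℝ → ℝ) {ι : Type*} [Fintype ι] (x : ι → R3) : ℝ :=
  (∑ i, ∑ j, φ (dist (x i) (x j)) - (Fintype.card ι : ℝ) * φ 0) / 2

theorem energy_eq_En (φ : ℝ → ℝ) {N : ℕ} (x : Fin N → R3) : energy φ x = En φ x := by
  set f : Fin N → Fin N → ℝ := fun i j => φ (dist (x i) (x j)) with hf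
  have hsplit : ∀ i, ∑ j, f i j = ∑ j ∈ univ.filter (fun j => i < j), f i j + φ 0 +
      ∑ j ∈ univ.filter (fun j => j < i), f i j := by
    intro i
    have hone : φ 0 = ∑ j ∈ univ.filter (fun j => j = i), f i j := by
      rw [Finset.filter_eq', if_pos (mem_univ i), sum_singleton]
      simp [hf]
    rw [hone, sum_filter, sum_filter, sum_filter, ← sum_add_distrib, ← sum_add_distrib]
    refine sum_congr rfl fun j _ => ?_
    rcases lt_trichotomy i j with h | h | h
    · simp [h, h.not_gt, h.ne']
    · subst h; simp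
    · simp [h, h.not_gt, h.ne]
  have hswap : ∑ i, ∑ j ∈ univ.filter (fun j => j < i), f i j =
      ∑ i, ∑ j ∈ univ.filter (fun j => i < j), f i j := by
    simp only [sum_filter]
    rw [sum_comm]
    exact sum_congr rfl fun i _ => sum_congr rfl fun j _ => by simp only [hf, dist_comm]
  have hsum : ∑ i, ∑ j, f i j = 2 * energy φ x + (N : ℝ) * φ 0 := by
    rw [sum_congr rfl (fun i _ => hsplit i), sum_add_distrib, sum_add_distrib, hswap]
    simp [energy, hf]
    ring
  simp only [En, Fintype.card_fin, ← hf] at *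
  rw [hsum]; ring

theorem En_reindex (φ : ℝ → ℝ) {ι κ : Type*} [Fintype ι] [Fintype κ] (e : ι ≃ κ) (x : κ → R3) :
    En φ (fun i => x (e i)) = En φ x := by
  rw [En, En, Fintype.card_congr e]
  congr 2
  refine Eq.trans (sum_congr rfl fun i _ => ?_)
    (Equiv.sum_comp e fun i => ∑ j, φ (dist (x i) (x j)))
  exact Equiv.sum_comp e fun j => φ (dist (x (e i)) (x j))

theorem piCongrLeft_at {ι κ : Type*} [Fintype ι] [Fintype κ] (e : ι ≃ κ) (y : ι → R3) (i : ι) :
    MeasurableEquiv.piCongrLeft (fun _ : κ => R3) e y (e i) = y i := by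
  simp [MeasurableEquiv.coe_piCongrLeft, Equiv.piCongrLeft_apply_apply]

theorem preimage_pi {ι κ : Type*} [Fintype ι] [Fintype κ] (e : ι ≃ κ) (S : κ → Set R3) :
    (MeasurableEquiv.piCongrLeft (fun _ : κ => R3) e) ⁻¹' Set.univ.pi S =
      Set.univ.pi (fun i => S (e i)) := by
  ext y
  simp only [Set.mem_preimage, Set.mem_univ_pi]
  exact ⟨fun h i => by simpa [piCongrLeft_at] using h (e i), fun h k => by
    obtain ⟨i, rfl⟩ := e.surjective k
    simpa [piCongrLeft_at] using h i⟩

/-- Reindexing the particles in an integral over a product set. -/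
theorem setIntegral_reindex {ι κ : Type*} [Fintype ι] [Fintype κ] (e : ι ≃ κ) (S : κ → Set R3)
    (G : (ι → R3) → ℝ) :
    ∫ x in Set.univ.pi S, G (fun i => x (e i)) = ∫ y in Set.univ.pi (fun i => S (e i)), G y := by
  have hmp := volume_measurePreserving_piCongrLeft (fun _ : κ => R3) e
  have h := hmp.setIntegral_preimage_emb (MeasurableEquiv.measurableEmbedding _)
    (fun x => G fun i => x (e i)) (Set.univ.pi S)
  rw [← h, preimage_pi e S]
  simp only [piCongrLeft_at e]

/-- Reindexing the particles keeps integrability. -/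
theorem integrableOn_reindex {ι κ : Type*} [Fintype ι] [Fintype κ] (e : ι ≃ κ) (T : Set R3)
    (G : (ι → R3) → ℝ)
    (h : IntegrableOn (fun x : κ → R3 => G fun i => x (e i)) (Set.univ.pi fun _ => T)) :
    IntegrableOn G (Set.univ.pi fun _ => T) := by
  have hmp := volume_measurePreserving_piCongrLeft (fun _ : κ => R3) e
  have h' := (hmp.integrableOn_comp_preimage (MeasurableEquiv.measurableEmbedding _)).mpr h
  rw [preimage_pi e fun _ => T] at h'
  simpa only [Function.comp_def, piCongrLeft_at e] using h'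

theorem uncurry_preserving (β κ : Type*) [Fintype β] [Fintype κ] :
    MeasurePreserving (MeasurableEquiv.curry β κ R3).symm volume volume := by
  refine ⟨(MeasurableEquiv.curry β κ R3).symm.measurable, ?_⟩
  rw [volume_pi (ι := β × κ)]
  refine (Measure.pi_eq fun s hs => ?_).symm
  rw [Measure.map_apply (MeasurableEquiv.curry β κ R3).symm.measurable (MeasurableSet.univ_pi hs)]
  have hpre : (MeasurableEquiv.curry β κ R3).symm ⁻¹' Set.univ.pi s =
      Set.univ.pi fun b => Set.univ.pi fun j => s (b, j) := by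
    ext y
    simp only [Set.mem_preimage, Set.mem_univ_pi]
    exact ⟨fun h b j => h (b, j), fun h p => h p.1 p.2⟩
  rw [hpre, volume_pi_pi]
  simp only [volume_pi_pi]
  rw [Fintype.prod_prod_type]

/-- An integral over boxes of a product of functions of the particles of each box. -/
theorem setIntegral_blocks {β κ : Type*} [Fintype β] [Fintype κ] (S : β → Set R3)
    (hS : ∀ b, MeasurableSet (S b)) (G : β → (κ → R3) → ℝ) :
    ∫ x in Set.univ.pi (fun p : β × κ => S p.1), ∏ b, G b (fun j => x (b, j)) =
      ∏ b, ∫ y in Set.univ.pi (fun _ : κ => S b), G b y := by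
  rw [← (uncurry_preserving β κ).setIntegral_preimage_emb (MeasurableEquiv.measurableEmbedding _)]
  have hpre : (MeasurableEquiv.curry β κ R3).symm ⁻¹' Set.univ.pi (fun p : β × κ => S p.1) =
      Set.univ.pi fun b => Set.univ.pi fun _ : κ => S b := by
    ext y
    simp only [Set.mem_preimage, Set.mem_univ_pi]
    exact ⟨fun h b j => h (b, j), fun h p => h p.1 p.2⟩
  rw [hpre]
  have hap : ∀ (y : β → κ → R3) b, (fun j => (MeasurableEquiv.curry β κ R3).symm y (b, j)) = y b :=
    fun y b => rfl
  simp only [hap]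
  rw [← integral_indicator (MeasurableSet.univ_pi fun b => MeasurableSet.univ_pi fun _ => hS b)]
  have hind : ∀ y : β → κ → R3,
      (Set.univ.pi fun b => Set.univ.pi fun _ : κ => S b).indicator (fun y => ∏ b, G b (y b)) y =
        ∏ b, (Set.univ.pi fun _ : κ => S b).indicator (G b) (y b) := by
    intro y
    by_cases hy : y ∈ Set.univ.pi fun b => Set.univ.pi fun _ : κ => S b
    · rw [Set.indicator_of_mem hy]
      exact prod_congr rfl fun b _ => (Set.indicator_of_mem (hy b trivial) _).symm
    · rw [Set.indicator_of_notMem hy]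
      simp only [Set.mem_univ_pi, not_forall] at hy
      obtain ⟨b, hb⟩ := hy
      refine (prod_eq_zero (mem_univ b) (Set.indicator_of_notMem ?_ _)).symm
      exact fun h => hb.elim fun j hj => hj (h j trivial)
  simp only [hind]
  rw [integral_fintype_prod_volume_eq_prod
    (fun b => (Set.univ.pi fun _ : κ => S b).indicator (G b))]
  exact prod_congr rfl fun b _ => integral_indicator (MeasurableSet.univ_pi fun _ => hS b)

/-- At most `(n!)^|β|` permutations of the particles lead to the same boxes. -/
theorem card_same_boxes_le {β : Type*} [Fintype β] (n : ℕ) (τ : Equiv.Perm (β × Fin n)) :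
    (univ.filter fun σ : Equiv.Perm (β × Fin n) => ∀ p, (σ p).1 = (τ p).1).card ≤
      n.factorial ^ Fintype.card β := by
  have hcard : Fintype.card (β → Equiv.Perm (Fin n)) = n.factorial ^ Fintype.card β := by
    rw [Fintype.card_fun, Fintype.card_perm, Fintype.card_fin]
  rw [← hcard, ← Fintype.card_coe]
  have hfst : ∀ σ : {σ // σ ∈ univ.filter fun σ : Equiv.Perm (β × Fin n) =>
      ∀ p, (σ p).1 = (τ p).1}, ∀ p, ((σ.1 (τ.symm p))).1 = p.1 := fun σ p => by
    rw [(mem_filter.mp σ.2).2, Equiv.apply_symm_apply]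
  refine Fintype.card_le_of_injective (fun σ b => Equiv.ofBijective
    (fun j => (σ.1 (τ.symm (b, j))).2) (Finite.injective_iff_bijective.mp ?_)) ?_
  · intro j j' h
    have h1 : σ.1 (τ.symm (b, j)) = σ.1 (τ.symm (b, j')) := by
      refine Prod.ext ?_ h
      rw [hfst σ, hfst σ]
    simpa using h1
  · intro σ σ' h
    refine Subtype.ext (Equiv.ext fun p => ?_)
    obtain ⟨q, rfl⟩ := τ.symm.surjective p
    refine Prod.ext ?_ ?_
    · rw [hfst σ, hfst σ']
    · exact congrArg (fun F => F q.2) (congrFun h q.1)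

/-- Restricting symmetric integrals to equally filled disjoint boxes. -/
theorem boxes_le {β : Type*} [Fintype β] (n : ℕ) (T : Set R3) (S : β → Set R3)
    (hT : MeasurableSet T) (hS : ∀ b, MeasurableSet (S b)) (hsub : ∀ b, S b ⊆ T)
    (hdisj : ∀ b c, b ≠ c → Disjoint (S b) (S c)) (G : (β × Fin n → R3) → ℝ) (hG : ∀ x, 0 ≤ G x)
    (hsym : ∀ (σ : Equiv.Perm (β × Fin n)) x, G (fun p => x (σ p)) = G x)
    (hint : IntegrableOn G (Set.univ.pi fun _ => T)) :
    ((Fintype.card β * n).factorial : ℝ) *
        (∫ x in Set.univ.pi (fun p : β × Fin n => S p.1), G x) ≤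
      (n.factorial : ℝ) ^ Fintype.card β * ∫ x in Set.univ.pi (fun _ : β × Fin n => T), G x := by
  set U : Equiv.Perm (β × Fin n) → Set (β × Fin n → R3) :=
    fun σ => Set.univ.pi fun p => S (σ p).1 with hU
  have hUm : ∀ σ, MeasurableSet (U σ) := fun σ => MeasurableSet.univ_pi fun p => hS _
  have hUsub : ∀ σ, U σ ⊆ Set.univ.pi fun _ => T := fun σ x hx p hp => hsub _ (hx p hp)
  have heach : ∀ σ, ∫ x in U σ, G x = ∫ x in Set.univ.pi (fun p : β × Fin n => S p.1), G x := by
    intro σ
    rw [hU, ← setIntegral_reindex σ (fun p => S p.1) G]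
    simp only [hsym]
  have hcardι : Fintype.card (Equiv.Perm (β × Fin n)) = (Fintype.card β * n).factorial := by
    rw [Fintype.card_perm, Fintype.card_prod, Fintype.card_fin]
  have hsum : ((Fintype.card β * n).factorial : ℝ) *
      (∫ x in Set.univ.pi (fun p : β × Fin n => S p.1), G x) = ∫ x, ∑ σ, (U σ).indicator G x := by
    rw [integral_finsetSum _ fun σ _ =>
      (integrable_indicator_iff (hUm σ)).mpr (hint.mono_set (hUsub σ))]
    simp only [integral_indicator (hUm _), heach, sum_const, card_univ, nsmul_eq_mul, hcardι]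
  rw [hsum, ← integral_const_mul, ← integral_indicator (MeasurableSet.univ_pi fun _ => hT)]
  refine integral_mono (integrable_finsetSum _ fun σ _ =>
    (integrable_indicator_iff (hUm σ)).mpr (hint.mono_set (hUsub σ)))
    ((integrable_indicator_iff (MeasurableSet.univ_pi fun _ => hT)).mpr (hint.const_mul _))
    fun x => ?_
  have hsimp : ∑ σ, (U σ).indicator G x = ((univ.filter fun σ => x ∈ U σ).card : ℝ) * G x := by
    simp only [Set.indicator_apply]
    rw [← sum_filter, sum_const, nsmul_eq_mul]
  rw [hsimp]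
  rcases (univ.filter fun σ => x ∈ U σ).eq_empty_or_nonempty with he | ⟨τ, hτ⟩
  · rw [he, card_empty, Nat.cast_zero, zero_mul]
    exact Set.indicator_nonneg (fun y _ => mul_nonneg (by positivity) (hG y)) x
  · have hτ' := (mem_filter.mp hτ).2
    rw [Set.indicator_of_mem (hUsub τ hτ')]
    refine mul_le_mul_of_nonneg_right ?_ (hG x)
    have hle : (univ.filter fun σ => x ∈ U σ).card ≤ n.factorial ^ Fintype.card β := by
      refine le_trans (card_le_card fun σ hσ => ?_) (card_same_boxes_le n τ)
      refine mem_filter.mpr ⟨mem_univ _, fun p => ?_⟩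
      by_contra hne
      exact Set.disjoint_left.mp (hdisj _ _ hne) ((mem_filter.mp hσ).2 p trivial) (hτ' p trivial)
    simpa using (Nat.cast_le (α := ℝ)).mpr hle

/-- A box of side `L` with lower corner `v`. -/
def bx (v : R3) (L : ℝ) : Set R3 := (fun y => -v + y) ⁻¹' cube L

theorem mem_bx {v y : R3} {L : ℝ} : y ∈ bx v L ↔ ∀ k, v k ≤ y k ∧ y k ≤ v k + L := by
  simp only [bx, cube, Set.mem_preimage, Set.mem_ofPred_eq, Set.mem_Icc, PiLp.add_apply,
    PiLp.neg_apply]
  exact forall_congr' fun k => ⟨fun h => ⟨by linarith [h.1], by linarith [h.2]⟩,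
    fun h => ⟨by linarith [h.1], by linarith [h.2]⟩⟩

theorem measurableSet_bx (v : R3) (L : ℝ) : MeasurableSet (bx v L) :=
  (measurableSet_cube L).preimage (measurable_const_add _)

theorem volume_bx (v : R3) (L : ℝ) : volume (bx v L) = volume (cube L) :=
  measure_preimage_add volume _ _

theorem integral_box (φ : ℝ → ℝ) (v : R3) (L : ℝ) (n : ℕ) :
    ∫ y in Set.univ.pi (fun _ : Fin n => bx v L), Real.exp (-energy φ y) =
      (n.factorial : ℝ) * Z φ 1 L n := by
  have hf : (n.factorial : ℝ) ≠ 0 := by positivity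
  have hmp := measurePreserving_add_left (volume : Measure (Fin n → R3)) (fun _ => -v)
  have h := hmp.setIntegral_preimage_emb
    (MeasurableEquiv.measurableEmbedding (MeasurableEquiv.addLeft (fun _ : Fin n => -v)))
    (fun y => Real.exp (-energy φ y)) (Set.univ.pi fun _ : Fin n => cube L)
  have hpre : (fun y : Fin n → R3 => (fun _ => -v) + y) ⁻¹' (Set.univ.pi fun _ => cube L) =
      Set.univ.pi fun _ : Fin n => bx v L := by
    ext y
    simp only [Set.mem_preimage, Set.mem_univ_pi, bx, Pi.add_apply]
  have henergy : ∀ y : Fin n → R3, energy φ ((fun _ => -v) + y) = energy φ y := fun y => by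
    simp only [energy, Pi.add_apply, dist_add_left]
  rw [hpre] at h
  simp only [henergy] at h
  rw [h, Z, ← mul_assoc, mul_one_div_cancel hf, one_mul]
  simp only [neg_one_mul]

/-- Filling disjoint boxes equally bounds the partition function from below. -/
theorem Z_ge_boxes {β : Type*} [Fintype β] (φ ψ : ℝ → ℝ) (Λ L c : ℝ) (n : ℕ) (v : β → R3)
    (hsub : ∀ b, bx (v b) L ⊆ cube Λ)
    (hdisj : ∀ b b', b ≠ b' → Disjoint (bx (v b) L) (bx (v b') L))
    (hint : IntegrableOn (fun x : Fin (Fintype.card β * n) → R3 => Real.exp (-energy ψ x))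
      (Set.univ.pi fun _ => cube Λ))
    (hE : ∀ x : β × Fin n → R3, (∀ p, x p ∈ bx (v p.1) L) →
      En ψ x ≤ (∑ b, En φ (fun j => x (b, j))) - c) :
    Real.exp c * Z φ 1 L n ^ Fintype.card β ≤ Z ψ 1 Λ (Fintype.card β * n) := by
  let e : β × Fin n ≃ Fin (Fintype.card β * n) :=
    (Equiv.prodCongr (Fintype.equivFin β) (Equiv.refl _)).trans finProdFinEquiv
  have hG : ∀ x : Fin (Fintype.card β * n) → R3,
      Real.exp (-energy ψ x) = Real.exp (-En ψ (fun p => x (e p))) := fun x => by
    rw [En_reindex ψ e x, energy_eq_En]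
  have hint' : IntegrableOn (fun y : β × Fin n → R3 => Real.exp (-En ψ y))
      (Set.univ.pi fun _ => cube Λ) := by
    refine integrableOn_reindex e (cube Λ) _ ?_
    simpa only [← hG] using hint
  have hbox := boxes_le (β := β) n (cube Λ) (fun b => bx (v b) L) (measurableSet_cube Λ)
    (fun b => measurableSet_bx _ _) hsub hdisj (fun y => Real.exp (-En ψ y))
    (fun _ => (Real.exp_pos _).le) (fun σ x => by rw [En_reindex ψ σ x]) hint'
  rw [← setIntegral_reindex e (fun _ : Fin (Fintype.card β * n) => cube Λ)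
    (fun y => Real.exp (-En ψ y))] at hbox
  simp only [← hG] at hbox
  have hsetm : MeasurableSet (Set.univ.pi fun p : β × Fin n => bx (v p.1) L) :=
    MeasurableSet.univ_pi fun _ => measurableSet_bx _ _
  have hlow : Real.exp c * ∏ _b : β, ((n.factorial : ℝ) * Z φ 1 L n) ≤
      ∫ x in Set.univ.pi (fun p : β × Fin n => bx (v p.1) L), Real.exp (-En ψ x) := by
    rw [prod_congr rfl fun b (_ : b ∈ (univ : Finset β)) => (integral_box φ (v b) L n).symm]
    rw [← setIntegral_blocks _ (fun b => measurableSet_bx _ _)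
      (fun _ y => Real.exp (-energy φ y)), ← integral_const_mul]
    refine integral_mono_of_nonneg (ae_of_all _ fun x => mul_nonneg (Real.exp_pos _).le
        (prod_nonneg fun _ _ => (Real.exp_pos _).le))
      (hint'.mono_set fun x hx p hp => hsub _ (hx p hp))
      ((ae_restrict_mem hsetm).mono fun x hx => ?_)
    change Real.exp c * _ ≤ Real.exp (-En ψ x)
    rw [← Real.exp_sum, ← Real.exp_add, Real.exp_le_exp]
    simp only [energy_eq_En, sum_neg_distrib]
    linarith [hE x fun p => hx p trivial]
  rw [prod_const, card_univ, mul_pow] at hlow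
  set m := Fintype.card β
  set N := m * n
  have h1 := mul_le_mul_of_nonneg_left hlow (show (0 : ℝ) ≤ N.factorial by positivity)
  have h2 := h1.trans hbox
  have hN : (0 : ℝ) < N.factorial := by positivity
  have hn : (0 : ℝ) < (n.factorial : ℝ) ^ m := by positivity
  have hI : (∫ x in Set.univ.pi (fun _ : Fin N => cube Λ), Real.exp (-energy ψ x)) =
      (N.factorial : ℝ) * Z ψ 1 Λ N := by
    rw [Z, ← mul_assoc, mul_one_div_cancel hN.ne', one_mul]
    simp only [neg_one_mul]
  rw [hI] at h2
  refine le_of_mul_le_mul_left ?_ (mul_pos hn hN)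
  linarith [h2]

end Vale.Agent.P171.Low
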