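import Mathlib
import Vale.Agent.P171.LowerAux

/-!
A grid of boxes separated by corridors: energy bound and count of mutually attracting boxes.
-/

open MeasureTheory Finset
open scoped Classical

namespace Vale.Agent.P171.Low

/-- Lower corner of a box of the grid with spacing `s`. -/
noncomputable def corner {n : ℕ} (s : ℝ) (b : Fin 3 → Fin n) : R3 :=
  WithLp.toLp 2 fun k => s * ((b k : ℕ) : ℝ)

/-- All points of the two boxes are within distance `R`. -/
def Near {n : ℕ} (s L R : ℝ) (b c : Fin 3 → Fin n) : Prop :=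
  ∀ u ∈ bx (corner s b) L, ∀ w ∈ bx (corner s c) L, dist u w ≤ R

theorem grid_sub {n : ℕ} {s L Λ : ℝ} (hs : 0 ≤ s) (hLs : L ≤ s) (hn : (n : ℝ) * s ≤ Λ)
    (b : Fin 3 → Fin n) : bx (corner s b) L ⊆ cube Λ := by
  intro y hy k
  have h := mem_bx.mp hy k
  simp only [corner] at h
  have h1 : ((b k : ℕ) : ℝ) + 1 ≤ n := by exact_mod_cast (b k).isLt
  constructor
  · nlinarith [h.1, Nat.cast_nonneg (α := ℝ) (b k : ℕ)]
  · nlinarith [h.2]

theorem grid_far {n : ℕ} {s L : ℝ} (hs : 0 ≤ s) {b c : Fin 3 → Fin n} (h : b ≠ c) {u w : R3}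
    (hu : u ∈ bx (corner s b) L) (hw : w ∈ bx (corner s c) L) : s - L ≤ dist u w := by
  obtain ⟨k, hk⟩ := Function.ne_iff.mp h
  have h1 := mem_bx.mp hu k
  have h2 := mem_bx.mp hw k
  simp only [corner] at h1 h2
  refine le_trans ?_ (abs_coord_sub_le u w k)
  rcases Nat.lt_or_gt_of_ne (fun e => hk (Fin.ext e)) with hl | hl
  · have : ((b k : ℕ) : ℝ) + 1 ≤ ((c k : ℕ) : ℝ) := by exact_mod_cast hl
    refine le_trans ?_ (neg_le_abs _)
    nlinarith [h1.2, h2.1]
  · have : ((c k : ℕ) : ℝ) + 1 ≤ ((b k : ℕ) : ℝ) := by exact_mod_cast hl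
    refine le_trans ?_ (le_abs_self _)
    nlinarith [h1.1, h2.2]

theorem grid_disjoint {n : ℕ} {s L : ℝ} (hs : 0 ≤ s) (hLs : L < s) (b c : Fin 3 → Fin n)
    (h : b ≠ c) : Disjoint (bx (corner s b) L) (bx (corner s c) L) := by
  refine Set.disjoint_left.mpr fun y hy hy' => ?_
  have := grid_far hs h hy hy'
  rw [dist_self] at this
  linarith

/-- The pairs of distinct boxes that attract each other completely. -/
noncomputable def nearPairs (n : ℕ) (s L R : ℝ) : Finset ((Fin 3 → Fin n) × (Fin 3 → Fin n)) :=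
  univ.filter fun p => p.1 ≠ p.2 ∧ Near s L R p.1 p.2

/-- Energy of equally filled boxes. -/
theorem En_grid_le {K a R R₀ A s L : ℝ} {g : ℝ → ℝ} (hg : Attr g R₀ A) (ha : 0 ≤ a)
    (hR : 0 < R) (hR₀ : 2 ≤ R₀) (hs : 0 ≤ s) (hgap : R₀ < s - L) (n N : ℕ)
    (x : (Fin 3 → Fin n) × Fin N → R3) (hx : ∀ p, x p ∈ bx (corner s p.1) L) :
    En (fun r => core K r - g r - a * J R r) x ≤
      (∑ b, En (fun r => core K r - g r) (fun j => x (b, j))) -
        a / 2 * (N : ℝ) ^ 2 * (4 / 3 * Real.pi * R ^ 3)⁻¹ * (nearPairs n s L R).card := by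
  set φ := fun r => core K r - g r with hφ
  set ψ := fun r => core K r - g r - a * J R r with hψ
  set jv := (4 / 3 * Real.pi * R ^ 3)⁻¹ with hjv
  have hJ0 : ∀ r, 0 ≤ J R r := fun r => by
    unfold J; split_ifs <;> [positivity; exact le_rfl]
  set D : (Fin 3 → Fin n) → (Fin 3 → Fin n) → ℝ :=
    fun b c => ∑ j : Fin N, ∑ k : Fin N, ψ (dist (x (b, j)) (x (c, k))) with hD
  have hself : ∀ b, D b b - (N : ℝ) * ψ 0 ≤ 2 * En φ (fun j => x (b, j)) := by
    intro b
    have hJsum : (N : ℝ) * J R 0 ≤ ∑ j : Fin N, ∑ k : Fin N, J R (dist (x (b, j)) (x (b, k))) := by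
      calc (N : ℝ) * J R 0 = ∑ j : Fin N, J R (dist (x (b, j)) (x (b, j))) := by simp
        _ ≤ _ := sum_le_sum fun j _ =>
            single_le_sum (f := fun k => J R (dist (x (b, j)) (x (b, k)))) (fun k _ => hJ0 _)
              (mem_univ j)
    have hDb : D b b = (∑ j : Fin N, ∑ k : Fin N, φ (dist (x (b, j)) (x (b, k)))) -
        a * ∑ j : Fin N, ∑ k : Fin N, J R (dist (x (b, j)) (x (b, k))) := by
      simp only [hD, hψ, hφ, mul_sum, ← sum_sub_distrib]
    have hψ0 : ψ 0 = φ 0 - a * J R 0 := rfl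
    rw [En, Fintype.card_fin, hDb, hψ0]
    linarith [mul_le_mul_of_nonneg_left hJsum ha]
  have hcross : ∀ b c, b ≠ c →
      D b c ≤ if Near s L R b c then -(a * (N : ℝ) ^ 2 * jv) else 0 := by
    intro b c hbc
    have hfar : ∀ j k, R₀ < dist (x (b, j)) (x (c, k)) := fun j k =>
      lt_of_lt_of_le hgap (grid_far hs hbc (hx (b, j)) (hx (c, k)))
    have hval : ∀ j k, ψ (dist (x (b, j)) (x (c, k))) = -(a * J R (dist (x (b, j)) (x (c, k)))) :=
      fun j k => by
        simp only [hψ, hg.range _ (hfar j k), core,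
          if_neg (not_le.mpr (lt_of_le_of_lt hR₀ (hfar j k)))]
        ring
    simp only [hD, hval, sum_neg_distrib]
    split_ifs with hn
    · have hj : ∀ j k, J R (dist (x (b, j)) (x (c, k))) = jv := fun j k => by
        rw [J, if_pos (hn _ (hx (b, j)) _ (hx (c, k)))]
      simp only [hj, sum_const, card_univ, Fintype.card_fin, nsmul_eq_mul]
      exact le_of_eq (by ring)
    · exact neg_nonpos.mpr (sum_nonneg fun j _ => sum_nonneg fun k _ => mul_nonneg ha (hJ0 _))
  have hall : ∑ p : (Fin 3 → Fin n) × Fin N, ∑ q : (Fin 3 → Fin n) × Fin N,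
      ψ (dist (x p) (x q)) = ∑ b, ∑ c, D b c := by
    simp only [hD, Fintype.sum_prod_type]
    exact sum_congr rfl fun b _ => sum_comm
  have hrow : ∀ b, ∑ c, D b c - (N : ℝ) * ψ 0 ≤ 2 * En φ (fun j => x (b, j)) -
      a * (N : ℝ) ^ 2 * jv * ((univ.filter fun c => b ≠ c ∧ Near s L R b c).card : ℝ) := by
    intro b
    rw [← add_sum_erase _ _ (mem_univ b)]
    have h1 : ∑ c ∈ univ.erase b, D b c ≤
        ∑ c ∈ univ.erase b, (if Near s L R b c then -(a * (N : ℝ) ^ 2 * jv) else 0) :=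
      sum_le_sum fun c hc => hcross b c (ne_of_mem_erase hc).symm
    have h2 : (univ.erase b).filter (fun c => Near s L R b c) =
        univ.filter fun c => b ≠ c ∧ Near s L R b c := by
      ext c
      simp only [mem_filter, mem_erase, mem_univ, and_true, true_and, ne_comm]
    rw [← sum_filter, h2, sum_const, nsmul_eq_mul] at h1
    linarith [hself b]
  have hcount : ((nearPairs n s L R).card : ℝ) =
      ∑ b : Fin 3 → Fin n, ((univ.filter fun c => b ≠ c ∧ Near s L R b c).card : ℝ) := by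
    rw [nearPairs, ← Finset.sum_boole, Fintype.sum_prod_type]
    simp only [Finset.sum_boole]
  have hcard : (Fintype.card ((Fin 3 → Fin n) × Fin N) : ℝ) * ψ 0 =
      ∑ _b : Fin 3 → Fin n, (N : ℝ) * ψ 0 := by
    rw [sum_const, card_univ, nsmul_eq_mul, Fintype.card_prod, Fintype.card_fin]
    push_cast; ring
  have h := sum_le_sum (s := univ) fun b _ => hrow b
  have e2 : ∑ b, 2 * En φ (fun j => x (b, j)) = 2 * ∑ b, En φ (fun j => x (b, j)) :=
    (mul_sum _ _ _).symm
  have e3 : ∑ b : Fin 3 → Fin n, a * (N : ℝ) ^ 2 * jv *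
      ((univ.filter fun c => b ≠ c ∧ Near s L R b c).card : ℝ) =
        a * (N : ℝ) ^ 2 * jv * ((nearPairs n s L R).card : ℝ) := by
    rw [hcount, mul_sum]
  rw [sum_sub_distrib, sum_sub_distrib, ← hcard, ← hall, e2, e3] at h
  rw [En]
  linarith

/-- Lattice vectors of length at most `r` in a box. -/
noncomputable def latticeBall (q : ℕ) (r : ℝ) : Finset (Fin 3 → ℤ) :=
  (Fintype.piFinset fun _ => Finset.Icc (-(q : ℤ)) q).filter
    fun k => ‖(WithLp.toLp 2 fun i => (k i : ℝ) : R3)‖ ≤ r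

theorem latticeBall_card_ge {q : ℕ} {r : ℝ} (hr : 2 ≤ r) (hq : r ≤ q) :
    4 / 3 * Real.pi * (r - 2) ^ 3 ≤ ((latticeBall q r).card : ℝ) := by
  set pt : (Fin 3 → ℤ) → R3 := fun k => WithLp.toLp 2 fun i => (k i : ℝ) with hpt
  have hcover : Metric.closedBall (0 : R3) (r - 2) ⊆ ⋃ k ∈ latticeBall q r, bx (pt k) 1 := by
    intro y hy
    rw [mem_closedBall_zero_iff] at hy
    set k : Fin 3 → ℤ := fun i => ⌊y i⌋ with hk
    have hd : dist (pt k) y ≤ 2 := cell_mem_two fun i => by simp [hpt, hk]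
    have hn : ‖pt k‖ ≤ r := by
      have := dist_triangle (pt k) y 0
      rw [dist_zero_right, dist_zero_right] at this
      linarith
    have hmem : k ∈ latticeBall q r := by
      refine mem_filter.mpr ⟨Fintype.mem_piFinset.mpr fun i => ?_, hn⟩
      have h1 : |(k i : ℝ)| ≤ q := by
        have := PiLp.norm_apply_le (pt k) i
        simp only [hpt, Real.norm_eq_abs] at this
        linarith
      rw [Finset.mem_Icc]
      obtain ⟨h1, h2⟩ := abs_le.mp h1
      exact ⟨by exact_mod_cast h1, by exact_mod_cast h2⟩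
    refine Set.mem_iUnion₂.mpr ⟨k, hmem, mem_bx.mpr fun i => ?_⟩
    simp only [hpt, hk]
    exact ⟨Int.floor_le _, (Int.lt_floor_add_one _).le⟩
  have h1 : volume.real (Metric.closedBall (0 : R3) (r - 2)) ≤
      ∑ k ∈ latticeBall q r, volume.real (bx (pt k) 1) := by
    refine le_trans (measureReal_mono hcover ?_) (measureReal_biUnion_finset_le _ _)
    refine ((measure_biUnion_finset_le _ _).trans_lt ?_).ne
    exact ENNReal.sum_lt_top.mpr fun k _ => by rw [volume_bx]; exact volume_cube_lt_top 1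
  simp only [measureReal_def, volume_bx, sum_const, nsmul_eq_mul,
    EuclideanSpace.volume_closedBall_fin_three, ENNReal.toReal_mul, ENNReal.toReal_pow,
    ENNReal.toReal_ofReal (show 0 ≤ r - 2 by linarith),
    ENNReal.toReal_ofReal (show 0 ≤ Real.pi * 4 / 3 by positivity)] at h1
  rw [← measureReal_def, volume_cube zero_le_one] at h1
  linarith

/-- Every box has about `vol (ball R) / s^3` completely attracted boxes. -/
theorem nearPairs_card_ge {n q : ℕ} {s L R r : ℝ} (hs : 0 < s) (hLs : L ≤ s)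
    (hr : s * r + 2 * s ≤ R) :
    (n - 2 * q) ^ 3 * ((latticeBall q r).card - 1) ≤ (nearPairs n s L R).card := by
  set I : Finset (Fin n) := univ.filter fun i : Fin n => q ≤ (i : ℕ) ∧ (i : ℕ) + q < n with hI
  have hIcard : n - 2 * q ≤ I.card := by
    have : (Finset.Ico q (n - q)) ⊆ I.map Fin.valEmbedding := by
      intro j hj
      rw [Finset.mem_Ico] at hj
      exact mem_map.mpr ⟨⟨j, by omega⟩, mem_filter.mpr ⟨mem_univ _, by dsimp; omega⟩, rfl⟩
    have h := card_le_card this
    rw [Nat.card_Ico, card_map] at h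
    omega
  set f : (Fin 3 → Fin n) × (Fin 3 → ℤ) → (Fin 3 → Fin n) × (Fin 3 → Fin n) :=
    fun p => (p.1, fun i => ⟨((p.1 i : ℕ) + p.2 i).toNat % n,
      Nat.mod_lt _ (lt_of_le_of_lt (Nat.zero_le _) (p.1 i).isLt)⟩) with hf
  set S := (Fintype.piFinset fun _ : Fin 3 => I) ×ˢ (latticeBall q r).erase 0 with hS
  have key : ∀ p ∈ S, ∀ i, (((f p).2 i : ℕ) : ℤ) = (p.1 i : ℕ) + p.2 i := by
    intro p hp i
    obtain ⟨h1, h2⟩ := mem_product.mp hp
    have hb := (mem_filter.mp (Fintype.mem_piFinset.mp h1 i)).2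
    have hk := Fintype.mem_piFinset.mp (mem_filter.mp (mem_of_mem_erase h2)).1 i
    rw [Finset.mem_Icc] at hk
    simp only [hf]
    rw [Nat.mod_eq_of_lt (by omega)]
    omega
  have hmaps : ∀ p ∈ S, f p ∈ nearPairs n s L R := by
    intro p hp
    obtain ⟨h1, h2⟩ := mem_product.mp hp
    obtain ⟨hne, hk⟩ := mem_erase.mp h2
    refine mem_filter.mpr ⟨mem_univ _, fun he => hne (funext fun i => ?_), ?_⟩
    · have := key p hp i
      rw [show (f p).2 = p.1 from he.symm] at this
      simp only [Pi.zero_apply]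
      omega
    intro u hu w hw
    set z : R3 := WithLp.toLp 2 fun i => (p.2 i : ℝ) with hz
    have hcube : ∀ (b : Fin 3 → Fin n) (y : R3), y ∈ bx (corner s b) L →
        ∀ i, |y i - s * ((b i : ℕ) : ℝ) - L / 2| ≤ L / 2 := fun b y hy i => by
      have := mem_bx.mp hy i
      simp only [corner] at this
      rw [abs_le]; constructor <;> linarith
    have hcoord : ∀ i, |(u - w + s • z) i| ≤ s := fun i => by
      have hu' := abs_le.mp (hcube _ u hu i)
      have hw' := abs_le.mp (hcube _ w hw i)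
      have hc : (((f p).2 i : ℕ) : ℝ) = ((p.1 i : ℕ) : ℝ) + (p.2 i : ℝ) := by
        exact_mod_cast key p hp i
      rw [hc] at hw'
      have e : ((f p).1 i : ℕ) = (p.1 i : ℕ) := rfl
      rw [e] at hu'
      simp only [hz, PiLp.add_apply, PiLp.sub_apply, PiLp.smul_apply, smul_eq_mul]
      rw [abs_le]; constructor <;> linarith
    have hnorm : ‖u - w + s • z‖ ≤ 2 * s := by
      refine pow_le_pow_iff_left₀ (norm_nonneg _) (by positivity) two_ne_zero |>.mp ?_
      rw [EuclideanSpace.norm_sq_eq, Fin.sum_univ_three]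
      simp only [Real.norm_eq_abs, sq_abs]
      have hsq : ∀ i, (u - w + s • z) i ^ 2 ≤ s ^ 2 := fun i => by
        nlinarith [abs_le.mp (hcoord i)]
      nlinarith [hsq 0, hsq 1, hsq 2]
    have hzr : ‖s • z‖ ≤ s * r := by
      rw [norm_smul, Real.norm_eq_abs, abs_of_pos hs]
      exact mul_le_mul_of_nonneg_left (mem_filter.mp hk).2 hs.le
    have := norm_sub_le (u - w + s • z) (s • z)
    rw [add_sub_cancel_right] at this
    rw [dist_eq_norm]
    linarith
  have hinj : ∀ p ∈ S, ∀ p' ∈ S, f p = f p' → p = p' := by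
    intro p hp p' hp' h
    have h1 : p.1 = p'.1 := (Prod.ext_iff.mp h).1
    refine Prod.ext h1 (funext fun i => ?_)
    have e1 := key p hp i
    have e2 := key p' hp' i
    rw [h] at e1
    rw [h1] at e1
    omega
  have hle := card_le_card_of_injOn f hmaps hinj
  rw [hS, card_product, Fintype.card_piFinset, prod_const, card_univ, Fintype.card_fin] at hle
  refine le_trans (Nat.mul_le_mul (Nat.pow_le_pow_left hIcard 3) ?_) hle
  exact pred_card_le_card_erase

end Vale.Agent.P171.Low
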