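import Mathlib
import Vale.Agent.P171.LowerGeom

/-!
The lower half of the Kac step.
-/

open MeasureTheory Finset
open scoped Classical

namespace Vale.Agent.P171

namespace Low

theorem div_factorial_summable (y : ℝ) : Summable fun N : ℕ => y ^ N / (N.factorial : ℝ) :=
  Real.summable_pow_div_factorial y

/-- Some particle number up to a multiple of the volume carries most of a partition sum. -/
theorem exists_big_term {a : ℕ → ℝ} {V c : ℝ} (hV : 1 ≤ V) (hc : 0 ≤ c) (ha : Summable a)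
    (ha1 : 1 ≤ ∑' N, a N) (hbd : ∀ N, a N ≤ Real.exp (V * c) * (V ^ N / (N.factorial : ℝ))) :
    ∃ N : ℕ, (N : ℝ) ≤ (c + 5) * V ∧
      (∑' N, a N) ≤ 4 * ((c + 5) * V) * a N := by
  set M := ⌈(c + 4) * V⌉₊ with hM
  have hM1 : (c + 4) * V ≤ M := Nat.le_ceil _
  have hM2 : (M : ℝ) + 0 ≤ (c + 4) * V + 1 := by
    linarith [Nat.ceil_lt_add_one (show 0 ≤ (c + 4) * V by positivity)]
  obtain ⟨N₀, hN₀, hmax⟩ := exists_max_image (Finset.range (M + 1)) a
    ⟨0, mem_range.mpr (Nat.succ_pos _)⟩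
  set y := Real.exp 1 * V with hy
  set B := Real.exp (V * c) * Real.exp (-(M : ℝ)) with hB
  have hy0 : 0 ≤ y := by positivity
  have hB0 : 0 ≤ B := by positivity
  have hle : ∀ N, a N ≤ (if N ∈ Finset.range (M + 1) then a N else 0) +
      B * (y ^ N / (N.factorial : ℝ)) := by
    intro N
    split_ifs with h
    · exact le_add_of_nonneg_right (by positivity)
    · rw [zero_add]
      refine (hbd N).trans ?_
      have hMN : (M : ℝ) ≤ N := by
        rw [mem_range] at h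
        exact_mod_cast (by omega : M ≤ N)
      rw [hB, mul_assoc]
      refine mul_le_mul_of_nonneg_left ?_ (Real.exp_pos _).le
      rw [hy, mul_pow, ← Real.exp_nat_mul, mul_one, mul_div_assoc, ← mul_assoc, ← Real.exp_add]
      exact le_mul_of_one_le_left (by positivity) (Real.one_le_exp (by linarith))
  have hs1 : Summable fun N => if N ∈ Finset.range (M + 1) then a N else 0 :=
    summable_of_ne_finset_zero (s := Finset.range (M + 1)) fun N hN => if_neg hN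
  have hs2 := (div_factorial_summable y).mul_left B
  have htail : B * ∑' N : ℕ, y ^ N / (N.factorial : ℝ) ≤ 1 / 2 := by
    rw [show (∑' N : ℕ, y ^ N / (N.factorial : ℝ)) = Real.exp y by
      rw [Real.exp_eq_exp_ℝ, NormedSpace.exp_eq_tsum_div], hB, ← Real.exp_add, ← Real.exp_add]
    have he := Real.exp_one_lt_d9
    calc Real.exp (V * c + -(M : ℝ) + y) ≤ Real.exp (-1) := by
          refine Real.exp_le_exp.mpr ?_
          nlinarith
      _ ≤ 1 / 2 := by
          rw [Real.exp_neg, one_div]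
          exact inv_anti₀ (by norm_num) (by linarith [Real.exp_one_gt_d9])
  have hsum : (∑' N, a N) ≤ (M + 1 : ℝ) * a N₀ + 1 / 2 := by
    refine (ha.tsum_le_tsum hle (hs1.add hs2)).trans ?_
    rw [Summable.tsum_add hs1 hs2, tsum_mul_left,
      tsum_eq_sum (s := Finset.range (M + 1)) fun N hN => if_neg hN]
    refine add_le_add ?_ htail
    calc ∑ N ∈ Finset.range (M + 1), (if N ∈ Finset.range (M + 1) then a N else 0)
        ≤ ∑ _N ∈ Finset.range (M + 1), a N₀ :=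
          sum_le_sum fun N hN => by rw [if_pos hN]; exact hmax N hN
      _ = (M + 1 : ℝ) * a N₀ := by simp
  refine ⟨N₀, ?_, ?_⟩
  · rw [mem_range] at hN₀
    have : (N₀ : ℝ) ≤ M := by exact_mod_cast (by omega : N₀ ≤ M)
    nlinarith
  · have hpos : 0 ≤ a N₀ := by
      have : 0 < (M + 1 : ℝ) * a N₀ := by linarith
      exact (pos_of_mul_pos_right this (by positivity)).le
    calc (∑' N, a N) ≤ 2 * ((M + 1 : ℝ) * a N₀) := by linarith
      _ ≤ 4 * ((c + 5) * V) * a N₀ := by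
        rw [← mul_assoc]
        exact mul_le_mul_of_nonneg_right (by nlinarith) hpos

/-- The geometric factor of the interaction between the boxes. -/
theorem pairs_ge {n : ℕ} {s L R Λ : ℝ} (hs : 0 < s) (hLs : L ≤ s) (hsR : 6 * s ≤ R)
    (hn : Λ ≤ 2 * ((n : ℝ) * s)) (hR : R ≤ Λ) :
    (n : ℝ) ^ 3 * (1 - 24 * (R / Λ) - 13 * (s / R)) ≤
      s ^ 3 * (4 / 3 * Real.pi * R ^ 3)⁻¹ * (nearPairs n s L R).card := by
  have hR0 : 0 < R := by linarith
  have hΛ : 0 < Λ := by linarith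
  set jv := (4 / 3 * Real.pi * R ^ 3)⁻¹ with hjv
  have hj0 : 0 < jv := by rw [hjv]; positivity
  have hrhs : 0 ≤ s ^ 3 * jv * (nearPairs n s L R).card := by positivity
  rcases le_or_gt (1 - 24 * (R / Λ) - 13 * (s / R)) 0 with hneg | hpos
  · exact le_trans (mul_nonpos_of_nonneg_of_nonpos (by positivity) hneg) hrhs
  set r := R / s - 2 with hr
  set q := ⌈R / s⌉₊ with hq
  have hRs : 6 ≤ R / s := by rw [le_div_iff₀ hs]; exact hsR
  have hq1 : R / s ≤ q := Nat.le_ceil _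
  have hq2 : (q : ℝ) ≤ 2 * (R / s) := by
    linarith [Nat.ceil_lt_add_one (show 0 ≤ R / s by positivity)]
  have hsr : s * r + 2 * s = R := by rw [hr]; field_simp; ring
  have hball := latticeBall_card_ge (q := q) (r := r) (by linarith) (by linarith)
  have hnear := nearPairs_card_ge (n := n) (q := q) hs hLs hsr.le
  -- the interior boxes
  have hnq : (n : ℝ) * (1 - 8 * (R / Λ)) ≤ ((n - 2 * q : ℕ) : ℝ) := by
    have h2q : 2 * (q : ℝ) ≤ 8 * (R / Λ) * n := by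
      have e : 8 * (R / Λ) * n = 4 * (R / s) * (2 * ((n : ℝ) * s) / Λ) := by field_simp; ring
      rw [e]
      have : 1 ≤ 2 * ((n : ℝ) * s) / Λ := by rw [le_div_iff₀ hΛ]; linarith
      nlinarith [mul_le_mul_of_nonneg_left this (show 0 ≤ 4 * (R / s) by positivity)]
    rcases le_total n (2 * q) with h | h
    · rw [Nat.sub_eq_zero_of_le h, Nat.cast_zero]
      have : (n : ℝ) ≤ 2 * (q : ℝ) := by exact_mod_cast h
      nlinarith
    · rw [Nat.cast_sub h]; push_cast; nlinarith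
  -- the attracted boxes of an interior box
  have hD : 1 - 13 * (s / R) ≤ s ^ 3 * jv * (((latticeBall q r).card - 1 : ℕ) : ℝ) := by
    have hsub : (((latticeBall q r).card : ℝ) - 1) ≤ (((latticeBall q r).card - 1 : ℕ) : ℝ) := by
      rcases Nat.eq_zero_or_pos (latticeBall q r).card with h | h
      · simp [h]
      · rw [Nat.cast_sub h, Nat.cast_one]
    refine le_trans ?_ (mul_le_mul_of_nonneg_left hsub (by positivity))
    have h1 : (1 - 4 * (s / R)) ^ 3 ≤ s ^ 3 * jv * ((latticeBall q r).card : ℝ) := by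
      refine le_trans (le_of_eq ?_) (mul_le_mul_of_nonneg_left hball (by positivity))
      rw [hjv, hr]
      field_simp
      ring
    have hsR' : s / R ≤ 1 / 6 := by rw [div_le_iff₀ hR0]; linarith
    have h2 : s ^ 3 * jv ≤ s / R := by
      rw [hjv, show s ^ 3 * (4 / 3 * Real.pi * R ^ 3)⁻¹ =
        (s / R) ^ 3 * (4 / 3 * Real.pi)⁻¹ by field_simp]
      have hpi : (4 / 3 * Real.pi)⁻¹ ≤ 1 := inv_le_one_of_one_le₀ (by linarith [Real.pi_gt_three])
      calc (s / R) ^ 3 * (4 / 3 * Real.pi)⁻¹ ≤ (s / R) ^ 3 * 1 :=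
            mul_le_mul_of_nonneg_left hpi (by positivity)
        _ ≤ s / R := by
            rw [mul_one]
            exact pow_le_of_le_one (by positivity) (by linarith) three_ne_zero
    have ht : 0 ≤ s / R := by positivity
    nlinarith [mul_nonneg (sq_nonneg (s / R)) (show 0 ≤ 48 - 64 * (s / R) by linarith)]
  have hp0 : 0 ≤ 1 - 8 * (R / Λ) := by
    have : 0 ≤ s / R := by positivity
    have : 0 ≤ R / Λ := by positivity
    linarith
  have hq0 : 0 ≤ 1 - 13 * (s / R) := by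
    have : 0 ≤ R / Λ := by positivity
    linarith
  calc (n : ℝ) ^ 3 * (1 - 24 * (R / Λ) - 13 * (s / R))
      ≤ (n : ℝ) ^ 3 * ((1 - 8 * (R / Λ)) ^ 3 * (1 - 13 * (s / R))) := by
        refine mul_le_mul_of_nonneg_left ?_ (by positivity)
        have hp : 0 ≤ R / Λ := by positivity
        have ht : 0 ≤ s / R := by positivity
        have h3 : 1 - 24 * (R / Λ) ≤ (1 - 8 * (R / Λ)) ^ 3 := by
          nlinarith [mul_nonneg (sq_nonneg (R / Λ)) (show 0 ≤ 192 - 512 * (R / Λ) by linarith)]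
        have := mul_le_mul_of_nonneg_right h3 hq0
        nlinarith [mul_nonneg hp ht]
    _ = ((n : ℝ) * (1 - 8 * (R / Λ))) ^ 3 * (1 - 13 * (s / R)) := by ring
    _ ≤ ((n - 2 * q : ℕ) : ℝ) ^ 3 * (s ^ 3 * jv * (((latticeBall q r).card - 1 : ℕ) : ℝ)) :=
        mul_le_mul (pow_le_pow_left₀ (by positivity) hnq 3) hD hq0 (by positivity)
    _ = s ^ 3 * jv * (((n - 2 * q) ^ 3 * ((latticeBall q r).card - 1) : ℕ) : ℝ) := by
        push_cast; ring
    _ ≤ _ := mul_le_mul_of_nonneg_left (by exact_mod_cast hnear) (by positivity)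

/-- The pressure of the new potential from one term of the old one. -/
theorem grid_bound {K A A' a cJ R R₀ L Λ μ : ℝ} {g : ℝ → ℝ} (hg : Attr g R₀ A)
    (hJ : Attr (J R) R cJ) (hA' : A + a * cJ ≤ A') (hK : 0 < K) (hKA : 4 * A' ≤ K) (ha : 0 ≤ a)
    (hR : 0 < R) (hR₀ : 2 ≤ R₀) (hL : 0 ≤ L) (hΛ : 1 ≤ Λ) (n N : ℕ)
    (hn : (n : ℝ) * (L + 2 * R₀) ≤ Λ)
    (hpos : 0 < Z (fun r => core K r - g r) 1 L N) :
    (n : ℝ) ^ 3 * (N * μ + Real.log (Z (fun r => core K r - g r) 1 L N)) +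
        a / 2 * (N : ℝ) ^ 2 * (4 / 3 * Real.pi * R ^ 3)⁻¹ *
          (nearPairs n (L + 2 * R₀) L R).card ≤
      Λ ^ 3 * P (fun r => core K r - g r - a * J R r) Λ μ := by
  set s := L + 2 * R₀ with hs
  set φ := fun r => core K r - g r with hφ
  set ψ := fun r => core K r - g r - a * J R r with hψ
  have hM : Mass (fun r => g r + a * J R r) A' := by
    refine ⟨hg.meas.add (hJ.meas.const_mul a),
      fun r => add_nonneg (hg.nonneg r) (mul_nonneg ha (hJ.nonneg r)), fun M x => ?_⟩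
    rw [energy_add, energy_const_mul]
    nlinarith [hg.mass M x, mul_le_mul_of_nonneg_left (hJ.mass M x) ha,
      mul_le_mul_of_nonneg_right hA' (cellSq_nonneg x)]
  have hψ' : ψ = fun r => core K r - (g r + a * J R r) := by funext r; rw [hψ]; ring
  set m := Fintype.card (Fin 3 → Fin n) with hm
  have hmn : (m : ℝ) = (n : ℝ) ^ 3 := by
    rw [hm, Fintype.card_fun, Fintype.card_fin, Fintype.card_fin]; push_cast; rfl
  set c := a / 2 * (N : ℝ) ^ 2 * (4 / 3 * Real.pi * R ^ 3)⁻¹ * (nearPairs n s L R).card with hc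
  have hint : IntegrableOn (fun x : Fin (m * N) → R3 => Real.exp (-energy ψ x))
      (Set.univ.pi fun _ => cube Λ) := by
    have := integrableOn_boltzmann hM hK.le hKA Λ (m * N)
    simpa only [hψ', neg_one_mul] using this
  have hZ := Z_ge_boxes φ ψ Λ L c N (corner s) (grid_sub (by linarith) (by linarith) hn)
    (grid_disjoint (by linarith) (by linarith)) hint
    (En_grid_le hg ha hR hR₀ (by linarith) (by linarith) n N)
  have hterm : Real.exp μ ^ (m * N) * (Real.exp c * Z φ 1 L N ^ m) ≤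
      Real.exp (Λ ^ 3 * P ψ Λ μ) := by
    refine le_trans (mul_le_mul_of_nonneg_left hZ (by positivity)) ?_
    rw [hψ', ← Xi_eq_exp hM hK hKA hΛ μ]
    exact (summable_terms hM hK hKA hΛ μ).le_tsum (m * N)
      fun M _ => mul_nonneg (by positivity) (Z_nonneg _ _ _ _)
  have hlog := Real.log_le_log (by positivity) hterm
  rw [Real.log_exp, Real.log_mul (by positivity) (by positivity),
    Real.log_mul (by positivity) (by positivity), Real.log_pow, Real.log_pow, Real.log_exp,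
    Real.log_exp, Nat.cast_mul, hmn] at hlog
  linarith

/-- The boxes see almost the mean-field attraction. -/
theorem attraction_ge {n : ℕ} {L R R₀ Λ : ℝ} (hR₀ : 0 < R₀) (hL : 8 * R₀ ≤ L) (hLR : 8 * L ≤ R)
    (hRΛ : R ≤ Λ) (hn : Λ ≤ 2 * ((n : ℝ) * (L + 2 * R₀))) :
    (n : ℝ) ^ 3 * (1 - 24 * (R₀ / L + L / R + R / Λ)) ≤
      L ^ 3 * ((4 / 3 * Real.pi * R ^ 3)⁻¹ * ((nearPairs n (L + 2 * R₀) L R).card : ℝ)) := by
  have hL0 : 0 < L := by linarith
  have hR0 : 0 < R := by linarith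
  have hΛ0 : 0 < Λ := by linarith
  set s := L + 2 * R₀ with hs
  have hs0 : 0 < s := by linarith
  have hp := pairs_ge (n := n) (L := L) hs0 (by linarith) (by linarith) hn hRΛ
  have hS1 : 0 ≤ R₀ / L := by positivity
  have hS2 : 0 ≤ L / R := by positivity
  have hS3 : 0 ≤ R / Λ := by positivity
  have hsR0 : 0 ≤ s / R := by positivity
  have hsR2 : 13 * (s / R) ≤ 17 * (L / R) := by
    rw [mul_div_assoc', mul_div_assoc']
    exact div_le_div_of_nonneg_right (by linarith) hR0.le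
  rcases le_or_gt (1 - 24 * (R₀ / L + L / R + R / Λ)) 0 with hneg | hpos
  · exact le_trans (mul_nonpos_of_nonneg_of_nonpos (by positivity) hneg) (by positivity)
  have hfac : 0 ≤ 1 - 24 * (R / Λ) - 13 * (s / R) := by linarith
  have hVs : 1 - 6 * (R₀ / L) ≤ L ^ 3 / s ^ 3 := by
    rw [le_div_iff₀ (by positivity), hs]
    have e : (1 - 6 * (R₀ / L)) * (L + 2 * R₀) ^ 3 - L ^ 3 =
        -(R₀ ^ 2 * (24 * L + 64 * R₀) + 48 * R₀ ^ 4 / L) := by field_simp; ring
    have : 0 ≤ R₀ ^ 2 * (24 * L + 64 * R₀) + 48 * R₀ ^ 4 / L := by positivity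
    linarith
  have h1 : 1 - 24 * (R₀ / L + L / R + R / Λ) ≤
      L ^ 3 / s ^ 3 * (1 - 24 * (R / Λ) - 13 * (s / R)) := by
    refine le_trans ?_ (mul_le_mul_of_nonneg_right hVs hfac)
    have e : (1 - 6 * (R₀ / L)) * (1 - 24 * (R / Λ) - 13 * (s / R)) = 1 - 6 * (R₀ / L) -
        24 * (R / Λ) - 13 * (s / R) + 6 * (R₀ / L) * (24 * (R / Λ) + 13 * (s / R)) := by ring
    have : 0 ≤ 6 * (R₀ / L) * (24 * (R / Λ) + 13 * (s / R)) := by positivity
    linarith
  calc (n : ℝ) ^ 3 * (1 - 24 * (R₀ / L + L / R + R / Λ))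
      ≤ (n : ℝ) ^ 3 * (L ^ 3 / s ^ 3 * (1 - 24 * (R / Λ) - 13 * (s / R))) :=
        mul_le_mul_of_nonneg_left h1 (by positivity)
    _ = L ^ 3 / s ^ 3 * ((n : ℝ) ^ 3 * (1 - 24 * (R / Λ) - 13 * (s / R))) := by ring
    _ ≤ L ^ 3 / s ^ 3 * (s ^ 3 * (4 / 3 * Real.pi * R ^ 3)⁻¹ * (nearPairs n s L R).card) :=
        mul_le_mul_of_nonneg_left hp (by positivity)
    _ = _ := by field_simp

/-- The boxes fill almost the whole cube. -/
theorem fraction_ge {n : ℕ} {L R R₀ Λ : ℝ} (hR₀ : 0 < R₀) (hL : 8 * R₀ ≤ L) (hLR : 8 * L ≤ R)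
    (hRΛ : R ≤ Λ) (hn1 : (n : ℝ) * (L + 2 * R₀) ≤ Λ)
    (hn2 : Λ - (L + 2 * R₀) ≤ (n : ℝ) * (L + 2 * R₀)) :
    1 - 6 * (R₀ / L + L / R + R / Λ) ≤ (n : ℝ) ^ 3 * L ^ 3 / Λ ^ 3 := by
  have hL0 : 0 < L := by linarith
  have hR0 : 0 < R := by linarith
  have hΛ0 : 0 < Λ := by linarith
  set s := L + 2 * R₀ with hs
  have hs0 : 0 < s := by linarith
  have hS1 : 0 ≤ R₀ / L := by positivity
  have hS2 : 0 ≤ L / R := by positivity
  have hS3 : 0 ≤ R / Λ := by positivity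
  have h1 : s / Λ ≤ 2 * (L / R) := by
    calc s / Λ ≤ s / R := div_le_div_of_nonneg_left hs0.le hR0 hRΛ
      _ ≤ 2 * L / R := div_le_div_of_nonneg_right (by linarith) hR0.le
      _ = _ := by ring
  set u := (n : ℝ) * s / Λ with hu
  have hns : 1 - 2 * (L / R) ≤ u := by
    have h2 : (Λ - s) / Λ ≤ u := div_le_div_of_nonneg_right hn2 hΛ0.le
    rw [sub_div, div_self hΛ0.ne'] at h2
    linarith
  have h8 : L / R ≤ 1 / 8 := by rw [div_le_iff₀ hR0]; linarith
  have h9 : 1 - 6 * (L / R) ≤ u ^ 3 := by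
    refine le_trans ?_ (pow_le_pow_left₀ (by linarith) hns 3)
    nlinarith [mul_nonneg (sq_nonneg (L / R)) (show 0 ≤ 12 - 8 * (L / R) by linarith)]
  have hle : u ^ 3 ≤ 1 := pow_le_one₀ (by positivity) ((div_le_one hΛ0).mpr hn1)
  have hVs : 1 - 6 * (R₀ / L) ≤ L ^ 3 / s ^ 3 := by
    rw [le_div_iff₀ (by positivity), hs]
    have e : (1 - 6 * (R₀ / L)) * (L + 2 * R₀) ^ 3 - L ^ 3 =
        -(R₀ ^ 2 * (24 * L + 64 * R₀) + 48 * R₀ ^ 4 / L) := by field_simp; ring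
    have : 0 ≤ R₀ ^ 2 * (24 * L + 64 * R₀) + 48 * R₀ ^ 4 / L := by positivity
    linarith
  have e : (n : ℝ) ^ 3 * L ^ 3 / Λ ^ 3 = L ^ 3 / s ^ 3 * u ^ 3 := by rw [hu]; field_simp
  rw [e]
  have h3 := mul_le_mul_of_nonneg_right hVs (show 0 ≤ u ^ 3 by positivity)
  have h4 := mul_le_mul_of_nonneg_left hle hS1
  linarith

/-- Collecting the bounds for one box. -/
theorem main_algebra {a A₀ C ρ Q V G S δ x μ N Zl n3 E : ℝ} (ha : 0 ≤ a) (haA : a ≤ A₀)
    (hA₀ : 0 ≤ A₀) (hρ0 : 0 ≤ ρ) (hρC : ρ ≤ C) (hC : 0 ≤ C) (hδ : δ ≤ S) (hS : 0 ≤ S)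
    (hn3 : 0 ≤ n3) (hV : 0 ≤ V) (hN : N = ρ * V) (hlog : V * (Q - 4 * C * δ) - N * x ≤ Zl)
    (hsq : -E ≤ a / 2 * ρ ^ 2 - (x - μ) * ρ) (hG : n3 * (1 - 24 * S) ≤ V * G) :
    n3 * V * (Q - E - (12 * A₀ * C ^ 2 + 4 * C) * S) ≤
      n3 * (N * μ + Zl) + a / 2 * N ^ 2 * G := by
  subst hN
  have h2 : a / 2 * ρ ^ 2 * V * (n3 * (1 - 24 * S)) ≤ a / 2 * ρ ^ 2 * V * (V * G) :=
    mul_le_mul_of_nonneg_left hG (by positivity)
  have h4 : a * ρ ^ 2 ≤ A₀ * C ^ 2 :=
    mul_le_mul haA (pow_le_pow_left₀ hρ0 hρC 2) (by positivity) hA₀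
  have h5 := mul_le_mul_of_nonneg_right h4 hS
  have h6 := mul_le_mul_of_nonneg_left hδ hC
  have h3 : Q - E - (12 * A₀ * C ^ 2 + 4 * C) * S ≤
      Q - 4 * C * δ - (x - μ) * ρ + a / 2 * ρ ^ 2 * (1 - 24 * S) := by linarith
  have h7 := mul_le_mul_of_nonneg_left h3 (mul_nonneg hn3 hV)
  have h8 := mul_le_mul_of_nonneg_left hlog hn3
  linarith

/-- A particle number carrying the pressure of one box. -/
theorem good_number {K A L R₀ c x : ℝ} {g : ℝ → ℝ} (hM : Mass g A) (hK : 0 < K)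
    (hKA : 4 * A ≤ K) (hL : 1 ≤ L) (hR₀ : 2 ≤ R₀) (hc : 0 ≤ c)
    (hx : 4 * K + 16 * x ^ 2 / K ≤ c) :
    ∃ N : ℕ, (N : ℝ) ≤ (c + 5) * L ^ 3 ∧ 0 < Z (fun r => core K r - g r) 1 L N ∧
      L ^ 3 * (P (fun r => core K r - g r) L x - 4 * (c + 5) * (R₀ / L)) - (N : ℝ) * x ≤
        Real.log (Z (fun r => core K r - g r) 1 L N) := by
  obtain ⟨N, hN, hbig⟩ := exists_big_term (one_le_pow₀ hL) hc (summable_terms hM hK hKA hL x)
    (one_le_Xi hM hK hKA hL x) (fun N => (term_le hM hK hKA hL x N).trans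
      (mul_le_mul_of_nonneg_right (Real.exp_le_exp.mpr
        (mul_le_mul_of_nonneg_left hx (by positivity))) (by positivity)))
  rw [show (∑' N : ℕ, Real.exp x ^ N * Z (fun r => core K r - g r) 1 L N) = _ from
    Xi_eq_exp hM hK hKA hL x] at hbig
  have hterm : 0 < Real.exp x ^ N * Z (fun r => core K r - g r) 1 L N :=
    pos_of_mul_pos_right (lt_of_lt_of_le (Real.exp_pos _) hbig) (by positivity)
  have hZpos : 0 < Z (fun r => core K r - g r) 1 L N := pos_of_mul_pos_right hterm (by positivity)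
  refine ⟨N, hN, hZpos, ?_⟩
  have hlog := Real.log_le_log (Real.exp_pos _) hbig
  have hy : 0 < 4 * ((c + 5) * L ^ 3) := by positivity
  rw [Real.log_exp, Real.log_mul hy.ne' hterm.ne', Real.log_mul (by positivity) hZpos.ne',
    Real.log_pow, Real.log_exp] at hlog
  have h1 : Real.log (4 * ((c + 5) * L ^ 3)) ≤ 2 * Real.sqrt (4 * ((c + 5) * L ^ 3)) := by
    have h := Real.log_le_sub_one_of_pos (Real.sqrt_pos.mpr hy)
    rw [Real.log_sqrt hy.le] at h
    linarith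
  have h2 : Real.sqrt (4 * ((c + 5) * L ^ 3)) ≤ 4 * (c + 5) * (L * L) := by
    refine Real.sqrt_le_iff.mpr ⟨by positivity, ?_⟩
    have e : (4 * (c + 5) * (L * L)) ^ 2 - 4 * ((c + 5) * L ^ 3) =
        4 * (c + 5) * L ^ 3 * (4 * (c + 5) * L - 1) := by ring
    have : 0 ≤ 4 * (c + 5) * L ^ 3 * (4 * (c + 5) * L - 1) :=
      mul_nonneg (by positivity) (by nlinarith)
    linarith
  have h3 : L ^ 3 * (4 * (c + 5) * (R₀ / L)) = 4 * (c + 5) * (L * L) * R₀ := by field_simp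
  have h4 := mul_le_mul_of_nonneg_left hR₀ (show 0 ≤ 4 * (c + 5) * (L * L) by positivity)
  linarith

/-- The new pressure is nonnegative. -/
theorem P_new_nonneg {K A cJ a R R₀ Λ : ℝ} {g : ℝ → ℝ} (hg : Attr g R₀ A) (hJ : Attr (J R) R cJ)
    (ha : 0 ≤ a) (haA : a ≤ A) (hcJ : 0 ≤ cJ) (hK : 0 < K) (hKA : 4 * (A + A * cJ) ≤ K)
    (hΛ : 1 ≤ Λ) (μ : ℝ) : 0 ≤ P (fun r => core K r - g r - a * J R r) Λ μ := by
  have hM : Mass (fun r => g r + a * J R r) (A + A * cJ) := by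
    refine ⟨hg.meas.add (hJ.meas.const_mul a),
      fun r => add_nonneg (hg.nonneg r) (mul_nonneg ha (hJ.nonneg r)), fun M y => ?_⟩
    rw [energy_add, energy_const_mul]
    nlinarith [hg.mass M y, mul_le_mul_of_nonneg_left (hJ.mass M y) ha,
      mul_le_mul_of_nonneg_right (mul_le_mul_of_nonneg_right haA hcJ) (cellSq_nonneg y)]
  have h := (nice_P hM hK hKA hΛ).nonneg μ
  simpa only [sub_sub] using h

/-- Passing from the grid to the cube. -/
theorem final_algebra {D S X Cn Pn T : ℝ} (hD : 1 - 6 * S ≤ D) (hS : 0 ≤ S)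
    (hCn : 0 ≤ Cn) (hP : 0 ≤ Pn) (hT : T = X - 6 * Cn * S) (hXC : X ≤ Cn) (hDX : D * X ≤ Pn) :
    T ≤ Pn := by
  subst hT
  rcases le_or_gt X 0 with hX0 | hX0
  · nlinarith [mul_nonneg hCn hS]
  · nlinarith [mul_le_mul_of_nonneg_right hD hX0.le, mul_le_mul_of_nonneg_left hXC hS]

end Low

open Low in
theorem lowerStep : LowerStep := by
  intro cJ A₀ K W hJ hA₀ hK hW
  have hcJ : 0 ≤ cJ := by
    have h := (hJ 1 le_rfl).mass 1 fun _ => 0
    have e1 : energy (J 1) (fun _ : Fin 1 => (0 : R3)) = 0 := by simp [energy]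
    have e2 : cellSq (fun _ : Fin 1 => (0 : R3)) = 1 := by simp [cellSq]
    rw [e1, e2, mul_one] at h
    exact h
  set c₀ := 4 * K + 16 * W ^ 2 / K with hc₀
  set C₂ := c₀ + 5 with hC₂
  set Cn := 4 * K + 1 + 16 * W ^ 2 / K with hCn
  have hK0 : 0 < K := by nlinarith [mul_nonneg hA₀ hcJ]
  have hc₀0 : 0 ≤ c₀ := by positivity
  have hCn0 : 0 ≤ Cn := by positivity
  refine ⟨12 * A₀ * C₂ ^ 2 + 4 * C₂ + 6 * Cn, ?_⟩
  intro g R₀ a L R Λ μ x hg hR₀ ha haA hL hLR hRΛ hμ hx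
  set S := R₀ / L + L / R + R / Λ with hS
  have hL0 : 0 < L := by linarith
  have hR0 : 0 < R := by linarith
  have hΛ0 : 0 < Λ := by linarith
  have hS1 : 0 ≤ R₀ / L := by positivity
  have hS2 : 0 ≤ L / R := by positivity
  have hS3 : 0 ≤ R / Λ := by positivity
  have hS0 : 0 ≤ S := by linarith
  set s := L + 2 * R₀ with hs
  set n := ⌊Λ / s⌋₊ with hn
  have hs0 : 0 < s := by linarith
  have hn1 : (n : ℝ) * s ≤ Λ := (le_div_iff₀ hs0).mp (Nat.floor_le (by positivity))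
  have hn2 : Λ - s ≤ (n : ℝ) * s := by
    have := (div_lt_iff₀ hs0).mp (Nat.lt_floor_add_one (Λ / s))
    linarith
  have hn0 : (0 : ℝ) < n := by nlinarith
  set φ := fun r => core K r - g r with hφ
  have hM := hg.toMass
  have hKA : 4 * A₀ ≤ K := by nlinarith [mul_nonneg hA₀ hcJ]
  have hL1 : 1 ≤ L := by linarith
  set V := L ^ 3 with hV
  have hV1 : 1 ≤ V := one_le_pow₀ hL1
  set Q := P φ L x with hQ
  have hxW : x ^ 2 ≤ W ^ 2 := by nlinarith [abs_le.mp hx]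
  have hQle : Q ≤ Cn := by
    refine ((nice_P hM hK0 hKA hL1).growth x).trans ?_
    rw [hCn, show x ^ 2 / (2 * (K / 32)) = 16 * x ^ 2 / K by ring]
    gcongr
  obtain ⟨N, hN, hZpos, hlog⟩ := good_number hM hK0 hKA hL1 hR₀ hc₀0 (x := x)
    (show 4 * K + 16 * x ^ 2 / K ≤ c₀ by rw [hc₀]; gcongr)
  rw [← hV, ← hQ, ← hC₂] at hlog
  have hC₂5 : 5 ≤ C₂ := by linarith
  have hgrid := grid_bound (A' := A₀ + A₀ * cJ) (μ := μ) hg (hJ R (by linarith))
    (by nlinarith [mul_le_mul_of_nonneg_right haA hcJ]) hK0 (by linarith) ha.le hR0 hR₀ hL0.le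
    (by linarith) n N hn1 hZpos
  set ρ := (N : ℝ) / V with hρ
  set G := (4 / 3 * Real.pi * R ^ 3)⁻¹ * ((nearPairs n s L R).card : ℝ) with hG
  have hNρ : (N : ℝ) = ρ * V := by rw [hρ]; field_simp
  have hρ0 : 0 ≤ ρ := by rw [hρ]; positivity
  have hρC : ρ ≤ C₂ := by rw [hρ, div_le_iff₀ (by positivity)]; linarith
  have hG' : (n : ℝ) ^ 3 * (1 - 24 * S) ≤ V * G :=
    attraction_ge (by linarith) hL hLR hRΛ (by linarith)
  set X := Q - (x - μ) ^ 2 / (2 * a) - (12 * A₀ * C₂ ^ 2 + 4 * C₂) * S with hX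
  have hsquare : -((x - μ) ^ 2 / (2 * a)) ≤ a / 2 * ρ ^ 2 - (x - μ) * ρ := by
    have e : a / 2 * ρ ^ 2 - (x - μ) * ρ + (x - μ) ^ 2 / (2 * a) =
        (a * ρ - (x - μ)) ^ 2 / (2 * a) := by field_simp; ring
    have : 0 ≤ (a * ρ - (x - μ)) ^ 2 / (2 * a) := by positivity
    linarith
  have hmain : (n : ℝ) ^ 3 * V * X ≤ Λ ^ 3 * P (fun r => core K r - g r - a * J R r) Λ μ := by
    refine le_trans ?_ hgrid
    rw [show a / 2 * (N : ℝ) ^ 2 * (4 / 3 * Real.pi * R ^ 3)⁻¹ *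
      ((nearPairs n s L R).card : ℝ) = a / 2 * (N : ℝ) ^ 2 * G by rw [hG]; ring]
    exact main_algebra (δ := R₀ / L) ha.le haA hA₀ hρ0 hρC (le_trans (by norm_num) hC₂5)
      (by linarith) hS0 (by positivity) (by linarith) hNρ hlog hsquare hG'
  -- passing from the grid to the whole cube
  set D := (n : ℝ) ^ 3 * V / Λ ^ 3 with hD
  have hDge : 1 - 6 * S ≤ D :=
    fraction_ge (by linarith) hL hLR hRΛ hn1 hn2
  have hPM : 0 ≤ P (fun r => core K r - g r - a * J R r) Λ μ :=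
    P_new_nonneg hg (hJ R (by linarith)) ha.le haA hcJ hK0 (by linarith) (by linarith) μ
  exact final_algebra (X := X) hDge hS0 hCn0 hPM (by rw [hX]; ring) (by
    have : 0 ≤ (x - μ) ^ 2 / (2 * a) := by positivity
    have : 0 ≤ (12 * A₀ * C₂ ^ 2 + 4 * C₂) * S := by positivity
    linarith) (by
    rw [hD, div_mul_eq_mul_div, div_le_iff₀ (by positivity)]
    linarith)

end Vale.Agent.P171
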