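import Mathlib
import Vale.Agent.P171.Defs
import Vale.Agent.P171.Basic
import Vale.Agent.P171.Blocks

/-!
Upper half of the Kac step: the pressure of `core K - g - a J_R` is at most a mean-field functional
of the pressure of `core K - g` in a block of side `L`, for `R₀ ≪ L ≪ R ≤ Λ`.
-/

open MeasureTheory Finset Filter
open scoped Classical

namespace Vale.Agent.P171

open Blocks

namespace Up

/-! ### Elementary pair bounds -/

/-- Close pairs are at most `D` times the pairs in common classes. -/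
theorem pairs_le {γ : Type*} {N : ℕ} (c : Fin N → γ) (near : γ → γ → Prop)
    (hsym : ∀ u v, near u v → near v u) {D : ℝ}
    (hdeg : ∀ u, (((univ.image c).filter fun v => near u v).card : ℝ) ≤ D) :
    ∑ i, ∑ j, (if near (c i) (c j) then (1 : ℝ) else 0) ≤
      D * ∑ i, ∑ j, (if c i = c j then (1 : ℝ) else 0) := by
  set n : γ → ℝ := fun v => ((univ.filter fun i => c i = v).card : ℝ) with hn
  have hpos : ∀ i, 0 < n (c i) := fun i => by
    simp only [hn]; exact_mod_cast card_pos.mpr ⟨i, by simp⟩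
  have hn' : ∀ i, n (c i) = ∑ j, (if c i = c j then (1 : ℝ) else 0) := fun i => by
    simp only [hn, sum_boole, eq_comm]
  have hinv : ∀ i, ∑ j, (if near (c i) (c j) then (n (c j))⁻¹ else 0) =
      (((univ.image c).filter fun v => near (c i) v).card : ℝ) := by
    intro i
    rw [← sum_fiberwise_of_maps_to (g := c) (t := univ.image c)
      (fun j _ => mem_image_of_mem c (mem_univ j)), card_filter, Nat.cast_sum]
    refine sum_congr rfl fun v hv => ?_
    rw [sum_congr rfl (g := fun _ => if near (c i) v then (n v)⁻¹ else 0)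
      (fun j hj => by rw [(mem_filter.mp hj).2]), sum_const, nsmul_eq_mul]
    obtain ⟨j, -, rfl⟩ := mem_image.mp hv
    split_ifs with h
    · rw [Nat.cast_one]; exact mul_inv_cancel₀ (hpos j).ne'
    · simp
  have hpt : ∀ i j, (2 : ℝ) * (if near (c i) (c j) then (1 : ℝ) else 0) ≤
      n (c i) * (if near (c i) (c j) then (n (c j))⁻¹ else 0) +
      n (c j) * (if near (c j) (c i) then (n (c i))⁻¹ else 0) := by
    intro i j
    by_cases h : near (c i) (c j)
    · rw [if_pos h, if_pos h, if_pos (hsym _ _ h), mul_one, ← div_eq_mul_inv, ← div_eq_mul_inv,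
        div_add_div _ _ (hpos j).ne' (hpos i).ne', le_div_iff₀ (mul_pos (hpos j) (hpos i))]
      nlinarith [sq_nonneg (n (c i) - n (c j))]
    · rw [if_neg h, if_neg h, if_neg (fun h' => h (hsym _ _ h'))]
      simp
  have hsum := sum_le_sum fun i (_ : i ∈ univ) => sum_le_sum fun j (_ : j ∈ univ) => hpt i j
  simp only [sum_add_distrib, ← mul_sum] at hsum
  rw [sum_comm (f := fun i j => n (c j) * (if near (c j) (c i) then (n (c i))⁻¹ else 0))] at hsum
  simp only [← mul_sum, hinv] at hsum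
  calc ∑ i, ∑ j, (if near (c i) (c j) then (1 : ℝ) else 0)
      ≤ ∑ i, n (c i) * (((univ.image c).filter fun v => near (c i) v).card : ℝ) := by linarith
    _ ≤ ∑ i, n (c i) * D :=
        sum_le_sum fun i _ => mul_le_mul_of_nonneg_left (hdeg _) (hpos i).le
    _ = _ := by rw [← sum_mul, mul_comm, sum_congr rfl fun i _ => hn' i]

theorem two_energy_le {φ : ℝ → ℝ} (hφ : ∀ r, 0 ≤ φ r) {N : ℕ} (x : Fin N → R3) :
    2 * energy φ x ≤ ∑ i, ∑ j, φ (dist (x i) (x j)) := by
  have h2 : ∑ i, ∑ j ∈ univ.filter (fun j => j < i), φ (dist (x i) (x j)) = energy φ x := by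
    simp only [energy, sum_filter]
    rw [sum_comm]
    simp only [dist_comm]
  have h3 : ∀ i, ∑ j ∈ univ.filter (fun j => i < j), φ (dist (x i) (x j)) +
      ∑ j ∈ univ.filter (fun j => j < i), φ (dist (x i) (x j)) ≤ ∑ j, φ (dist (x i) (x j)) := by
    intro i
    rw [← sum_union (disjoint_filter.mpr fun j _ h h' => lt_asymm h h')]
    exact sum_le_sum_of_subset_of_nonneg (subset_univ _) fun j _ _ => hφ _
  have h4 := sum_le_sum fun i (_ : i ∈ univ) => h3 i
  rw [sum_add_distrib, h2] at h4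
  simp only [energy] at h4 ⊢
  linarith

/-! ### The grid -/

theorem volume_block {s L : ℝ} (hL : 0 < L) (b : Fin 3 → ℤ) :
    volume (block s L b) = ENNReal.ofReal (L ^ 3) := by
  have e : block s L b = WithLp.ofLp ⁻¹' (Set.univ.pi fun k : Fin 3 =>
      Set.Ico (s + (b k : ℝ) * L) (s + ((b k : ℝ) + 1) * L)) := by
    ext y
    simp only [Set.mem_preimage, Set.mem_univ_pi, Set.mem_Ico]
    refine ⟨fun hy k => block_bounds hL hy k, fun hy => funext fun k => ?_⟩
    show ⌊(y k - s) / L⌋ = b k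
    rw [Int.floor_eq_iff, le_div_iff₀ hL, div_lt_iff₀ hL]
    obtain ⟨h1, h2⟩ := hy k
    constructor <;> linarith
  rw [e, (PiLp.volume_preserving_ofLp (Fin 3)).measure_preimage
    (MeasurableSet.univ_pi fun _ => measurableSet_Ico).nullMeasurableSet, volume_pi_pi,
    ENNReal.ofReal_pow hL.le]
  simp only [Real.volume_Ico]
  simp [show ∀ k : Fin 3, s + ((b k : ℝ) + 1) * L - (s + (b k : ℝ) * L) = L from fun k => by ring]

theorem dist_corner_le {s L : ℝ} (hL : 0 < L) {b : Fin 3 → ℤ} {y : R3} (hy : y ∈ block s L b) :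
    dist y (corner s L b) ≤ 2 * L := by
  have hk : ∀ k : Fin 3, (y k - corner s L b k) ^ 2 ≤ L ^ 2 := fun k => by
    obtain ⟨h1, h2⟩ := block_bounds hL hy k
    simp only [corner]
    exact pow_le_pow_left₀ (by linarith) (by linarith) 2
  have h3 : dist y (corner s L b) ^ 2 ≤ (2 * L) ^ 2 := by
    rw [EuclideanSpace.dist_sq_eq]
    simp only [Fin.sum_univ_three, Real.dist_eq, sq_abs]
    nlinarith [hk 0, hk 1, hk 2, sq_nonneg L]
  exact pow_le_pow_iff_left₀ dist_nonneg (by linarith) two_ne_zero |>.mp h3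

/-- Few blocks are within reach of a given one. -/
theorem card_near {s L R : ℝ} (hL : 0 < L) (hR : 0 < R) (u : Fin 3 → ℤ)
    (S : Finset (Fin 3 → ℤ)) (hS : ∀ v ∈ S, dist (corner s L u) (corner s L v) ≤ R + 4 * L) :
    (S.card : ℝ) * L ^ 3 ≤ 4 / 3 * Real.pi * (R + 6 * L) ^ 3 := by
  have hsub : (⋃ v ∈ S, block s L v) ⊆ Metric.closedBall (corner s L u) (R + 6 * L) := by
    intro y hy
    obtain ⟨v, hv, hyv⟩ := Set.mem_iUnion₂.mp hy
    rw [Metric.mem_closedBall]
    calc dist y (corner s L u) ≤ dist y (corner s L v) + dist (corner s L v) (corner s L u) :=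
          dist_triangle _ _ _
      _ ≤ 2 * L + (R + 4 * L) :=
          add_le_add (dist_corner_le hL hyv) (by rw [dist_comm]; exact hS v hv)
      _ = _ := by ring
  have h := measure_mono (μ := volume) hsub
  rw [measure_biUnion_finset (fun a _ b _ hab => Set.disjoint_left.mpr fun y ha hb =>
      hab (ha.symm.trans hb)) (fun v _ => measurableSet_block s L v)] at h
  simp only [volume_block hL, sum_const, nsmul_eq_mul] at h
  rw [EuclideanSpace.volume_closedBall_fin_three, ← ENNReal.ofReal_natCast,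
    ← ENNReal.ofReal_mul (Nat.cast_nonneg _), ← ENNReal.ofReal_pow (by linarith),
    ← ENNReal.ofReal_mul (by positivity), ENNReal.ofReal_le_ofReal_iff (by positivity)] at h
  calc (S.card : ℝ) * L ^ 3 ≤ (R + 6 * L) ^ 3 * (Real.pi * 4 / 3) := h
    _ = _ := by ring

/-- The attraction `J R` against the squares of the block occupations. -/
theorem energy_J_le {s L R : ℝ} (hL : 0 < L) (hR : 0 < R) {N : ℕ} (x : Fin N → R3) :
    2 * energy (J R) x ≤ (1 + 6 * L / R) ^ 3 / L ^ 3 *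
      ∑ i, ∑ j, (if blockOf s L (x i) = blockOf s L (x j) then (1 : ℝ) else 0) := by
  have hvol : 0 < 4 / 3 * Real.pi * R ^ 3 := by positivity
  have hJ : ∀ r, 0 ≤ J R r := fun r => by
    unfold J; split_ifs <;> [exact (inv_pos.mpr hvol).le; exact le_rfl]
  refine (two_energy_le hJ x).trans ?_
  set c : Fin N → (Fin 3 → ℤ) := fun i => blockOf s L (x i) with hc
  set near : (Fin 3 → ℤ) → (Fin 3 → ℤ) → Prop :=
    fun u v => dist (corner s L u) (corner s L v) ≤ R + 4 * L
  have h1 : ∑ i, ∑ j, J R (dist (x i) (x j)) ≤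
      (4 / 3 * Real.pi * R ^ 3)⁻¹ * ∑ i, ∑ j, (if near (c i) (c j) then (1 : ℝ) else 0) := by
    rw [mul_sum]
    refine sum_le_sum fun i _ => ?_
    rw [mul_sum]
    refine sum_le_sum fun j _ => ?_
    by_cases hd : dist (x i) (x j) ≤ R
    · have hn : near (c i) (c j) := by
        show dist _ _ ≤ _
        calc dist (corner s L (c i)) (corner s L (c j))
            ≤ dist (corner s L (c i)) (x i) + dist (x i) (x j) + dist (x j) (corner s L (c j)) :=
              dist_triangle4 _ _ _ _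
          _ ≤ 2 * L + R + 2 * L := by
              refine add_le_add (add_le_add ?_ hd) (dist_corner_le hL rfl)
              rw [dist_comm]; exact dist_corner_le hL rfl
          _ = R + 4 * L := by ring
      rw [J, if_pos hd, if_pos hn, mul_one]
    · rw [J, if_neg hd]
      exact mul_nonneg (inv_pos.mpr hvol).le (by split_ifs <;> norm_num)
  have h2 := pairs_le c near (fun u v h => by simpa [near, dist_comm] using h)
    (D := 4 / 3 * Real.pi * (R + 6 * L) ^ 3 / L ^ 3) fun u => by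
      rw [le_div_iff₀ (by positivity)]
      exact card_near hL hR u _ fun v hv => (mem_filter.mp hv).2
  refine h1.trans ((mul_le_mul_of_nonneg_left h2 (inv_pos.mpr hvol).le).trans (le_of_eq ?_))
  rw [← mul_assoc]
  congr 1
  · field_simp
  · simp only [hc]

theorem card_bad_coord {L : ℝ} (hL : 0 < L) {m : ℕ} (hm : 0 < m) {u v : ℝ} (huv : u ≤ v) :
    (((range m).filter fun i : ℕ =>
      ⌊(u - i * L / m) / L⌋ ≠ ⌊(v - i * L / m) / L⌋).card : ℝ) ≤ (v - u) * m / L + 1 := by
  have hm' : (0 : ℝ) < m := by exact_mod_cast hm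
  set f : ℕ → ℤ := fun i => (i : ℤ) + (m : ℤ) * ⌊(v - i * L / m) / L⌋ with hf
  have hinj : Set.InjOn f (range m : Finset ℕ) := by
    intro i hi j hj h
    rw [coe_range, Set.mem_Iio] at hi hj
    have h' := congrArg (fun t : ℤ => t % (m : ℤ)) h
    simp only [hf, Int.add_mul_emod_self_left] at h'
    rw [Int.emod_eq_of_lt (by omega) (by omega), Int.emod_eq_of_lt (by omega) (by omega)] at h'
    exact_mod_cast h'
  have hsub : ((range m).filter fun i : ℕ =>
      ⌊(u - i * L / m) / L⌋ ≠ ⌊(v - i * L / m) / L⌋).image f ⊆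
      Finset.Ioc ⌊u * m / L⌋ ⌊v * m / L⌋ := by
    intro t ht
    obtain ⟨i, hi, rfl⟩ := mem_image.mp ht
    have hne := (mem_filter.mp hi).2
    set j := ⌊(v - i * L / m) / L⌋ with hj
    have hle : ⌊(u - i * L / m) / L⌋ ≤ j := Int.floor_le_floor (by gcongr)
    have hlt : (u - i * L / m) / L < (j : ℝ) := Int.floor_lt.mp (lt_of_le_of_ne hle hne)
    have hle' : (j : ℝ) ≤ (v - i * L / m) / L := Int.floor_le _
    have e1 : (u - i * L / m) / L * m = u * m / L - i := by field_simp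
    have e2 : (v - i * L / m) / L * m = v * m / L - i := by field_simp
    have h1 := mul_lt_mul_of_pos_right hlt hm'
    have h2 := mul_le_mul_of_nonneg_right hle' hm'.le
    rw [e1] at h1
    rw [e2] at h2
    refine mem_Ioc.mpr ⟨Int.floor_lt.mpr ?_, Int.le_floor.mpr ?_⟩
    · simp only [hf]; push_cast; rw [← hj]; linarith
    · simp only [hf]; push_cast; rw [← hj]; linarith
  have hc := card_le_card hsub
  rw [card_image_of_injOn (hinj.mono (coe_subset.mpr (filter_subset _ _))), Int.card_Ioc] at hc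
  refine (Nat.cast_le.mpr hc).trans ?_
  have hmono : ⌊u * m / L⌋ ≤ ⌊v * m / L⌋ := Int.floor_le_floor (by gcongr)
  have e : (((⌊v * m / L⌋ - ⌊u * m / L⌋).toNat : ℕ) : ℝ) =
      (⌊v * m / L⌋ : ℝ) - (⌊u * m / L⌋ : ℝ) := by
    rw [← Int.cast_sub, ← Int.cast_natCast, Int.toNat_of_nonneg (by omega)]
  rw [e]
  have h1 := Int.floor_le (v * m / L)
  have h2 := Int.lt_floor_add_one (u * m / L)
  have e' : (v - u) * m / L = v * m / L - u * m / L := by ring
  linarith

/-- A close pair is rarely separated by the shifted grids. -/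
theorem sum_same_ge {L R₀ : ℝ} (hL : 0 < L) (hR₀ : 0 < R₀) (hL' : 2 * R₀ ≤ L) {u v : R3}
    (huv : dist u v ≤ R₀) :
    let m := ⌊L / R₀⌋₊
    (m : ℝ) * (1 - 9 * R₀ / L) ≤ ∑ i ∈ range m,
      (if blockOf (i * L / m) L u = blockOf (i * L / m) L v then (1 : ℝ) else 0) := by
  intro m
  have hm : 0 < m := Nat.floor_pos.mpr (by rw [le_div_iff₀ hR₀]; linarith)
  have hk : ∀ k : Fin 3, (((range m).filter fun i : ℕ =>
      ⌊(u k - i * L / m) / L⌋ ≠ ⌊(v k - i * L / m) / L⌋).card : ℝ) ≤ R₀ * m / L + 1 := by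
    intro k
    have hd := (abs_coord_sub_le u v k).trans huv
    rcases le_total (u k) (v k) with h | h
    · refine (card_bad_coord hL hm h).trans ?_
      gcongr
      linarith [(abs_le.mp hd).1]
    · have h' := card_bad_coord hL hm h
      simp only [ne_comm] at h' ⊢
      refine h'.trans ?_
      gcongr
      linarith [(abs_le.mp hd).2]
  set bad := (range m).filter fun i : ℕ => blockOf (i * L / m) L u ≠ blockOf (i * L / m) L v
  have hsub : bad ⊆ (univ : Finset (Fin 3)).biUnion fun k => (range m).filter fun i : ℕ =>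
      ⌊(u k - i * L / m) / L⌋ ≠ ⌊(v k - i * L / m) / L⌋ := by
    intro i hi
    obtain ⟨hir, hne⟩ := mem_filter.mp hi
    obtain ⟨k, hk⟩ := Function.ne_iff.mp hne
    exact mem_biUnion.mpr ⟨k, mem_univ k, mem_filter.mpr ⟨hir, hk⟩⟩
  have hbad : (bad.card : ℝ) ≤ 3 * (R₀ * m / L + 1) := by
    refine (Nat.cast_le.mpr ((card_le_card hsub).trans card_biUnion_le)).trans ?_
    push_cast
    refine (sum_le_sum fun k _ => hk k).trans (le_of_eq ?_)
    simp; ring
  have hsplit : ∑ i ∈ range m,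
      (if blockOf (i * L / m) L u = blockOf (i * L / m) L v then (1 : ℝ) else 0) =
      (m : ℝ) - bad.card := by
    rw [eq_sub_iff_add_eq, sum_boole, ← Nat.cast_add, Nat.cast_inj]
    exact (card_filter_add_card_filter_not _).trans (card_range m)
  rw [hsplit]
  have hmge : L / R₀ / 2 ≤ m := by
    have : L / R₀ < m + 1 := Nat.lt_floor_add_one _
    have h2 : 2 ≤ L / R₀ := by rw [le_div_iff₀ hR₀]; linarith
    linarith
  rw [div_div, div_le_iff₀ (by positivity)] at hmge
  have : (1 : ℝ) ≤ 2 * R₀ * m / L := by rw [le_div_iff₀ hL]; linarith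
  have e : (m : ℝ) * (1 - 9 * R₀ / L) = m - 9 * (R₀ * m / L) := by ring
  have e2 : 2 * R₀ * (m : ℝ) / L = 2 * (R₀ * m / L) := by ring
  linarith

/-! ### The shifted weights -/

/-- The exponent of the weight for the grid shifted by `s`. -/
noncomputable def expo (φ : ℝ → ℝ) (α s L : ℝ) {N : ℕ} (x : Fin N → R3) : ℝ :=
  (-∑ i, ∑ j ∈ univ.filter (fun j => i < j),
    if blockOf s L (x i) = blockOf s L (x j) then φ (dist (x i) (x j)) else 0) +
  α / (2 * L ^ 3) * ∑ i, ∑ j, (if blockOf s L (x i) = blockOf s L (x j) then (1 : ℝ) else 0)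

theorem measurable_expo {φ : ℝ → ℝ} (hφ : Measurable φ) (α s L : ℝ) (N : ℕ) :
    Measurable fun x : Fin N → R3 => expo φ α s L x := by
  have hset : ∀ i j : Fin N,
      MeasurableSet {x : Fin N → R3 | blockOf s L (x i) = blockOf s L (x j)} := fun i j =>
    measurableSet_eq_fun ((measurable_blockOf s L).comp (measurable_pi_apply i))
      ((measurable_blockOf s L).comp (measurable_pi_apply j))
  unfold expo
  refine (Finset.measurable_sum _ fun i _ => Finset.measurable_sum _ fun j _ => ?_).neg.add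
    ((Finset.measurable_sum _ fun i _ => Finset.measurable_sum _ fun j _ => ?_).const_mul _)
  · exact Measurable.ite (hset i j)
      (hφ.comp ((measurable_pi_apply i).dist (measurable_pi_apply j))) measurable_const
  · exact Measurable.ite (hset i j) measurable_const measurable_const

theorem cnt_sq {β : Type*} [Fintype β] {N : ℕ} (σ : Fin N → β) :
    ∑ b, (cnt σ b : ℝ) ^ 2 = ∑ i, ∑ j, (if σ i = σ j then (1 : ℝ) else 0) := by
  rw [← sum_fiberwise (univ : Finset (Fin N)) σ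
    (fun i => ∑ j, (if σ i = σ j then (1 : ℝ) else 0))]
  refine sum_congr rfl fun b _ => ?_
  rw [sum_congr rfl (g := fun _ => (cnt σ b : ℝ)), sum_const, nsmul_eq_mul, pow_two]
  · rfl
  · intro i hi
    rw [(mem_filter.mp hi).2, sum_boole, cnt, fibre]
    simp only [eq_comm]

/-- The weight of one block with `n` particles. -/
noncomputable def blockWt (φ : ℝ → ℝ) (α L : ℝ) (n : ℕ) (y : Fin n → R3) : ℝ :=
  Real.exp (α * (n : ℝ) ^ 2 / (2 * L ^ 3) - energy φ y)

theorem exp_expo_box (φ : ℝ → ℝ) (α s L : ℝ) {N : ℕ} {B : Finset (Fin 3 → ℤ)} (σ : Fin N → B)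
    {x : Fin N → R3} (hx : x ∈ Set.univ.pi fun i => block s L (σ i : Fin 3 → ℤ)) :
    Real.exp (expo φ α s L x) = ∏ b, blockWt φ α L (cnt σ b) (sub σ b x) := by
  have hb : ∀ i, blockOf s L (x i) = (σ i : Fin 3 → ℤ) := fun i => hx i (Set.mem_univ i)
  unfold blockWt
  rw [← Real.exp_sum, expo, sum_sub_distrib, energy_blocks]
  congr 1
  simp only [hb, Subtype.coe_inj]
  have e : ∑ b, α * (cnt σ b : ℝ) ^ 2 / (2 * L ^ 3) =
      α / (2 * L ^ 3) * ∑ b, (cnt σ b : ℝ) ^ 2 := by
    rw [mul_sum]; exact sum_congr rfl fun b _ => by ring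
  rw [e, cnt_sq σ, neg_add_eq_sub]
  congr!

/-- The attraction of a shifted grid. -/
theorem neg_energy_le {K A θ a L R R₀ : ℝ} {g : ℝ → ℝ} (hg : Attr g R₀ A) (hK : 0 ≤ K)
    (ha : 0 ≤ a) (hθ : θ = 9 * R₀ / L) (hθ1 : θ < 1) (hL : 0 < L) (hR : 0 < R) (hR₀ : 0 < R₀)
    (hL' : 2 * R₀ ≤ L) {N : ℕ} (x : Fin N → R3) :
    -energy (fun r => core K r - g r - a * J R r) x ≤
      ∑ i ∈ range ⌊L / R₀⌋₊, (1 / (⌊L / R₀⌋₊ : ℝ)) *
        expo (fun r => core K r - g r / (1 - θ)) (a * (1 + 6 * L / R) ^ 3)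
          ((i : ℕ) * L / ⌊L / R₀⌋₊) L x := by
  set m := ⌊L / R₀⌋₊ with hm
  have hm0 : (0 : ℝ) < m := by
    exact_mod_cast Nat.floor_pos.mpr (by rw [le_div_iff₀ hR₀]; linarith : 1 ≤ L / R₀)
  have hθ' : 0 < 1 - θ := by linarith
  have hsum1 : ∑ _i ∈ range m, (1 / (m : ℝ)) = 1 := by
    rw [sum_const, card_range, nsmul_eq_mul, mul_one_div, div_self hm0.ne']
  -- the pair part
  have hpair : ∀ p q : Fin N,
      -(core K (dist (x p) (x q)) - g (dist (x p) (x q))) ≤
        ∑ i ∈ range m, (1 / (m : ℝ)) *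
          (-(if blockOf ((i : ℕ) * L / m) L (x p) = blockOf ((i : ℕ) * L / m) L (x q) then
            core K (dist (x p) (x q)) - g (dist (x p) (x q)) / (1 - θ) else 0)) := by
    intro p q
    set r := dist (x p) (x q)
    set S := ∑ i ∈ range m,
      (if blockOf ((i : ℕ) * L / m) L (x p) = blockOf ((i : ℕ) * L / m) L (x q) then (1 : ℝ)
        else 0) with hS
    have hrw : ∀ i ∈ range m, (1 / (m : ℝ)) *
          (-(if blockOf ((i : ℕ) * L / m) L (x p) = blockOf ((i : ℕ) * L / m) L (x q) then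
            core K r - g r / (1 - θ) else 0)) = (g r / (1 - θ) - core K r) / m *
        (if blockOf ((i : ℕ) * L / m) L (x p) = blockOf ((i : ℕ) * L / m) L (x q) then (1 : ℝ)
          else 0) := by
      intro i _; split_ifs <;> ring
    rw [sum_congr rfl hrw, ← mul_sum, ← hS]
    have hS0 : 0 ≤ S := sum_nonneg fun i _ => by split_ifs <;> norm_num
    have hSm : S ≤ m := by
      calc S ≤ ∑ _i ∈ range m, (1 : ℝ) := sum_le_sum fun i _ => by split_ifs <;> norm_num
        _ = m := by simp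
    have e : (g r / (1 - θ) - core K r) / m * S =
        g r * (S / ((m : ℝ) * (1 - θ))) - core K r * (S / m) := by
      field_simp
    rw [e]
    have h1 : core K r * (S / m) ≤ core K r :=
      mul_le_of_le_one_right (core_nonneg hK r) ((div_le_one hm0).mpr hSm)
    have h2 : g r ≤ g r * (S / ((m : ℝ) * (1 - θ))) := by
      rcases le_or_gt r R₀ with hr | hr
      · refine le_mul_of_one_le_right (hg.nonneg r) ?_
        rw [one_le_div (by positivity), hθ]
        exact sum_same_ge hL hR₀ hL' hr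
      · simp [hg.range r hr]
    linarith
  -- assemble
  have hJ : ∀ i : ℕ, a * energy (J R) x ≤
      a * (1 + 6 * L / R) ^ 3 / (2 * L ^ 3) * ∑ p, ∑ q,
        (if blockOf ((i : ℕ) * L / m) L (x p) = blockOf ((i : ℕ) * L / m) L (x q) then (1 : ℝ)
          else 0) := by
    intro i
    have := mul_le_mul_of_nonneg_left (energy_J_le (s := (i : ℕ) * L / m) hL hR x) ha
    have e : ∀ t : ℝ, a * (1 + 6 * L / R) ^ 3 / (2 * L ^ 3) * t =
        a * ((1 + 6 * L / R) ^ 3 / L ^ 3 * t) / 2 := fun t => by ring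
    rw [e]
    linarith
  have hsplit : -energy (fun r => core K r - g r - a * J R r) x =
      ∑ p, ∑ q ∈ univ.filter (fun q => p < q),
        -(core K (dist (x p) (x q)) - g (dist (x p) (x q))) + a * energy (J R) x := by
    rw [energy_sub (fun r => core K r - g r) (fun r => a * J R r), energy_const_mul]
    simp only [energy, sum_neg_distrib]
    ring
  rw [hsplit]
  refine le_trans (add_le_add (sum_le_sum fun p _ => sum_le_sum fun q _ => hpair p q)
    (le_of_eq ((one_mul _).symm.trans (congrArg (· * (a * energy (J R) x)) hsum1.symm)))) ?_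
  rw [sum_mul]
  simp only [expo, mul_add, sum_add_distrib]
  refine add_le_add (le_of_eq ?_) (sum_le_sum fun i _ => mul_le_mul_of_nonneg_left (hJ i) ?_)
  · rw [sum_congr rfl fun p _ => sum_comm, sum_comm]
    refine sum_congr rfl fun i _ => ?_
    simp only [mul_neg, sum_neg_distrib, mul_sum]
  · positivity

/-- Jensen over the shifts. -/
theorem exp_sum_le {m : ℕ} (hm : 0 < m) (G : ℕ → ℝ) :
    Real.exp (∑ i ∈ range m, (1 / (m : ℝ)) * G i) ≤
      ∑ i ∈ range m, (1 / (m : ℝ)) * Real.exp (G i) := by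
  have hm0 : (0 : ℝ) < m := by exact_mod_cast hm
  have := convexOn_exp.map_sum_le (t := range m) (w := fun _ => 1 / (m : ℝ)) (p := G)
    (fun _ _ => by positivity)
    (by rw [sum_const, card_range, nsmul_eq_mul, mul_one_div, div_self hm0.ne'])
    (fun _ _ => Set.mem_univ _)
  simpa [smul_eq_mul] using this

theorem cube_blocks {L Λ s : ℝ} (hL : 0 < L) (hs0 : 0 ≤ s) (hs : s < L) {y : R3}
    (hy : y ∈ cube Λ) :
    blockOf s L y ∈ Fintype.piFinset fun _ : Fin 3 => Finset.Icc (-1 : ℤ) ⌊Λ / L⌋ := by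
  simp only [Fintype.mem_piFinset, Finset.mem_Icc, blockOf]
  intro k
  obtain ⟨h1, h2⟩ := hy k
  refine ⟨Int.le_floor.mpr ?_, Int.floor_le_floor ?_⟩
  · push_cast; rw [le_div_iff₀ hL]; linarith
  · gcongr; linarith

theorem card_blocks {L Λ : ℝ} (hL : 0 < L) (hΛ : 0 ≤ Λ) :
    ((Fintype.piFinset fun _ : Fin 3 => Finset.Icc (-1 : ℤ) ⌊Λ / L⌋).card : ℝ) * L ^ 3 ≤
      (Λ + 2 * L) ^ 3 ∧
    0 < (Fintype.piFinset fun _ : Fin 3 => Finset.Icc (-1 : ℤ) ⌊Λ / L⌋).card := by
  have h0 : 0 ≤ ⌊Λ / L⌋ := Int.floor_nonneg.mpr (div_nonneg hΛ hL.le)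
  rw [Fintype.card_piFinset, Int.card_Icc, prod_const, card_univ, Fintype.card_fin]
  have e : ((⌊Λ / L⌋ + 1 - -1).toNat : ℝ) = (⌊Λ / L⌋ : ℝ) + 2 := by
    rw [← Int.cast_natCast, Int.toNat_of_nonneg (by omega)]
    push_cast; ring
  refine ⟨?_, pow_pos (by omega) 3⟩
  push_cast
  rw [e, ← mul_pow]
  refine pow_le_pow_left₀ (mul_nonneg (add_nonneg (by exact_mod_cast h0) zero_le_two) hL.le) ?_ 3
  have := mul_le_mul_of_nonneg_right (Int.floor_le (Λ / L)) hL.le
  rw [div_mul_cancel₀ _ hL.ne'] at this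
  linarith

/-! ### Assembly over configurations -/

/-- If each block weight is at most `exp E`, tilted by `q ^ n`, the grand sum is at most
`(exp E / (1 - q)) ^ #blocks`. -/
theorem Xi_le_blocks {K A' α L Λ z q E : ℝ} {m : ℕ} {φ : ℝ → ℝ} {g' : ℝ → ℝ}
    (hm : 0 < m) (hg' : Mass g' A') (hK : 0 ≤ K) (hA' : 4 * A' ≤ K) (_hα : 0 ≤ α) (hL : 0 < L)
    (hΛ : 0 ≤ Λ) (hz : 0 ≤ z) (hq0 : 0 < q) (hq1 : q < 1)
    (hφ : ∀ N, IntegrableOn (fun x : Fin N → R3 => Real.exp (-(1 : ℝ) * energy φ x))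
      (Set.univ.pi fun _ : Fin N => cube Λ))
    (hsum : Summable fun N => z ^ N * Z φ 1 Λ N)
    (hJensen : ∀ (N : ℕ) (x : Fin N → R3), -energy φ x ≤ ∑ i ∈ range m, (1 / (m : ℝ)) *
      expo (fun r => core K r - g' r) α ((i : ℕ) * L / m) L x)
    (hblock : ∀ n : ℕ, z ^ n * ((1 / (n.factorial : ℝ)) *
      ∫ y in Set.univ.pi (fun _ : Fin n => cube L),
        blockWt (fun r => core K r - g' r) α L n y) ≤ Real.exp E * q ^ n) :
    Xi φ 1 z Λ ≤ (Real.exp E / (1 - q)) ^
      (Fintype.piFinset fun _ : Fin 3 => Finset.Icc (-1 : ℤ) ⌊Λ / L⌋).card := by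
  set B := Fintype.piFinset fun _ : Fin 3 => Finset.Icc (-1 : ℤ) ⌊Λ / L⌋ with hB
  set φ' := fun r => core K r - g' r with hφ'
  have hB0 : 0 < B.card := (card_blocks hL hΛ).2
  have hm0 : (0 : ℝ) < m := by exact_mod_cast hm
  have hφ'm : Measurable φ' := (measurable_core K).sub hg'.meas
  have hwt : ∀ (n : ℕ) (y : Fin n → R3), blockWt φ' α L n y ≤
      Real.exp (α * (n : ℝ) ^ 2 / (2 * L ^ 3) + K / 2 * n) := fun n y => by
    refine Real.exp_le_exp.mpr ?_
    nlinarith [energy_ge hg' hK hA' y, mul_nonneg hK (cellSq_nonneg y)]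
  have hwint : ∀ n : ℕ, IntegrableOn (fun y : Fin n → R3 => blockWt φ' α L n y)
      (Set.univ.pi fun _ : Fin n => cube L) := fun n =>
    IntegrableOn.of_bound (volume_config_lt_top L n)
      ((measurable_const.sub (measurable_energy hφ'm n)).exp.aestronglyMeasurable)
      (Real.exp (α * (n : ℝ) ^ 2 / (2 * L ^ 3) + K / 2 * n))
      (ae_of_all _ fun y => by
        rw [Real.norm_eq_abs, blockWt, abs_of_pos (Real.exp_pos _)]; exact hwt n y)
  -- one block
  have hone : ∀ (s : ℝ) (b : Fin 3 → ℤ) (n : ℕ),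
      z ^ n * ∫ y in Set.univ.pi (fun _ : Fin n => block s L b), blockWt φ' α L n y ≤
        n.factorial * (Real.exp E * q ^ n) := by
    intro s b n
    have htr := setIntegral_translate (cube L) (corner s L b)
      (fun y : Fin n → R3 => blockWt φ' α L n y) fun y => by
        simp only [blockWt, energy_translate]
    have hint : IntegrableOn (fun y : Fin n → R3 => blockWt φ' α L n y)
        (Set.univ.pi fun _ : Fin n => (fun w => -corner s L b + w) ⁻¹' cube L) := by
      have hfin : volume (Set.univ.pi fun _ : Fin n =>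
          (fun w => -corner s L b + w) ⁻¹' cube L) < ⊤ := by
        rw [volume_pi_pi]
        exact ENNReal.prod_lt_top fun _ _ => by
          rw [measure_preimage_add]; exact volume_cube_lt_top L
      exact IntegrableOn.of_bound hfin
        ((measurable_const.sub (measurable_energy hφ'm n)).exp.aestronglyMeasurable)
        (Real.exp (α * (n : ℝ) ^ 2 / (2 * L ^ 3) + K / 2 * n))
        (ae_of_all _ fun y => by
          rw [Real.norm_eq_abs, blockWt, abs_of_pos (Real.exp_pos _)]; exact hwt n y)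
    have hle : ∫ y in Set.univ.pi (fun _ : Fin n => block s L b), blockWt φ' α L n y ≤
        ∫ y in Set.univ.pi (fun _ : Fin n => cube L), blockWt φ' α L n y := by
      rw [← htr]
      exact setIntegral_mono_set hint (ae_of_all _ fun y => (Real.exp_pos _).le)
        (Eventually.of_forall fun y hy k hk => block_subset hL b (hy k hk))
    refine (mul_le_mul_of_nonneg_left hle (pow_nonneg hz n)).trans ?_
    have h := hblock n
    have hf : (0 : ℝ) < n.factorial := by exact_mod_cast n.factorial_pos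
    rw [← mul_assoc, mul_comm (z ^ n) _, mul_assoc, one_div_mul_eq_div, div_le_iff₀ hf] at h
    linarith
  -- one shift
  have hshift : ∀ (N : ℕ) (i : ℕ), i < m →
      IntegrableOn (fun x : Fin N → R3 => Real.exp (expo φ' α ((i : ℕ) * L / m) L x))
        (Set.univ.pi fun _ : Fin N => cube Λ) ∧
      z ^ N * ((1 / (N.factorial : ℝ)) * ∫ x in Set.univ.pi (fun _ : Fin N => cube Λ),
        Real.exp (expo φ' α ((i : ℕ) * L / m) L x)) ≤
        Real.exp E ^ B.card * q ^ N * ((B.card + N - 1).choose N : ℝ) := by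
    intro N i hi
    set s : ℝ := (i : ℕ) * L / m with hs
    have hs0 : 0 ≤ s := by positivity
    have hs1 : s < L := by
      rw [hs, div_lt_iff₀ hm0, mul_comm]
      exact mul_lt_mul_of_pos_left (by exact_mod_cast hi) hL
    have hD : ∀ y ∈ cube Λ, blockOf s L y ∈ B := fun y hy => cube_blocks hL hs0 hs1 hy
    have hbox : ∀ σ : Fin N → B, IntegrableOn (fun x => Real.exp (expo φ' α s L x))
        (Set.univ.pi fun i => block s L (σ i : Fin 3 → ℤ)) := by
      intro σ
      have hms : MeasurableSet (Set.univ.pi fun i => block s L (σ i : Fin 3 → ℤ)) :=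
        MeasurableSet.univ_pi fun _ => measurableSet_block _ _ _
      refine IntegrableOn.of_bound ?_
        (measurable_expo hφ'm α s L N).exp.aestronglyMeasurable
        (∏ b, Real.exp (α * (cnt σ b : ℝ) ^ 2 / (2 * L ^ 3) + K / 2 * cnt σ b)) ?_
      · rw [volume_pi_pi]
        exact ENNReal.prod_lt_top fun _ _ => by
          rw [volume_block hL]; exact ENNReal.ofReal_lt_top
      · filter_upwards [ae_restrict_mem hms] with x hx
        rw [Real.norm_eq_abs, abs_of_pos (Real.exp_pos _), exp_expo_box φ' α s L σ hx]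
        exact prod_le_prod (fun b _ => (Real.exp_pos _).le) fun b _ => hwt _ _
    have hsub : (Set.univ.pi fun _ : Fin N => cube Λ) ⊆
        ⋃ σ : Fin N → B, Set.univ.pi fun i => block s L (σ i : Fin 3 → ℤ) := fun x hx =>
      Set.mem_iUnion.mpr ⟨fun i => ⟨blockOf s L (x i), hD _ (hx i (Set.mem_univ i))⟩,
        fun i _ => rfl⟩
    refine ⟨(integrableOn_finite_iUnion.mpr hbox).mono_set hsub, ?_⟩
    have h1 := integral_le_sum_boxes (f := fun x => Real.exp (expo φ' α s L x)) hD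
      (fun x => (Real.exp_pos _).le) hbox
    have h2 : ∀ σ : Fin N → B, z ^ N *
        ∫ x in Set.univ.pi (fun i => block s L (σ i : Fin 3 → ℤ)),
          Real.exp (expo φ' α s L x) ≤
        (∏ b, ((cnt σ b).factorial : ℝ)) * (Real.exp E ^ B.card * q ^ N) := by
      intro σ
      have e1 : ∫ x in Set.univ.pi (fun i => block s L (σ i : Fin 3 → ℤ)),
          Real.exp (expo φ' α s L x) =
          ∫ x in Set.univ.pi (fun i => block s L (σ i : Fin 3 → ℤ)),
            ∏ b, blockWt φ' α L (cnt σ b) (sub σ b x) :=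
        setIntegral_congr_fun (MeasurableSet.univ_pi fun _ => measurableSet_block _ _ _)
          fun x hx => exp_expo_box φ' α s L σ hx
      rw [e1, integral_prod σ (fun b : B => block s L (b : Fin 3 → ℤ))
        (fun b y => blockWt φ' α L (cnt σ b) y)]
      have ez : z ^ N = ∏ b, z ^ cnt σ b := by rw [prod_pow_eq_pow_sum, sum_cnt]
      rw [ez, ← prod_mul_distrib]
      refine (prod_le_prod (fun b _ => mul_nonneg (pow_nonneg hz _)
        (integral_nonneg fun _ => (Real.exp_pos _).le)) fun b _ => hone s _ _).trans (le_of_eq ?_)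
      rw [prod_mul_distrib, prod_mul_distrib, prod_const, prod_pow_eq_pow_sum, sum_cnt, card_univ,
        Fintype.card_coe]
    calc z ^ N * ((1 / (N.factorial : ℝ)) * ∫ x in Set.univ.pi (fun _ : Fin N => cube Λ),
          Real.exp (expo φ' α s L x))
        ≤ z ^ N * ((1 / (N.factorial : ℝ)) * ∑ σ : Fin N → B,
            ∫ x in Set.univ.pi (fun i => block s L (σ i : Fin 3 → ℤ)),
              Real.exp (expo φ' α s L x)) := by gcongr
      _ = 1 / (N.factorial : ℝ) * ∑ σ : Fin N → B, z ^ N *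
            ∫ x in Set.univ.pi (fun i => block s L (σ i : Fin 3 → ℤ)),
              Real.exp (expo φ' α s L x) := by rw [← mul_sum]; ring
      _ ≤ 1 / (N.factorial : ℝ) * ∑ σ : Fin N → B,
            (∏ b, ((cnt σ b).factorial : ℝ)) * (Real.exp E ^ B.card * q ^ N) :=
          mul_le_mul_of_nonneg_left (sum_le_sum fun σ _ => h2 σ) (by positivity)
      _ = _ := by
          rw [← sum_mul]
          simp only [← Nat.cast_prod, ← Nat.cast_sum]
          rw [sum_prod_factorial, Fintype.card_coe, Nat.ascFactorial_eq_factorial_mul_choose']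
          push_cast
          have : (0 : ℝ) < N.factorial := by exact_mod_cast N.factorial_pos
          field_simp
  -- one particle number
  have hterm : ∀ N, z ^ N * Z φ 1 Λ N ≤
      Real.exp E ^ B.card * q ^ N * ((B.card + N - 1).choose N : ℝ) := by
    intro N
    set T := Real.exp E ^ B.card * q ^ N * ((B.card + N - 1).choose N : ℝ) with hT
    have hint : ∀ i ∈ range m, IntegrableOn (fun x : Fin N → R3 =>
        (1 / (m : ℝ)) * Real.exp (expo φ' α ((i : ℕ) * L / m) L x))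
        (Set.univ.pi fun _ : Fin N => cube Λ) := fun i hi =>
      (hshift N i (mem_range.mp hi)).1.const_mul _
    calc z ^ N * Z φ 1 Λ N
        ≤ z ^ N * ((1 / (N.factorial : ℝ)) * ∫ x in Set.univ.pi (fun _ : Fin N => cube Λ),
            ∑ i ∈ range m, (1 / (m : ℝ)) * Real.exp (expo φ' α ((i : ℕ) * L / m) L x)) := by
          refine mul_le_mul_of_nonneg_left (mul_le_mul_of_nonneg_left ?_ (by positivity))
            (pow_nonneg hz N)
          refine setIntegral_mono_on (hφ N) (integrable_finsetSum _ hint)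
            (measurableSet_config Λ N) fun x _ => ?_
          rw [neg_mul, one_mul]
          exact (Real.exp_le_exp.mpr (hJensen N x)).trans (exp_sum_le hm _)
      _ = ∑ i ∈ range m, (1 / (m : ℝ)) * (z ^ N * ((1 / (N.factorial : ℝ)) *
            ∫ x in Set.univ.pi (fun _ : Fin N => cube Λ),
              Real.exp (expo φ' α ((i : ℕ) * L / m) L x))) := by
          rw [integral_finsetSum _ hint, mul_sum, mul_sum]
          refine sum_congr rfl fun i _ => ?_
          rw [integral_const_mul]; ring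
      _ ≤ ∑ _i ∈ range m, (1 / (m : ℝ)) * T := sum_le_sum fun i hi =>
          mul_le_mul_of_nonneg_left (hshift N i (mem_range.mp hi)).2 (by positivity)
      _ = T := by
          rw [sum_const, card_range, nsmul_eq_mul, ← mul_assoc, mul_one_div, div_self hm0.ne',
            one_mul]
  obtain ⟨k, hk⟩ : ∃ k, B.card = k + 1 := ⟨B.card - 1, by omega⟩
  have hser := (hasSum_choose_mul_geometric_of_norm_lt_one k
    (r := q) (by rwa [Real.norm_eq_abs, abs_of_pos hq0])).mul_left (Real.exp E ^ B.card)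
  refine (hasSum_le (fun N => ?_) hsum.hasSum hser).trans (le_of_eq ?_)
  · refine (hterm N).trans (le_of_eq ?_)
    rw [show B.card + N - 1 = N + k by omega, Nat.choose_symm_add]
    ring
  · rw [hk, div_pow, mul_one_div]

end Up

open Up

/-- A sharper bound on the number of unit cells meeting a cube. -/
theorem sq_le_cellSq' {L : ℝ} (hL : 0 ≤ L) {N : ℕ} {x : Fin N → R3}
    (hx : ∀ i, x i ∈ cube L) : (N : ℝ) ^ 2 ≤ (L + 1) ^ 3 * cellSq x := by
  set S := univ.image (fun i => cellOf (x i)) with hS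
  have hsub : S ⊆ Fintype.piFinset (fun _ : Fin 3 => Finset.Icc (0 : ℤ) ⌊L⌋) := by
    intro c hc
    obtain ⟨i, -, rfl⟩ := mem_image.mp hc
    simp only [Fintype.mem_piFinset, Finset.mem_Icc, cellOf]
    exact fun k => ⟨Int.floor_nonneg.mpr (hx i k).1, Int.floor_le_floor (hx i k).2⟩
  have hcard : (S.card : ℝ) ≤ (L + 1) ^ 3 := by
    have h := card_le_card hsub
    rw [Fintype.card_piFinset, Int.card_Icc, prod_const, card_univ, Fintype.card_fin] at h
    have h0 : 0 ≤ ⌊L⌋ := Int.floor_nonneg.mpr hL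
    have hn : ((⌊L⌋ + 1 - 0).toNat : ℝ) ≤ L + 1 := by
      rw [← Int.cast_natCast, Int.toNat_of_nonneg (by omega)]
      push_cast
      linarith [Int.floor_le L]
    calc (S.card : ℝ) ≤ ((⌊L⌋ + 1 - 0).toNat : ℝ) ^ 3 := by exact_mod_cast h
      _ ≤ (L + 1) ^ 3 := pow_le_pow_left₀ (Nat.cast_nonneg _) hn 3
  have hN : (N : ℝ) = ∑ c ∈ S, ((univ.filter fun i => cellOf (x i) = c).card : ℝ) := by
    rw [← Nat.cast_sum, ← card_eq_sum_card_image, card_univ, Fintype.card_fin]
  rw [hN, cellSq_eq_sum]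
  exact (sq_sum_le_card_mul_sum_sq).trans
    (mul_le_mul_of_nonneg_right hcard (sum_nonneg fun _ _ => sq_nonneg _))

/-- Large numbers of particles in one block. -/
theorem integral_cube_le {K A₀ L R₀ θ : ℝ} {g : ℝ → ℝ}
    (hg' : Mass (fun r => g r / (1 - θ)) (2 * A₀)) (hg : Attr g R₀ A₀) (hK : 0 < K)
    (hA : 8 * A₀ ≤ K) (hθ0 : 0 ≤ θ) (hθ1 : θ ≤ 9 / 100) (hL : 0 < L) (hRL : 100 * R₀ ≤ L)
    (hR₀ : 2 ≤ R₀) (n : ℕ) :
    ∫ y in Set.univ.pi (fun _ : Fin n => cube L),
      Real.exp (-(1 : ℝ) * energy (fun r => core K r - g r / (1 - θ)) y) ≤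
      (L ^ 3) ^ n * Real.exp (K / 2 * n - K * (n : ℝ) ^ 2 / (4 * L ^ 3)) := by
  have hA0 : 0 ≤ A₀ := by
    have h := hg.mass 1 (fun _ => 0)
    have h1 : energy g (fun _ : Fin 1 => (0 : R3)) = 0 := by simp [energy]
    have h2 : cellSq (fun _ : Fin 1 => (0 : R3)) = 1 := by simp [cellSq]
    rw [h1, h2, mul_one] at h
    exact h
  set φ' := fun r => core K r - g r / (1 - θ) with hφ'
  set V := L ^ 3 with hVdef
  have hV : 0 < V := by positivity
  refine (setIntegral_mono_on (integrableOn_boltzmann hg' hK.le (by linarith) L n)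
    (integrableOn_const (volume_config_lt_top L n).ne) (measurableSet_config L n)
    (g := fun _ => Real.exp (K / 2 * n - K * (n : ℝ) ^ 2 / (4 * V)))
    fun y hy => Real.exp_le_exp.mpr ?_).trans (le_of_eq ?_)
  · have hc := sq_le_cellSq' hL.le (x := y) (fun i => hy i trivial)
    have hcube : (L + 1) ^ 3 ≤ 11 / 10 * V := by
      have h1 : L + 1 ≤ (1 + 1 / 100) * L := by linarith
      calc (L + 1) ^ 3 ≤ ((1 + 1 / 100) * L) ^ 3 := pow_le_pow_left₀ (by linarith) h1 3
        _ ≤ _ := by rw [hVdef, mul_pow]; gcongr; norm_num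
    have hge : (K / 2 - 2 * A₀ * (1 + 2 * θ) / 2) * cellSq y - K / 2 * n ≤
        energy φ' y := by
      have h1 : energy φ' y = energy (core K) y - energy g y / (1 - θ) := by
        have h2 : energy (fun r => g r / (1 - θ)) y = energy g y / (1 - θ) := by
          simp only [energy, sum_div]
        rw [hφ', energy_sub, h2]
      have h3 : energy g y / (1 - θ) ≤ A₀ * (1 + 2 * θ) * cellSq y := by
        rw [div_le_iff₀ (by linarith)]
        refine (hg.mass n y).trans ?_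
        nlinarith [mul_nonneg hA0 (cellSq_nonneg y),
          mul_nonneg (mul_nonneg hA0 (cellSq_nonneg y))
            (mul_nonneg hθ0 (by linarith : (0 : ℝ) ≤ 1 - 2 * θ))]
      nlinarith [core_energy_ge hK.le y]
    have hcoef : 11 / 40 * K ≤ K / 2 - 2 * A₀ * (1 + 2 * θ) / 2 := by
      nlinarith [mul_nonneg hA0 hθ0]
    have h5 : K * (n : ℝ) ^ 2 / (4 * V) ≤ 11 / 40 * K * cellSq y := by
      rw [div_le_iff₀ (by positivity)]
      nlinarith [mul_le_mul_of_nonneg_left
        (hc.trans (mul_le_mul_of_nonneg_right hcube (cellSq_nonneg y))) hK.le]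
    nlinarith [mul_le_mul_of_nonneg_right hcoef (cellSq_nonneg y)]
  · rw [setIntegral_const, volume_config hL.le n, smul_eq_mul]

/-- Moderate densities in one block. -/
theorem small_density {a α A₀ ρ₀ μ δ M Cb V ρ R₀ L R P₀ P₁ t : ℝ} {n : ℕ}
    (hρn : (n : ℝ) = ρ * V) (hV : 0 < V) (ha : 0 ≤ a) (haA : a ≤ A₀) (hρ0 : 0 ≤ ρ)
    (hρ : ρ ≤ ρ₀) (hδ0 : 0 ≤ δ) (hδ : δ ≤ R₀ / L) (hα : α ≤ a + 24 * a * (L / R))
    (hterm : Real.exp (μ + a * ρ) ^ n * t ≤ Real.exp (V * P₁))
    (hP : P₁ ≤ P₀ + 18 * Cb * (R₀ / L)) (hM : P₀ - a * ρ ^ 2 / 2 ≤ M) (hu : 0 ≤ L / R) :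
    Real.exp (n * μ + α * (n : ℝ) ^ 2 / (2 * V)) * t ≤
      Real.exp (V * (M + (18 * Cb + ρ₀) * (R₀ / L) + 12 * A₀ * ρ₀ ^ 2 * (L / R))) *
        Real.exp (-δ) ^ n := by
  have e : n * μ + α * (n : ℝ) ^ 2 / (2 * V) =
      V * (α * ρ ^ 2 / 2 - a * ρ ^ 2) + n * (μ + a * ρ) := by
    rw [hρn]; field_simp; ring
  rw [e, Real.exp_add, Real.exp_nat_mul, mul_assoc]
  refine (mul_le_mul_of_nonneg_left hterm (Real.exp_pos _).le).trans ?_
  rw [← Real.exp_nat_mul, ← Real.exp_add, ← Real.exp_add, Real.exp_le_exp]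
  have e2 : ∀ s : ℝ, V * s + (n : ℝ) * -δ = V * (s - ρ * δ) := fun s => by rw [hρn]; ring
  rw [e2, ← mul_add]
  refine mul_le_mul_of_nonneg_left ?_ hV.le
  have hd : ρ * δ ≤ ρ₀ * (R₀ / L) := mul_le_mul hρ hδ hδ0 (hρ0.trans hρ)
  have h1 : (α - a) * ρ ^ 2 ≤ 24 * a * (L / R) * ρ₀ ^ 2 :=
    mul_le_mul (by linarith) (pow_le_pow_left₀ hρ0 hρ 2) (sq_nonneg _) (by positivity)
  have h2 : 24 * a * (L / R) * ρ₀ ^ 2 ≤ 24 * A₀ * (L / R) * ρ₀ ^ 2 := by gcongr
  linarith

/-- Large densities in one block. -/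
theorem large_density {K W α ρ₀ μ δ M V ρ I e₁ e₂ : ℝ} {n : ℕ}
    (hρn : (n : ℝ) = ρ * V) (hV : 0 < V) (hK : 0 < K) (hα : α ≤ K / 4) (hμ : |μ| ≤ W)
    (hρ₀ : ρ₀ = 8 * (W + 2 + K / 2) / K + 1) (hρ : ρ₀ < ρ) (hδ1 : δ ≤ 1)
    (hI : I ≤ V ^ n * Real.exp (K / 2 * n - K * (n : ℝ) ^ 2 / (4 * V)))
    (herr : 0 ≤ e₁ + e₂) (hM : 0 ≤ M) :
    Real.exp (n * μ + α * (n : ℝ) ^ 2 / (2 * V)) * ((1 / (n.factorial : ℝ)) * I) ≤
      Real.exp (V * (M + e₁ + e₂)) * Real.exp (-δ) ^ n := by
  have hfac : V ^ n / (n.factorial : ℝ) ≤ Real.exp V :=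
    Real.pow_div_factorial_le_exp V hV.le n
  have hW : 0 ≤ W := (abs_nonneg μ).trans hμ
  have hρ1 : 1 ≤ ρ := by
    have : 0 ≤ 8 * (W + 2 + K / 2) / K := by positivity
    linarith
  calc Real.exp (n * μ + α * (n : ℝ) ^ 2 / (2 * V)) * ((1 / (n.factorial : ℝ)) * I)
      ≤ Real.exp (n * μ + α * (n : ℝ) ^ 2 / (2 * V)) * ((1 / (n.factorial : ℝ)) *
          (V ^ n * Real.exp (K / 2 * n - K * (n : ℝ) ^ 2 / (4 * V)))) := by gcongr
    _ = Real.exp (n * μ + α * (n : ℝ) ^ 2 / (2 * V) +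
          (K / 2 * n - K * (n : ℝ) ^ 2 / (4 * V))) * (V ^ n / n.factorial) := by
        rw [Real.exp_add (n * μ + α * (n : ℝ) ^ 2 / (2 * V))]; ring
    _ ≤ Real.exp (n * μ + α * (n : ℝ) ^ 2 / (2 * V) +
          (K / 2 * n - K * (n : ℝ) ^ 2 / (4 * V))) * Real.exp V :=
        mul_le_mul_of_nonneg_left hfac (Real.exp_pos _).le
    _ ≤ _ := by
        rw [← Real.exp_nat_mul, ← Real.exp_add, ← Real.exp_add, Real.exp_le_exp]
        have e1 : n * μ + α * (n : ℝ) ^ 2 / (2 * V) +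
            (K / 2 * n - K * (n : ℝ) ^ 2 / (4 * V)) + V =
            V * (ρ * μ + α * ρ ^ 2 / 2 + K / 2 * ρ - K * ρ ^ 2 / 4 + 1) := by
          rw [hρn]; field_simp; ring
        have e2 : ∀ t : ℝ, V * t + (n : ℝ) * -δ = V * (t - ρ * δ) := fun t => by
          rw [hρn]; ring
        rw [e1, e2]
        refine mul_le_mul_of_nonneg_left ?_ hV.le
        have h2 : 8 * (W + 2 + K / 2) / K < ρ := by linarith
        rw [div_lt_iff₀ hK] at h2
        have h3 := mul_le_mul_of_nonneg_right h2.le (by linarith : (0 : ℝ) ≤ ρ)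
        have h5 : ρ * μ ≤ ρ * W :=
          mul_le_mul_of_nonneg_left ((le_abs_self μ).trans hμ) (by linarith)
        have h6 : ρ * δ ≤ ρ * 1 := mul_le_mul_of_nonneg_left hδ1 (by linarith)
        have h7 := mul_le_mul_of_nonneg_right hα (sq_nonneg ρ)
        linarith

/-- One block: the mean-field bound. -/
theorem block_bound {K A₀ W a α L R R₀ θ μ δ Cb ρ₀ M : ℝ} {g : ℝ → ℝ}
    (hg : Attr g R₀ A₀) (hK : 0 < K) (hA : 8 * A₀ ≤ K) (ha : 0 < a) (haA : a ≤ A₀)
    (hR₀ : 2 ≤ R₀) (hRL : 100 * R₀ ≤ L) (hLR : 100 * L ≤ R) (hθ : θ = 9 * R₀ / L)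
    (hα : α = a * (1 + 6 * L / R) ^ 3) (hμ : |μ| ≤ W) (hδ0 : 0 ≤ δ) (hδ : δ ≤ R₀ / L)
    (hρ₀ : ρ₀ = 8 * (W + 2 + K / 2) / K + 1)
    (hCb : Cb = 4 * K + 1 + 16 * (W + A₀ * ρ₀) ^ 2 / K) (hM0 : 0 ≤ M)
    (hM : ∀ n : ℕ, (n : ℝ) ≤ ρ₀ * L ^ 3 →
      P (fun r => core K r - g r) L (μ + a * (n / L ^ 3)) - a * (n / L ^ 3) ^ 2 / 2 ≤ M)
    (n : ℕ) :
    Real.exp μ ^ n * ((1 / (n.factorial : ℝ)) *
      ∫ y in Set.univ.pi (fun _ : Fin n => cube L),
        blockWt (fun r => core K r - g r / (1 - θ)) α L n y) ≤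
      Real.exp (L ^ 3 * (M + (18 * Cb + ρ₀) * (R₀ / L) + 12 * A₀ * ρ₀ ^ 2 * (L / R))) *
        Real.exp (-δ) ^ n := by
  have hL : 0 < L := by linarith
  have hL1 : 1 ≤ L := by linarith
  have hV : 0 < L ^ 3 := by positivity
  have hR : 0 < R := by linarith
  have hA0 : 0 < A₀ := lt_of_lt_of_le ha haA
  have hθ0 : 0 ≤ θ := by rw [hθ]; positivity
  have hθ1 : θ ≤ 9 / 100 := by rw [hθ, div_le_iff₀ hL]; linarith
  set p := θ / (1 - θ) with hp
  have hp0 : 0 ≤ p := div_nonneg hθ0 (by linarith)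
  have hp2 : p ≤ 2 * θ := by rw [hp, div_le_iff₀ (by linarith)]; nlinarith
  have hW : 0 ≤ W := le_trans (abs_nonneg μ) hμ
  have hρ1 : 1 ≤ ρ₀ := by
    have : 0 ≤ 8 * (W + 2 + K / 2) / K := by positivity
    linarith
  -- the enlarged attraction as a mixture
  have hg2 : Mass (fun r => 2 * g r) (2 * A₀) :=
    ⟨hg.meas.const_mul 2, fun r => mul_nonneg zero_le_two (hg.nonneg r), fun N x => by
      rw [energy_const_mul, mul_assoc]; exact mul_le_mul_of_nonneg_left (hg.mass N x) zero_le_two⟩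
  have hg1 : Mass g (2 * A₀) := ⟨hg.meas, hg.nonneg, fun N x =>
    (hg.mass N x).trans (mul_le_mul_of_nonneg_right (by linarith) (cellSq_nonneg x))⟩
  have hgθ : (fun r => g r / (1 - θ)) = fun r => (1 - p) * g r + p * (2 * g r) := by
    funext r
    have : 1 - θ ≠ 0 := by linarith
    rw [hp]; field_simp; ring
  have hg' : Mass (fun r => g r / (1 - θ)) (2 * A₀) := by
    rw [hgθ]; exact hg1.mix hg2 (by linarith) hp0 (by ring)
  set φ' := fun r => core K r - g r / (1 - θ) with hφ'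
  set V := L ^ 3 with hVdef
  set ρ : ℝ := n / V with hρ
  have hρn : (n : ℝ) = ρ * V := by rw [hρ, div_mul_cancel₀ _ hV.ne']
  have hρ0 : 0 ≤ ρ := by positivity
  set I := ∫ y in Set.univ.pi (fun _ : Fin n => cube L), Real.exp (-(1 : ℝ) * energy φ' y) with hI
  have hI0 : 0 ≤ I := integral_nonneg fun _ => (Real.exp_pos _).le
  have hwI : ∫ y in Set.univ.pi (fun _ : Fin n => cube L), blockWt φ' α L n y =
      Real.exp (α * (n : ℝ) ^ 2 / (2 * V)) * I := by
    rw [hI, ← integral_const_mul]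
    refine integral_congr_ae (ae_of_all _ fun y => ?_)
    simp only [blockWt, ← hVdef, neg_mul, one_mul, ← Real.exp_add, sub_eq_add_neg]
  rw [hwI]
  set ε := 6 * L / R with hε
  have hε0 : 0 ≤ ε := by positivity
  have hε1 : ε ≤ 6 / 100 := by rw [hε, div_le_iff₀ hR]; linarith
  have hα1 : α ≤ a + 4 * a * ε := by
    rw [hα]
    nlinarith [mul_nonneg ha.le (mul_nonneg hε0 (sub_nonneg.mpr hε1)),
      mul_nonneg ha.le (pow_nonneg hε0 2), mul_nonneg (mul_nonneg ha.le (pow_nonneg hε0 2))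
        (sub_nonneg.mpr hε1)]
  have hα1' : α ≤ a + 24 * a * (L / R) := by
    refine hα1.trans (le_of_eq ?_)
    rw [hε]; ring
  have hα2 : α ≤ 2 * a := hα1.trans (by nlinarith [mul_le_mul_of_nonneg_left hε1 ha.le])
  have herr : 0 ≤ (18 * Cb + ρ₀) * (R₀ / L) + 12 * A₀ * ρ₀ ^ 2 * (L / R) := by
    have : 0 ≤ Cb := by rw [hCb]; positivity
    positivity
  have eq1 : Real.exp μ ^ n * ((1 / (n.factorial : ℝ)) *
      (Real.exp (α * (n : ℝ) ^ 2 / (2 * V)) * I)) =
      Real.exp (n * μ + α * (n : ℝ) ^ 2 / (2 * V)) * ((1 / (n.factorial : ℝ)) * I) := by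
    rw [Real.exp_add, Real.exp_nat_mul]; ring
  rw [eq1]
  rcases le_or_gt ρ ρ₀ with hsmall | hlarge
  · -- moderate densities
    set x := μ + a * ρ with hx
    have hxb : |x| ≤ W + A₀ * ρ₀ := by
      calc |x| ≤ |μ| + |a * ρ| := abs_add_le _ _
        _ ≤ W + A₀ * ρ₀ := by
            rw [abs_of_nonneg (mul_nonneg ha.le hρ0)]
            exact add_le_add hμ (mul_le_mul haA hsmall hρ0 hA0.le)
    have hK' : 4 * (2 * A₀) ≤ K := by linarith
    have hterm : Real.exp x ^ n * ((1 / (n.factorial : ℝ)) * I) ≤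
        Real.exp (V * P φ' L x) := by
      rw [← Xi_eq_exp hg' hK hK' hL1 x]
      exact (summable_terms hg' hK hK' hL1 x).le_tsum n
        fun N _ => mul_nonneg (by positivity) (Z_nonneg _ _ _ _)
    have hP' : P φ' L x ≤ P (fun r => core K r - g r) L x + 18 * Cb * (R₀ / L) := by
      have h := P_mix hg1 hg2 hK hK' hL1 (p := 1 - p) (q := p) (by linarith) hp0 (by ring) x x
      rw [show (1 - p) * x + p * x = x by ring] at h
      have e : (fun r => core K r - ((1 - p) * g r + p * (2 * g r))) = φ' := by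
        funext r
        have h1 := congrFun hgθ r
        simp only [hφ'] at h1 ⊢
        rw [h1]
      rw [e] at h
      have hn1 := nice_P hg1 hK hK' hL1
      have hn2 := nice_P hg2 hK hK' hL1
      have hb2 : P (fun r => core K r - 2 * g r) L x ≤ Cb := by
        refine (hn2.growth x).trans ?_
        have hsq : x ^ 2 ≤ (W + A₀ * ρ₀) ^ 2 :=
          (sq_abs x).symm.le.trans (pow_le_pow_left₀ (abs_nonneg x) hxb 2)
        rw [hCb, show 2 * (K / 32) = K / 16 by ring, div_div_eq_mul_div, mul_comm (x ^ 2)]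
        gcongr
      have hCb0 : 0 ≤ Cb := by rw [hCb]; positivity
      calc P φ' L x ≤ _ := h
        _ ≤ 1 * P (fun r => core K r - g r) L x + (2 * θ) * Cb :=
            add_le_add (mul_le_mul_of_nonneg_right (by linarith) (hn1.nonneg x))
              (mul_le_mul hp2 hb2 (hn2.nonneg x) (by positivity))
        _ = _ := by rw [hθ]; ring
    have hm := hM n (by rw [hρn]; exact mul_le_mul_of_nonneg_right hsmall hV.le)
    exact small_density hρn hV ha.le haA hρ0 hsmall hδ0 hδ hα1' hterm hP' hm (by positivity)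
  · -- large densities
    exact large_density hρn hV hK (by linarith : α ≤ K / 4) hμ hρ₀ hlarge (hδ.trans
      (by rw [div_le_one hL]; linarith)) (integral_cube_le hg' hg hK hA hθ0 hθ1 hL hRL hR₀ n) herr hM0

theorem one_add_cube_le {u v : ℝ} (hu0 : 0 ≤ u) (hu1 : u ≤ 1 / 10) (huv : u ≤ 2 * v) :
    (1 + u) ^ 3 ≤ 1 + 8 * v := by
  nlinarith [mul_nonneg hu0 (sub_nonneg.mpr hu1), mul_nonneg (mul_nonneg hu0 hu0)
    (sub_nonneg.mpr hu1)]

/-- The pressure against the best block value, in the good regime. -/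
theorem P_le_block {cJ A₀ K W ρ₀ Cb M a L R R₀ Λ μ : ℝ} {g : ℝ → ℝ}
    (hg : Attr g R₀ A₀) (hA₀ : 0 ≤ A₀) (hK0 : 0 < K) (hA4' : 4 * (A₀ + A₀ * cJ) ≤ K)
    (hK8 : 8 * A₀ ≤ K) (hgJ : Mass (fun r => g r + a * J R r) (A₀ + A₀ * cJ))
    (ha : 0 < a) (haA : a ≤ A₀) (hR₀ : 2 ≤ R₀) (hRL' : 100 * R₀ ≤ L) (hLR' : 100 * L ≤ R)
    (hRΛ : R ≤ Λ) (hμ : |μ| ≤ W) (hρ₀ : ρ₀ = 8 * (W + 2 + K / 2) / K + 1)
    (hCb : Cb = 4 * K + 1 + 16 * (W + A₀ * ρ₀) ^ 2 / K) (hρ₀0 : 0 < ρ₀) (hCb0 : 0 < Cb)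
    (hM0 : 0 ≤ M)
    (hM : ∀ n : ℕ, (n : ℝ) ≤ ρ₀ * L ^ 3 →
      P (fun r => core K r - g r) L (μ + a * (n / L ^ 3)) - a * (n / L ^ 3) ^ 2 / 2 ≤ M) :
    P (fun r => core K r - g r - a * J R r) Λ μ ≤
      (M + (18 * Cb + ρ₀ + 2) * (R₀ / L) + 12 * A₀ * ρ₀ ^ 2 * (L / R)) * (1 + 8 * (L / R)) := by
  have hL : 0 < L := by linarith
  have hL1 : 1 ≤ L := by linarith
  have hR : 0 < R := by linarith
  have hΛ : 0 < Λ := by linarith
  have hΛ1 : 1 ≤ Λ := by linarith
  have hφa : (fun r => core K r - g r - a * J R r) =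
      fun r => core K r - (g r + a * J R r) := funext fun r => by ring
  rw [hφa]
  set φa := fun r => core K r - (g r + a * J R r) with hφadef
  set θ := 9 * R₀ / L with hθ
  set α := a * (1 + 6 * L / R) ^ 3 with hα
  set δ := 1 / L with hδ
  set m := ⌊L / R₀⌋₊ with hm
  set E := L ^ 3 * (M + (18 * Cb + ρ₀) * (R₀ / L) + 12 * A₀ * ρ₀ ^ 2 * (L / R)) with hE
  have hδ0 : 0 < δ := by positivity
  have hδ1 : δ ≤ 1 := by rw [hδ, div_le_one hL]; exact hL1
  have hθ1 : θ ≤ 9 / 100 := by rw [hθ, div_le_iff₀ hL]; linarith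
  have hθ0 : 0 ≤ θ := by positivity
  have hg' : Mass (fun r => g r / (1 - θ)) (2 * A₀) := by
    refine ⟨hg.meas.div_const _, fun r => div_nonneg (hg.nonneg r) (by linarith), fun N y => ?_⟩
    have h2 : energy (fun r => g r / (1 - θ)) y = energy g y / (1 - θ) := by
      simp only [energy, sum_div]
    rw [h2, div_le_iff₀ (by linarith)]
    refine (hg.mass N y).trans ?_
    nlinarith [mul_nonneg hA₀ (cellSq_nonneg y)]
  have hq : Real.exp (-δ) < 1 := Real.exp_lt_one_iff.mpr (by linarith)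
  have hblocks := Xi_le_blocks (φ := φa) (z := Real.exp μ) (q := Real.exp (-δ)) (E := E) (α := α)
    (m := m) (L := L) (Λ := Λ)
    (Nat.floor_pos.mpr (by rw [le_div_iff₀ (by linarith)]; linarith))
    hg' hK0.le (by linarith) (by positivity) hL hΛ.le (Real.exp_pos _).le (Real.exp_pos _) hq
    (fun N => integrableOn_boltzmann hgJ hK0.le hA4' Λ N)
    (summable_terms hgJ hK0 hA4' hΛ1 μ)
    (fun N y => by
      have h := neg_energy_le (a := a) (R := R) hg hK0.le ha.le hθ (by linarith) hL hR (by linarith)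
        (by linarith) y
      rw [hφa] at h
      exact h)
    (fun n => block_bound hg hK0 (by linarith) ha haA hR₀ hRL' hLR' hθ hα hμ hδ0.le
      (by rw [hδ]; gcongr; linarith) hρ₀ hCb hM0 hM n)
  rw [Xi_eq_exp hgJ hK0 hA4' hΛ1, ← Real.exp_log (show 0 < Real.exp E / (1 - Real.exp (-δ)) from
    div_pos (Real.exp_pos _) (by linarith)), ← Real.exp_nat_mul, Real.exp_le_exp,
    Real.log_div (Real.exp_pos _).ne' (by linarith), Real.log_exp] at hblocks
  set B := (Fintype.piFinset fun _ : Fin 3 => Finset.Icc (-1 : ℤ) ⌊Λ / L⌋).card with hB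
  have hlog : -Real.log (1 - Real.exp (-δ)) ≤ 2 * L := by
    have h1 : δ / 2 ≤ 1 - Real.exp (-δ) := by
      have h2 : Real.exp (-δ) ≤ 1 / (1 + δ) := by
        rw [Real.exp_neg, ← one_div]
        exact one_div_le_one_div_of_le (by linarith) (by linarith [Real.add_one_le_exp δ])
      have h3 : 1 / (1 + δ) ≤ 1 - δ / 2 := by
        rw [div_le_iff₀ (by linarith)]; nlinarith
      linarith
    have h4 : Real.log (δ / 2) ≤ Real.log (1 - Real.exp (-δ)) :=
      Real.log_le_log (by positivity) h1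
    have e : Real.log (δ / 2) = -Real.log (2 * L) := by
      rw [← Real.log_inv]; congr 1; rw [hδ]; field_simp
    have h5 := Real.log_le_sub_one_of_pos (show 0 < 2 * L by linarith)
    linarith
  set Q := M + (18 * Cb + ρ₀ + 2) * (R₀ / L) + 12 * A₀ * ρ₀ ^ 2 * (L / R) with hQ
  have hQ1 : E - Real.log (1 - Real.exp (-δ)) ≤ L ^ 3 * Q := by
    have h1 : 2 * L ≤ L ^ 3 * (2 * (R₀ / L)) := by
      rw [show L ^ 3 * (2 * (R₀ / L)) = 2 * R₀ * L ^ 2 by field_simp]
      nlinarith
    rw [hE, hQ]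
    linarith
  have hu : R₀ / L ≤ 1 := by rw [div_le_one hL]; linarith
  have hv : L / R ≤ 1 := by rw [div_le_one hR]; linarith
  have hQ0 : 0 ≤ Q := by positivity
  have hmain : Λ ^ 3 * P φa Λ μ ≤ (Λ + 2 * L) ^ 3 * Q := by
    refine hblocks.trans ?_
    calc (B : ℝ) * (E - Real.log (1 - Real.exp (-δ))) ≤ (B : ℝ) * (L ^ 3 * Q) :=
          mul_le_mul_of_nonneg_left hQ1 (Nat.cast_nonneg _)
      _ = ((B : ℝ) * L ^ 3) * Q := by ring
      _ ≤ _ := mul_le_mul_of_nonneg_right (card_blocks hL hΛ.le).1 hQ0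
  have hu2 : 2 * L / Λ ≤ 2 * (L / R) := by
    rw [mul_div_assoc]; gcongr
  have hu3 : 2 * L / Λ ≤ 1 / 10 := by rw [div_le_iff₀ hΛ]; linarith
  have hu0 : 0 ≤ 2 * L / Λ := by positivity
  have hcube : (Λ + 2 * L) ^ 3 ≤ Λ ^ 3 * (1 + 8 * (L / R)) := by
    have e : (Λ + 2 * L) ^ 3 = Λ ^ 3 * (1 + 2 * L / Λ) ^ 3 := by
      rw [← mul_pow]; congr 1; field_simp
    rw [e]
    refine mul_le_mul_of_nonneg_left ?_ (by positivity)
    exact one_add_cube_le hu0 hu3 hu2
  have hP : P φa Λ μ ≤ Q * (1 + 8 * (L / R)) := by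
    refine le_of_mul_le_mul_left ?_ (show 0 < Λ ^ 3 by positivity)
    calc Λ ^ 3 * P φa Λ μ ≤ (Λ + 2 * L) ^ 3 * Q := hmain
      _ ≤ Λ ^ 3 * (1 + 8 * (L / R)) * Q := mul_le_mul_of_nonneg_right hcube hQ0
      _ = _ := by ring
  exact hP

/-- **Upper half of the Kac step.** -/
theorem upperStep : UpperStep := by
  intro cJ A₀ K W hJ hA₀ hK hW
  have hcJ : 0 ≤ cJ := by
    have h := (hJ 1 le_rfl).mass 1 (fun _ => 0)
    have h1 : energy (J 1) (fun _ : Fin 1 => (0 : R3)) = 0 := by simp [energy]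
    have h2 : cellSq (fun _ : Fin 1 => (0 : R3)) = 1 := by simp [cellSq]
    rw [h1, h2, mul_one] at h
    exact h
  have hAcJ : 0 ≤ A₀ * cJ := mul_nonneg hA₀ hcJ
  have hK0 : 0 < K := by linarith
  set ρ₀ := 8 * (W + 2 + K / 2) / K + 1 with hρ₀
  set Cb := 4 * K + 1 + 16 * (W + A₀ * ρ₀) ^ 2 / K with hCb
  set S := Cb + (18 * Cb + ρ₀ + 4) + 12 * A₀ * ρ₀ ^ 2 with hS
  have hρ₀0 : 0 < ρ₀ := by positivity
  have hCb0 : 0 < Cb := by positivity
  refine ⟨100 * (4 * K + 1 + 16 * W ^ 2 / K) + (W + A₀ * ρ₀) + 20 * S, ?_⟩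
  intro g R₀ a L R Λ μ hg hR₀ ha haA hR₀L hLR hRΛ hμ
  set C := 100 * (4 * K + 1 + 16 * W ^ 2 / K) + (W + A₀ * ρ₀) + 20 * S with hC
  have hS0 : 0 ≤ S := by positivity
  have hAρ : 0 ≤ A₀ * ρ₀ := by positivity
  have hT0 : 0 ≤ 4 * K + 1 + 16 * W ^ 2 / K := by positivity
  have hC1 : W + A₀ * ρ₀ ≤ C := by linarith
  have hC2 : 100 * (4 * K + 1 + 16 * W ^ 2 / K) ≤ C := by linarith
  have hC3 : 20 * S ≤ C := by linarith
  have hL : 0 < L := by linarith
  have hL1 : 1 ≤ L := by linarith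
  have hR : 0 < R := by linarith
  have hΛ : 0 < Λ := by linarith
  have hΛ1 : 1 ≤ Λ := by linarith
  have hgm : Mass g A₀ := hg.toMass
  have hA4 : 4 * A₀ ≤ K := by linarith
  have hgJ : Mass (fun r => g r + a * J R r) (A₀ + A₀ * cJ) := by
    have hJR := hJ R (by linarith)
    refine ⟨hg.meas.add (hJR.meas.const_mul a),
      fun r => add_nonneg (hg.nonneg r) (mul_nonneg ha.le (hJR.nonneg r)), fun N x => ?_⟩
    rw [energy_add, energy_const_mul, add_mul, mul_assoc]
    exact add_le_add (hg.mass N x)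
      (mul_le_mul haA (hJR.mass N x) (energy_nonneg hJR.nonneg x) hA₀)
  have hA4' : 4 * (A₀ + A₀ * cJ) ≤ K := by linarith
  have hφa : (fun r => core K r - g r - a * J R r) =
      fun r => core K r - (g r + a * J R r) := funext fun r => by ring
  rw [hφa]
  set φa := fun r => core K r - (g r + a * J R r) with hφadef
  set f : ℝ → ℝ := fun x => P (fun r => core K r - g r) L x - (x - μ) ^ 2 / (2 * a) with hf
  have hnice := nice_P hgm hK0 hA4 hL1
  have hfμ : 0 ≤ f μ := by simp only [hf, sub_self]; simpa using hnice.nonneg μ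
  have hC0 : 0 ≤ C := by linarith
  by_cases hgood : 100 * R₀ ≤ L ∧ 100 * L ≤ R
  swap
  · refine ⟨μ, le_trans hμ (by linarith), ?_⟩
    have hbig : 1 / 100 ≤ R₀ / L + L / R + R / Λ := by
      rcases not_and_or.mp hgood with h | h <;> push Not at h
      · have : 1 / 100 ≤ R₀ / L := by rw [le_div_iff₀ hL]; linarith
        linarith [show 0 ≤ L / R by positivity, show 0 ≤ R / Λ by positivity]
      · have : 1 / 100 ≤ L / R := by rw [le_div_iff₀ hR]; linarith
        linarith [show 0 ≤ R₀ / L by positivity, show 0 ≤ R / Λ by positivity]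
    have h1 := (nice_P hgJ hK0 hA4' hΛ1).growth μ
    rw [show 2 * (K / 32) = K / 16 by ring, div_div_eq_mul_div] at h1
    have h2 : μ ^ 2 * 16 / K ≤ 16 * W ^ 2 / K := by
      rw [mul_comm (μ ^ 2)]
      exact div_le_div_of_nonneg_right (mul_le_mul_of_nonneg_left
        (sq_le_sq.mpr (by rwa [abs_of_nonneg hW])) (by norm_num)) hK0.le
    have h3 : C * (1 / 100) ≤ C * (R₀ / L + L / R + R / Λ) := mul_le_mul_of_nonneg_left hbig hC0
    linarith
  obtain ⟨hRL', hLR'⟩ := hgood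
  -- candidates
  set cand : Finset ℝ := insert μ ((Finset.range (⌊ρ₀ * L ^ 3⌋₊ + 1)).image
    fun n : ℕ => μ + a * ((n : ℝ) / L ^ 3)) with hcand
  obtain ⟨x, hxmem, hxmax⟩ := exists_max_image cand f ⟨μ, mem_insert_self _ _⟩
  have hV : 0 < L ^ 3 := by positivity
  have hxb : |x| ≤ W + A₀ * ρ₀ := by
    rcases mem_insert.mp hxmem with rfl | h
    · linarith
    · obtain ⟨n, hn, rfl⟩ := mem_image.mp h
      have hn' : (n : ℝ) ≤ ρ₀ * L ^ 3 :=
        (Nat.cast_le.mpr (Nat.lt_succ_iff.mp (mem_range.mp hn))).trans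
          (Nat.floor_le (by positivity))
      refine (abs_add_le _ _).trans (add_le_add hμ ?_)
      rw [abs_of_nonneg (by positivity)]
      exact mul_le_mul haA (by rw [div_le_iff₀ hV]; exact hn') (by positivity) hA₀
  refine ⟨x, le_trans hxb hC1, ?_⟩
  set M := f x with hMdef
  have hM0 : 0 ≤ M := hfμ.trans (hxmax μ (mem_insert_self _ _))
  have hM : ∀ n : ℕ, (n : ℝ) ≤ ρ₀ * L ^ 3 →
      P (fun r => core K r - g r) L (μ + a * (n / L ^ 3)) - a * (n / L ^ 3) ^ 2 / 2 ≤ M := by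
    intro n hn
    have h := hxmax (μ + a * ((n : ℝ) / L ^ 3)) (mem_insert_of_mem (mem_image.mpr
      ⟨n, mem_range.mpr (Nat.lt_succ_iff.mpr (Nat.le_floor hn)), rfl⟩))
    refine le_trans (le_of_eq ?_) h
    simp only [hf, add_sub_cancel_left]
    congr 1
    field_simp
  have hMle : M ≤ Cb := by
    have h1 : M ≤ P (fun r => core K r - g r) L x := by
      simp only [hMdef, hf]
      linarith [show 0 ≤ (x - μ) ^ 2 / (2 * a) by positivity]
    refine h1.trans ((hnice.growth x).trans ?_)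
    rw [show 2 * (K / 32) = K / 16 by ring, div_div_eq_mul_div, mul_comm (x ^ 2), hCb]
    exact add_le_add_right (div_le_div_of_nonneg_right (mul_le_mul_of_nonneg_left
      (sq_le_sq.mpr (by rwa [abs_of_nonneg (by positivity : (0 : ℝ) ≤ W + A₀ * ρ₀)]))
      (by norm_num)) hK0.le) _
  have hP := P_le_block hg hA₀ hK0 hA4' (by linarith) hgJ ha haA hR₀ hRL' hLR' hRΛ hμ hρ₀ hCb
    hρ₀0 hCb0 hM0 hM
  rw [hφa] at hP
  set Q := M + (18 * Cb + ρ₀ + 2) * (R₀ / L) + 12 * A₀ * ρ₀ ^ 2 * (L / R) with hQ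
  have hu : R₀ / L ≤ 1 := by rw [div_le_one hL]; linarith
  have hv : L / R ≤ 1 := by rw [div_le_one hR]; linarith
  have hQS : Q ≤ S := by
    have h1 : (18 * Cb + ρ₀ + 2) * (R₀ / L) ≤ 18 * Cb + ρ₀ + 2 :=
      mul_le_of_le_one_right (by positivity) hu
    have h2 : 12 * A₀ * ρ₀ ^ 2 * (L / R) ≤ 12 * A₀ * ρ₀ ^ 2 :=
      mul_le_of_le_one_right (by positivity) hv
    rw [hQ, hS]
    linarith
  have hfin : Q * (1 + 8 * (L / R)) ≤ M + C * (R₀ / L + L / R + R / Λ) := by
    have h1 : Q * (8 * (L / R)) ≤ S * (8 * (L / R)) :=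
      mul_le_mul_of_nonneg_right hQS (by positivity)
    have h2 : (18 * Cb + ρ₀ + 2) * (R₀ / L) ≤ C * (R₀ / L) := by
      refine mul_le_mul_of_nonneg_right ?_ (by positivity)
      linarith [show 0 ≤ 12 * A₀ * ρ₀ ^ 2 by positivity]
    have h3 : (12 * A₀ * ρ₀ ^ 2 + 8 * S) * (L / R) ≤ C * (L / R) := by
      refine mul_le_mul_of_nonneg_right ?_ (by positivity)
      linarith
    have h4 : 0 ≤ C * (R / Λ) := by positivity
    rw [hQ] at h1 ⊢
    linarith
  simp only [hMdef, hf] at hfin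
  linarith

end Vale.Agent.P171
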